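import Vale.Agent.N197T.Spec
import Vale.Agent.P197.TS.Tw
import Vale.Agent.P197.TS.Irr
import Vale.Agent.P197.TS.Gap

/-!
# The abstract properties of `Pos`: Kronecker positivity, symmetries, semigroup property
-/

namespace Vale.Agent.N197T

open Equiv Finset Vale.Agent.P197 Vale.Agent.P197.H369 Vale.Agent.N197

noncomputable section

section Basic

variable {X : Type} [Fintype X] [DecidableEq X]

/-- A nonvanishing occurrence sum forces the polynomial to be nonzero. -/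
theorem hw_ne_of_occ (rl cl r c r' c' : X → ℕ) (b : BF X)
    (hne : occ rl cl (Fn b (polyt c r) (polyt c' r')) ≠ 0) : hw cl rl c r c' r' ≠ 0 := by
  let y : (X → ℕ) → (X → ℕ) → ℂ := fun u u' => ∑ ρ ∈ stab rl,
    b (wordRep X ρ (Finsupp.single u 1)) (wordRep X ρ (Finsupp.single u' 1))
  have hk : ∀ v w : WM X, kform y v w = ∑ ρ ∈ stab rl, b (wordRep X ρ v) (wordRep X ρ w) := by
    intro v w
    induction v using Finsupp.induction_linear with
    | zero => simp
    | add v v' h h' => simp only [map_add, LinearMap.add_apply, h, h', Finset.sum_add_distrib]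
    | single u a =>
      induction w using Finsupp.induction_linear with
      | zero => simp
      | add w w' h h' => simp only [map_add, h, h', Finset.sum_add_distrib]
      | single u' a' =>
        rw [kform_single, Finset.mul_sum, Finset.mul_sum]
        refine Finset.sum_congr rfl fun ρ _ => ?_
        have e : ∀ (u : X → ℕ) (a : ℂ), Finsupp.single u a = a • Finsupp.single u (1 : ℂ) := by
          intro u a
          simp
        rw [e u a, e u' a']
        simp only [map_smul, LinearMap.smul_apply, smul_eq_mul]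
        ring
  have hy : ∀ ρ ∈ stab rl, ∀ u u' : X → ℕ, y (u ∘ ρ) (u' ∘ ρ) = y u u' := by
    intro ρ hρ u u'
    have e : ∀ u : X → ℕ, Finsupp.single (u ∘ ⇑ρ) (1 : ℂ) =
        wordRep X ρ⁻¹ (Finsupp.single u 1) := by
      intro u
      rw [wordRep_single, inv_inv]
    simp only [y]
    rw [e, e]
    refine Finset.sum_bij' (fun g _ => g * ρ⁻¹) (fun g _ => g * ρ) ?_ ?_ ?_ ?_ ?_
    · intro g hg
      exact Conj.mul_mem_stab hg (Conj.inv_mem_stab hρ)
    · intro g hg
      exact Conj.mul_mem_stab hg hρ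
    · intro g _
      simp
    · intro g _
      simp
    · intro g _
      simp only [map_mul, Module.End.mul_apply]
  intro h0
  apply hne
  obtain ⟨L, hL⟩ := exists_linear rl y hy
  have h1 := sum_eq_map L rl cl c c' r r' y hL
  rw [h0, map_zero] at h1
  rw [← h1]
  unfold occ
  rw [Finset.sum_comm]
  refine Finset.sum_congr rfl fun π _ => ?_
  unfold Fn
  rw [hk, Finset.mul_sum]
  refine Finset.sum_congr rfl fun ρ _ => ?_
  simp only [map_mul, Module.End.mul_apply]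

/-- A nonzero polynomial gives a nonvanishing occurrence sum. -/
theorem occ_of_hw_ne (rl cl r c r' c' : X → ℕ) (hne : hw cl rl c r c' r' ≠ 0) :
    ∃ b : BF X, occ rl cl (Fn b (polyt c r) (polyt c' r')) ≠ 0 := by
  obtain ⟨d, hd⟩ := MvPolynomial.ne_zero_iff.1 hne
  refine ⟨kform fun u u' => MvPolynomial.lcoeff ℂ d (mon rl u u'),
    occ_of_kernel rl cl _ _ _ ?_ ?_⟩
  · intro ρ hρ u u'
    have h1 : rl ∘ ⇑ρ = rl := funext (mem_stab.1 hρ)
    have h2 := mon_comp rl u u' ρ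
    rw [h1] at h2
    simp only [h2]
  · rw [sum_eq_map (MvPolynomial.lcoeff ℂ d) rl cl c c' r r' _ (fun _ _ => rfl)]
    exact hd

theorem sum_stab_inv {M : Type} [AddCommMonoid M] (c : X → ℕ) (F : Perm X → M) :
    ∑ π ∈ stab c, F π⁻¹ = ∑ π ∈ stab c, F π := by
  refine Finset.sum_bij' (fun g _ => g⁻¹) (fun g _ => g⁻¹) ?_ ?_ ?_ ?_ ?_
  · intro g hg
    exact Conj.inv_mem_stab hg
  · intro g hg
    exact Conj.inv_mem_stab hg
  · intro g _
    exact inv_inv g
  · intro g _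
    exact inv_inv g
  · intro g _
    rfl

/-- The symmetric form of the polynomial. -/
theorem hw_eq (c1 r1 c2 r2 c3 r3 : X → ℕ) : hw c1 r1 c2 r2 c3 r3 =
    ∑ π ∈ stab c1, ∑ σ ∈ stab c2, ∑ τ ∈ stab c3,
      (((Perm.sign π : ℤ) : ℂ) * (((Perm.sign σ : ℤ) : ℂ) * ((Perm.sign τ : ℤ) : ℂ))) •
        mon (r1 ∘ π) (r2 ∘ σ) (r3 ∘ τ) := by
  unfold hw
  refine Finset.sum_congr rfl fun π _ => ?_
  rw [← sum_stab_inv c2]
  refine Finset.sum_congr rfl fun σ _ => ?_
  rw [← sum_stab_inv c3]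
  refine Finset.sum_congr rfl fun τ _ => ?_
  rw [inv_inv, inv_inv, Perm.sign_inv, Perm.sign_inv]

omit [DecidableEq X] in
theorem rename_mon23 (a b c : X → ℕ) :
    MvPolynomial.rename (fun k : ℕ × ℕ × ℕ => (k.1, k.2.2, k.2.1)) (mon a b c) = mon a c b := by
  unfold mon
  rw [map_prod]
  exact Finset.prod_congr rfl fun x _ => MvPolynomial.rename_X _ _

omit [DecidableEq X] in
theorem rename_mon12 (a b c : X → ℕ) :
    MvPolynomial.rename (fun k : ℕ × ℕ × ℕ => (k.2.1, k.1, k.2.2)) (mon a b c) = mon b a c := by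
  unfold mon
  rw [map_prod]
  exact Finset.prod_congr rfl fun x _ => MvPolynomial.rename_X _ _

theorem hw_swap23 {c1 r1 c2 r2 c3 r3 : X → ℕ} (h : hw c1 r1 c2 r2 c3 r3 ≠ 0) :
    hw c1 r1 c3 r3 c2 r2 ≠ 0 := by
  intro h0
  apply h
  have e : hw c1 r1 c2 r2 c3 r3 = MvPolynomial.rename
      (fun k : ℕ × ℕ × ℕ => (k.1, k.2.2, k.2.1)) (hw c1 r1 c3 r3 c2 r2) := by
    rw [hw_eq, hw_eq, map_sum]
    refine Finset.sum_congr rfl fun π _ => ?_
    rw [Finset.sum_comm, map_sum]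
    refine Finset.sum_congr rfl fun τ _ => ?_
    rw [map_sum]
    refine Finset.sum_congr rfl fun σ _ => ?_
    rw [map_smul, rename_mon23, mul_comm ((Perm.sign σ : ℤ) : ℂ)]
  rw [e, h0, map_zero]

theorem hw_swap12 {c1 r1 c2 r2 c3 r3 : X → ℕ} (h : hw c1 r1 c2 r2 c3 r3 ≠ 0) :
    hw c2 r2 c1 r1 c3 r3 ≠ 0 := by
  intro h0
  apply h
  have e : hw c1 r1 c2 r2 c3 r3 = MvPolynomial.rename
      (fun k : ℕ × ℕ × ℕ => (k.2.1, k.1, k.2.2)) (hw c2 r2 c1 r1 c3 r3) := by
    rw [hw_eq, hw_eq, Finset.sum_comm, map_sum]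
    refine Finset.sum_congr rfl fun σ _ => ?_
    rw [map_sum]
    refine Finset.sum_congr rfl fun π _ => ?_
    rw [map_sum]
    refine Finset.sum_congr rfl fun τ _ => ?_
    rw [map_smul, rename_mon12, mul_left_comm ((Perm.sign π : ℤ) : ℂ)]
  rw [e, h0, map_zero]

/-- Transport of the polynomial along a bijection of the points. -/
theorem hw_equiv {Y : Type} [Fintype Y] [DecidableEq Y] (e : Y ≃ X) (c1 r1 c2 r2 c3 r3 : X → ℕ) :
    hw (c1 ∘ e) (r1 ∘ e) (c2 ∘ e) (r2 ∘ e) (c3 ∘ e) (r3 ∘ e) = hw c1 r1 c2 r2 c3 r3 := by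
  rw [hw_eq, hw_eq, Quat.sum_stab_transport e c1 (c1 ∘ e) (fun a b => Iff.rfl)]
  refine Finset.sum_congr rfl fun π _ => ?_
  rw [Quat.sum_stab_transport e c2 (c2 ∘ e) (fun a b => Iff.rfl)]
  refine Finset.sum_congr rfl fun σ _ => ?_
  rw [Quat.sum_stab_transport e c3 (c3 ∘ e) (fun a b => Iff.rfl)]
  refine Finset.sum_congr rfl fun τ _ => ?_
  rw [Equiv.Perm.sign_permCongr, Equiv.Perm.sign_permCongr, Equiv.Perm.sign_permCongr]
  refine congrArg (fun z : PR => _ • z) ?_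
  unfold mon
  refine Fintype.prod_equiv e _ _ fun y => ?_
  simp only [Function.comp_apply, Equiv.permCongr_apply, Equiv.symm_apply_apply]

/-- The polynomial depends on the columns only through their fibres. -/
theorem hw_congr {c1 c2 c3 d1 d2 d3 : X → ℕ} (r1 r2 r3 : X → ℕ)
    (h1 : ∀ x y, c1 x = c1 y ↔ d1 x = d1 y) (h2 : ∀ x y, c2 x = c2 y ↔ d2 x = d2 y)
    (h3 : ∀ x y, c3 x = c3 y ↔ d3 x = d3 y) : hw c1 r1 c2 r2 c3 r3 = hw d1 r1 d2 r2 d3 r3 := by
  unfold hw
  rw [stab_congr h1, stab_congr h2, stab_congr h3]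

omit [Fintype X] [DecidableEq X] in
theorem label_equiv {Y : Type} (e : Y ≃ X) {S : Finset (ℕ × ℕ)} {r c : X → ℕ}
    (h : IsLabel S r c) : IsLabel S (r ∘ e) (c ∘ e) where
  mem y := h.mem (e y)
  inj y z h1 h2 := e.injective (h.inj _ _ h1 h2)
  surj d hd := by
    obtain ⟨x, h1, h2⟩ := h.surj d hd
    refine ⟨e.symm x, ?_, ?_⟩
    · rw [Function.comp_apply, Equiv.apply_symm_apply, h1]
    · rw [Function.comp_apply, Equiv.apply_symm_apply, h2]

theorem polyt_mem_Sp {lam : YoungDiagram} {r c : X → ℕ} (h : IsLabel lam.cells r c) :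
    polyt c r ∈ TS.Sp X lam := by
  obtain ⟨t, h1, h2⟩ := H328.exists_equiv_of_isLabel h
  exact Submodule.subset_span ⟨t, by rw [h1, h2]⟩

/-- The sign twist on both factors. -/
theorem occ_transpose {lam mu : YoungDiagram} {rl cl : X → ℕ} (h : TS.Occ lam mu rl cl) :
    TS.Occ lam.transpose mu.transpose rl cl := by
  have key : ∀ ka : YoungDiagram, ∃ θ P : WM X →ₗ[ℂ] WM X,
      (∀ v ∈ TS.Sp X ka, θ v ∈ TS.Sp X ka.transpose) ∧ ∀ (g : Perm X), ∀ u ∈ TS.Sp X ka,
        P (wordRep X g (θ u)) = ((Perm.sign g : ℤ) : ℂ) • wordRep X g u := by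
    intro ka
    obtain ⟨θ, h1, h2, h3⟩ := TS.pTw_of TS.pIrr X ka
    set f : TS.Sp X ka →ₗ[ℂ] WM X := θ.comp (TS.Sp X ka).subtype with hf
    have hker : LinearMap.ker f = ⊥ := by
      rw [LinearMap.ker_eq_bot']
      intro m hm
      exact Subtype.ext (h3 m.1 m.2 hm)
    obtain ⟨L, hL⟩ :=
      LinearMap.exists_leftInverse_of_injective (V := TS.Sp X ka) (V' := WM X) f hker
    have hL' : ∀ u ∈ TS.Sp X ka, ((L (θ u) : TS.Sp X ka) : WM X) = u := by
      intro u hu
      have := LinearMap.congr_fun hL ⟨u, hu⟩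
      exact congrArg Subtype.val this
    refine ⟨θ, (TS.Sp X ka).subtype.comp L, h2, fun g u hu => ?_⟩
    have e1 : wordRep X g (θ u) = ((Perm.sign g : ℤ) : ℂ) • θ (wordRep X g u) := by
      rw [h1, smul_smul, TS.tw_sgn_sq, one_smul]
    rw [e1, map_smul]
    exact congrArg (fun z : WM X => ((Perm.sign g : ℤ) : ℂ) • z) (hL' _ (TS.Sp_stable ka g hu))
  obtain ⟨b, v, hv, w, hw', hne⟩ := h
  obtain ⟨θ, P, h1, h2⟩ := key lam
  obtain ⟨θ', P', h1', h2'⟩ := key mu
  refine ⟨b.compl₁₂ P P', θ v, h1 v hv, θ' w, h1' w hw', ?_⟩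
  have hF : Fn (b.compl₁₂ P P') (θ v) (θ' w) = Fn b v w := by
    funext g
    show b (P (wordRep X g (θ v))) (P' (wordRep X g (θ' w))) =
      b (wordRep X g v) (wordRep X g w)
    rw [h2 g v hv, h2' g w hw', map_smul, map_smul, LinearMap.smul_apply, smul_smul,
      TS.tw_sgn_sq, one_smul]
  rw [hF]
  exact hne

end Basic

/-- (A2) -/
theorem ofOccStmt : OfOccStmt := by
  intro X _ _ lam mu nu rl cl r c r' c' b h1 h2 h3 hne
  exact ⟨X, inferInstance, inferInstance, rl, cl, r, c, r', c', h1, h2, h3,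
    hw_ne_of_occ rl cl r c r' c' b hne⟩

/-- (A1) -/
theorem kronStmt : KronStmt := by
  rintro lam mu nu ⟨X, _, _, r1, c1, r2, c2, r3, c3, h1, h2, h3, hne⟩
  obtain ⟨t, -, -⟩ := H328.exists_equiv_of_isLabel h1
  have hcard : Fintype.card X = nu.card := (Fintype.card_congr t).trans (Fintype.card_coe _)
  let e : Fin nu.card ≃ X := (Fintype.equivFinOfCardEq hcard).symm
  rw [← hw_equiv e] at hne
  obtain ⟨b, hb⟩ := occ_of_hw_ne _ _ _ _ _ _ hne
  have key : ∀ (ka : YoungDiagram) (r c : Fin nu.card → ℕ), IsLabel ka.cells r c →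
      polyt c r ∈ spechtSub nu.card ka := fun ka r c hc =>
    polyt_mem_spechtSub ka r c (fun x => hc.mem x) hc.inj fun a b hab => hc.surj (a, b) hab
  obtain ⟨f, hf, -⟩ := exists_of_occ ⟨_, key lam _ _ (label_equiv e h2)⟩
    ⟨_, key mu _ _ (label_equiv e h3)⟩ b _ _ (label_equiv e h1) hb
  exact kron_pos_of_exists ⟨f, hf⟩

/-- (A3) -/
theorem symStmt : SymStmt := by
  rintro lam mu nu ⟨X, _, _, r1, c1, r2, c2, r3, c3, h1, h2, h3, hne⟩
  refine ⟨⟨X, inferInstance, inferInstance, r1, c1, r3, c3, r2, c2, h1, h3, h2, hw_swap23 hne⟩,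
    ⟨X, inferInstance, inferInstance, r2, c2, r1, c1, r3, c3, h2, h1, h3, hw_swap12 hne⟩, ?_⟩
  obtain ⟨b, hb⟩ := occ_of_hw_ne _ _ _ _ _ _ hne
  obtain ⟨b', v, hv, w, hw', hne'⟩ := occ_transpose (lam := lam) (mu := mu) (rl := r1) (cl := c1)
    ⟨b, _, polyt_mem_Sp h2, _, polyt_mem_Sp h3, hb⟩
  obtain ⟨t, t', htt⟩ := TS.Gap.exists_tab _ _ r1 c1 b' v w hv hw' hne'
  exact ofOccStmt X _ _ nu r1 c1 _ _ _ _ b' h1 (H328.isLabel_of_equiv t)
    (H328.isLabel_of_equiv t') htt

/-- The place of column `j` of `a` among the columns of the sum of `a` and `a'`. -/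
def posL (a a' : YoungDiagram) (j : ℕ) : ℕ := j + a'.rowLen (a.colLen j)

/-- The place of column `k` of `a'` among the columns of the sum of `a` and `a'`. -/
def posR (a a' : YoungDiagram) (k : ℕ) : ℕ := k + a.rowLen (a'.colLen k - 1)

theorem posL_inj (a a' : YoungDiagram) : Function.Injective (posL a a') := by
  refine StrictMono.injective fun j j' hj => ?_
  have h1 := a.colLen_anti j j' hj.le
  have h2 := a'.rowLen_anti _ _ h1
  unfold posL
  omega

theorem posR_inj (a a' : YoungDiagram) : Function.Injective (posR a a') := by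
  refine StrictMono.injective fun j j' hj => ?_
  have h1 := a'.colLen_anti j j' hj.le
  have h2 := a.rowLen_anti (a'.colLen j' - 1) (a'.colLen j - 1) (by omega)
  unfold posR
  omega

theorem posL_lt {a a' : YoungDiagram} {i j : ℕ} (h : (i, j) ∈ a) :
    posL a a' j < a.rowLen i + a'.rowLen i := by
  have h1 := YoungDiagram.mem_iff_lt_rowLen.1 h
  have h2 := YoungDiagram.mem_iff_lt_colLen.1 h
  have h3 := a'.rowLen_anti _ _ h2.le
  unfold posL
  omega

theorem posR_lt {a a' : YoungDiagram} {i k : ℕ} (h : (i, k) ∈ a') :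
    posR a a' k < a.rowLen i + a'.rowLen i := by
  have h1 := YoungDiagram.mem_iff_lt_rowLen.1 h
  have h2 := YoungDiagram.mem_iff_lt_colLen.1 h
  have h3 := a.rowLen_anti i (a'.colLen k - 1) (by omega)
  unfold posR
  omega

theorem posL_ne_posR {a a' : YoungDiagram} {i j i' k : ℕ} (h : (i, j) ∈ a) (h' : (i', k) ∈ a') :
    posL a a' j ≠ posR a a' k := by
  have h1 := YoungDiagram.mem_iff_lt_colLen.1 h
  have h2 := YoungDiagram.mem_iff_lt_colLen.1 h'
  unfold posL posR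
  rcases Nat.lt_or_ge (a.colLen j) (a'.colLen k) with h3 | h3
  · have h4 := YoungDiagram.mem_iff_lt_rowLen.1 (YoungDiagram.mem_iff_lt_colLen.2 h3)
    have h5 : ¬ j < a.rowLen (a'.colLen k - 1) := fun h6 => by
      have := YoungDiagram.mem_iff_lt_colLen.1 (YoungDiagram.mem_iff_lt_rowLen.2 h6)
      omega
    omega
  · have h4 := YoungDiagram.mem_iff_lt_rowLen.1
      (YoungDiagram.mem_iff_lt_colLen.2 (show a'.colLen k - 1 < a.colLen j by omega))
    have h5 : ¬ k < a'.rowLen (a.colLen j) := fun h6 => by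
      have := YoungDiagram.mem_iff_lt_colLen.1 (YoungDiagram.mem_iff_lt_rowLen.2 h6)
      omega
    omega

theorem pos_surj (a a' : YoungDiagram) (i m : ℕ) (hm : m < a.rowLen i + a'.rowLen i) :
    (∃ j, (i, j) ∈ a ∧ posL a a' j = m) ∨ ∃ k, (i, k) ∈ a' ∧ posR a a' k = m := by
  have hsub : (range (a.rowLen i)).image (posL a a') ∪ (range (a'.rowLen i)).image (posR a a') ⊆
      range (a.rowLen i + a'.rowLen i) := by
    intro z hz
    rw [Finset.mem_range]
    rcases Finset.mem_union.1 hz with h | h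
    · obtain ⟨j, hj, rfl⟩ := Finset.mem_image.1 h
      exact posL_lt (YoungDiagram.mem_iff_lt_rowLen.2 (Finset.mem_range.1 hj))
    · obtain ⟨k, hk, rfl⟩ := Finset.mem_image.1 h
      exact posR_lt (YoungDiagram.mem_iff_lt_rowLen.2 (Finset.mem_range.1 hk))
  have hdis : Disjoint ((range (a.rowLen i)).image (posL a a'))
      ((range (a'.rowLen i)).image (posR a a')) := by
    rw [Finset.disjoint_left]
    intro z h h'
    obtain ⟨j, hj, rfl⟩ := Finset.mem_image.1 h
    obtain ⟨k, hk, e⟩ := Finset.mem_image.1 h'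
    exact posL_ne_posR (YoungDiagram.mem_iff_lt_rowLen.2 (Finset.mem_range.1 hj))
      (YoungDiagram.mem_iff_lt_rowLen.2 (Finset.mem_range.1 hk)) e.symm
  have heq := Finset.eq_of_subset_of_card_le hsub (by
    rw [Finset.card_union_of_disjoint hdis, Finset.card_image_of_injective _ (posL_inj a a'),
      Finset.card_image_of_injective _ (posR_inj a a'), Finset.card_range, Finset.card_range,
      Finset.card_range])
  have hz : m ∈ range (a.rowLen i + a'.rowLen i) := Finset.mem_range.2 hm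
  rw [← heq] at hz
  rcases Finset.mem_union.1 hz with h | h
  · obtain ⟨j, hj, e⟩ := Finset.mem_image.1 h
    exact Or.inl ⟨j, YoungDiagram.mem_iff_lt_rowLen.2 (Finset.mem_range.1 hj), e⟩
  · obtain ⟨k, hk, e⟩ := Finset.mem_image.1 h
    exact Or.inr ⟨k, YoungDiagram.mem_iff_lt_rowLen.2 (Finset.mem_range.1 hk), e⟩

/-- The labelling of the sum of two diagrams. -/
theorem label_sum {Y Z : Type} {a a' A : YoungDiagram}
    (hA : ∀ i, A.rowLen i = a.rowLen i + a'.rowLen i) {r c : Y → ℕ} {r' c' : Z → ℕ}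
    (h : IsLabel a.cells r c) (h' : IsLabel a'.cells r' c') :
    IsLabel A.cells (Sum.elim r r') (Sum.elim (posL a a' ∘ c) (posR a a' ∘ c')) := by
  have m1 : ∀ y, (r y, c y) ∈ a := fun y => (YoungDiagram.mem_cells _).1 (h.mem y)
  have m2 : ∀ z, (r' z, c' z) ∈ a' := fun z => (YoungDiagram.mem_cells _).1 (h'.mem z)
  refine isLabel_of ?_ ?_ ?_
  · rintro (y | z)
    · rw [hA]
      exact posL_lt (m1 y)
    · rw [hA]
      exact posR_lt (m2 z)
  · rintro (y | z) (y' | z') e1 e2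
    · exact congrArg Sum.inl (h.inj y y' e1 (posL_inj a a' e2))
    · exact absurd e2 (posL_ne_posR (m1 y) (m2 z'))
    · exact absurd e2.symm (posL_ne_posR (m1 y') (m2 z))
    · exact congrArg Sum.inr (h'.inj z z' e1 (posR_inj a a' e2))
  · intro i m hm
    rw [hA] at hm
    rcases pos_surj a a' i m hm with ⟨j, hj, e⟩ | ⟨k, hk, e⟩
    · obtain ⟨y, e1, e2⟩ := h.surj (i, j) ((YoungDiagram.mem_cells _).2 hj)
      refine ⟨Sum.inl y, e1, ?_⟩
      rw [← e]
      exact congrArg (posL a a') e2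
    · obtain ⟨z, e1, e2⟩ := h'.surj (i, k) ((YoungDiagram.mem_cells _).2 hk)
      refine ⟨Sum.inr z, e1, ?_⟩
      rw [← e]
      exact congrArg (posR a a') e2

/-- The polynomial of a disjoint union with separated columns is the product. -/
theorem hw_sum {Y Z : Type} [Fintype Y] [DecidableEq Y] [Fintype Z] [DecidableEq Z]
    (c1 r1 c2 r2 c3 r3 : Y → ℕ) (d1 s1 d2 s2 d3 s3 : Z → ℕ) (h1 : ∀ y z, c1 y ≠ d1 z)
    (h2 : ∀ y z, c2 y ≠ d2 z) (h3 : ∀ y z, c3 y ≠ d3 z) :
    hw (Sum.elim c1 d1) (Sum.elim r1 s1) (Sum.elim c2 d2) (Sum.elim r2 s2) (Sum.elim c3 d3)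
      (Sum.elim r3 s3) = hw c1 r1 c2 r2 c3 r3 * hw d1 s1 d2 s2 d3 s3 := by
  let p : Y ⊕ Z → Prop := fun x => x.isLeft = true
  have sep : ∀ (c : Y → ℕ) (d : Z → ℕ), (∀ y z, c y ≠ d z) →
      ∀ x x', Sum.elim c d x = Sum.elim c d x' → (p x ↔ p x') := by
    rintro c d h (y | z) (y' | z') e
    · exact Iff.rfl
    · exact absurd e (h y z')
    · exact absurd e.symm (h y' z)
    · exact Iff.rfl
  let e1 : Y ≃ {x // p x} := Equiv.ofBijective (fun y => ⟨Sum.inl y, rfl⟩) (by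
    constructor
    · intro y y' e
      exact Sum.inl_injective (congrArg Subtype.val e)
    · rintro ⟨y | z, hx⟩
      · exact ⟨y, rfl⟩
      · exact absurd hx Bool.false_ne_true)
  let e2 : Z ≃ {x // ¬ p x} := Equiv.ofBijective (fun z => ⟨Sum.inr z, Bool.false_ne_true⟩) (by
    constructor
    · intro z z' e
      exact Sum.inr_injective (congrArg Subtype.val e)
    · rintro ⟨y | z, hx⟩
      · exact absurd rfl hx
      · exact ⟨z, rfl⟩)
  rw [hw_split p _ _ _ _ _ _ (sep c1 d1 h1) (sep c2 d2 h2) (sep c3 d3 h3), ← hw_equiv e1,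
    ← hw_equiv e2]
  rfl

/-- (A4) -/
theorem sumStmt : SumStmt := by
  rintro a b c a' b' c' A B C ⟨Y, _, _, r1, c1, r2, c2, r3, c3, h1, h2, h3, hne⟩
    ⟨Z, _, _, s1, d1, s2, d2, s3, d3, k1, k2, k3, kne⟩ hA hB hC
  refine ⟨Y ⊕ Z, inferInstance, inferInstance, _, _, _, _, _, _, label_sum hC h1 k1,
    label_sum hA h2 k2, label_sum hB h3 k3, ?_⟩
  have sep : ∀ {u u' : YoungDiagram} {r c : Y → ℕ} {s d : Z → ℕ}, IsLabel u.cells r c →
      IsLabel u'.cells s d → ∀ y z, (posL u u' ∘ c) y ≠ (posR u u' ∘ d) z :=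
    fun h h' y z => posL_ne_posR ((YoungDiagram.mem_cells _).1 (h.mem y))
      ((YoungDiagram.mem_cells _).1 (h'.mem z))
  have e1 : hw (posL c c' ∘ c1) r1 (posL a a' ∘ c2) r2 (posL b b' ∘ c3) r3 =
      hw c1 r1 c2 r2 c3 r3 := hw_congr r1 r2 r3 (fun x y => (posL_inj c c').eq_iff)
    (fun x y => (posL_inj a a').eq_iff) (fun x y => (posL_inj b b').eq_iff)
  have e2 : hw (posR c c' ∘ d1) s1 (posR a a' ∘ d2) s2 (posR b b' ∘ d3) s3 =
      hw d1 s1 d2 s2 d3 s3 := hw_congr s1 s2 s3 (fun x y => (posR_inj c c').eq_iff)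
    (fun x y => (posR_inj a a').eq_iff) (fun x y => (posR_inj b b').eq_iff)
  rw [hw_sum _ _ _ _ _ _ _ _ _ _ _ _ (sep h1 k1) (sep h2 k2) (sep h3 k3), e1, e2]
  exact mul_ne_zero hne kne

end

end Vale.Agent.N197T
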