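import Vale.Agent.N197T.Spec

/-!
# The tensor square conjecture from the blocks
-/

namespace Vale.Agent.N197T

open Vale.Agent.P197

theorem Pos.flip (hS : SymStmt) {lam nu : YoungDiagram} (hl : lam.transpose = lam)
    (h : Pos lam lam nu.transpose) : Pos lam lam nu := by
  have h1 := (hS _ _ _ h).2.1
  have h2 := (hS _ _ _ h1).2.2
  rw [YoungDiagram.transpose_transpose, hl] at h2
  exact (hS _ _ _ h2).2.1

theorem main_of (hK : KronStmt) (hS : SymStmt) (hSt : StateStmt) (hM : MoveStmt) (h1 : S1Stmt)
    (h2 : S2Stmt) (hC : CoverStmt) (hF : SmallStmt) (n : ℕ) (hn : 3 ≤ n) (h4 : n ≠ 4)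
    (h9 : n ≠ 9) : ∃ lam : YoungDiagram, lam.card = n ∧
      ∀ nu : YoungDiagram, nu.card = n → 0 < kron n lam lam nu := by
  have key : ∃ lam : YoungDiagram, lam.card = n ∧
      ∀ nu : YoungDiagram, nu.card = n → Pos lam lam nu := by
    by_cases hs : 14 ≤ n ∧ n ≠ 17
    · have strips : ∀ K q d e, Adm K q d e → 1 ≤ q + d → ∀ lam nu : YoungDiagram,
          IsState lam K q d e → nu.card = sz K q d e →
          ((q = 0 ∧ Two nu K d e) ∨ (3 ≤ q ∧ Four nu K q d e)) → Pos lam lam nu := by
        intro K q d e hA hqd lam nu hl hnu h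
        rcases h with ⟨rfl, h⟩ | ⟨hq, h⟩
        · exact h1 K d e lam nu hA (by omega) hl hnu h
        · exact h2 K q d e lam nu hA hq hl hnu h
      have hA1 : ∀ K q d e, Adm K q d e → 1 ≤ q + d → (3 ≤ q → d < 3 → q = 3 ∨ 6 ≤ q) →
          Below K q d e → Covered K q d e → Univ K q d e := by
        intro K q d e hA hqd hq hB hCov lam nu hl hnu
        have row : ∀ mu : YoungDiagram, mu.card = sz K q d e → RowOK mu K q d e →
            Pos lam lam mu := by
          intro mu hmu h
          rcases h with h | h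
          · exact hM K q d e lam mu hA hq hB hl hmu h
          · exact strips K q d e hA hqd lam mu hl hmu h
        rcases hCov nu hnu with h | h
        · exact row nu hnu h
        · exact Pos.flip hS (hSt.2.1 lam K q d e hl)
            (row _ (by rw [Saxl.card_transpose, hnu]) h)
      have hA2 : ∀ K q d e, Adm K q d e → 1 ≤ q + d → CoveredS K q d e → Univ K q d e := by
        intro K q d e hA hqd hCov lam nu hl hnu
        rcases hCov nu hnu with h | h
        · exact strips K q d e hA hqd lam nu hl hnu h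
        · exact Pos.flip hS (hSt.2.1 lam K q d e hl)
            (strips K q d e hA hqd lam _ hl (by rw [Saxl.card_transpose, hnu]) h)
      obtain ⟨K, q, d, e, hA, hsz, hU⟩ := hC hA1 hA2 hSt.2.2.2 n hs.1 hs.2
      obtain ⟨lam, hl⟩ := hSt.1 K q d e hA
      rw [hsz]
      exact ⟨lam, hSt.2.2.1 lam K q d e hA hl, fun nu hnu => hU lam nu hl hnu⟩
    · refine hF n ?_
      simp only [List.mem_cons, List.not_mem_nil, or_false]
      omega
  obtain ⟨lam, hl, h⟩ := key
  refine ⟨lam, hl, fun nu hnu => ?_⟩
  have := hK lam lam nu (h nu hnu)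
  rwa [hnu] at this

end Vale.Agent.N197T
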