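import Vale.Agent.N197T.Spec
import Mathlib.GroupTheory.Perm.Fin

/-!
# A verified checker for the nonvanishing of the polynomial of three tableaux
-/

set_option linter.all false

namespace Vale.Agent.N197T.F

open Equiv Finset Vale.Agent.P197 Vale.Agent.P197.H369

noncomputable section

/-- three numbers -/
abbrev T3 : Type := ℕ × ℕ × ℕ

/-- a point (rows, columns) with the triple given to it -/
abbrev Asg : Type := (T3 × T3) × T3

def same (pre : List T3) (y : T3) : Bool :=
  List.rec false (fun z _ _ => Nat.beq z.1 y.1 && (Nat.beq z.2.1 y.2.1 && Nat.beq z.2.2 y.2.2)) pre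

def pick (f : T3 → List T3 → Bool) (post : List T3) : List T3 → Bool :=
  List.rec (fun _ => true)
    (fun y post ih pre => (same pre y || f y (pre.reverseAux post)) && ih (y :: pre)) post

theorem pick_sound (f : T3 → List T3 → Bool) (tot : List T3) : ∀ post pre : List T3,
    (pre ++ post).Perm tot → (∀ z l, pre = z :: l → ∃ r, (z :: r).Perm tot ∧ f z r = true) →
    pick f post pre = true → ∀ y ∈ post, ∃ r, (y :: r).Perm tot ∧ f y r = true := by
  intro post
  induction post with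
  | nil => intro _ _ _ _ y hy; cases hy
  | cons a post ih =>
    intro pre hp hz h
    change ((same pre a || f a (pre.reverseAux post)) && pick f post (a :: pre)) = true at h
    rw [Bool.and_eq_true, Bool.or_eq_true] at h
    have ha : ∃ r, (a :: r).Perm tot ∧ f a r = true := by
      rcases h.1 with h1 | h1
      · cases pre with
        | nil => cases h1
        | cons z l =>
          change (Nat.beq z.1 a.1 && (Nat.beq z.2.1 a.2.1 && Nat.beq z.2.2 a.2.2)) = true at h1
          simp only [Bool.and_eq_true, Nat.beq_eq] at h1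
          have e : z = a := Prod.ext h1.1 (Prod.ext h1.2.1 h1.2.2)
          exact e ▸ hz z l rfl
      · refine ⟨_, ?_, h1⟩
        rw [List.reverseAux_eq]
        exact (((List.reverse_perm pre).append_right post).cons a).trans
          (List.perm_middle.symm.trans hp)
    intro y hy
    rcases List.mem_cons.1 hy with rfl | hy
    · exact ha
    · refine ih (a :: pre) (List.perm_middle.symm.trans hp) (fun z l e => ?_) h.2 y hy
      obtain ⟨rfl, -⟩ := List.cons.inj e
      exact ha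

def i1 (q : Asg) : ℕ := 32 * q.1.2.1 + q.2.1
def i2 (q : Asg) : ℕ := 32 * q.1.2.2.1 + q.2.2.1
def i3 (q : Asg) : ℕ := 32 * q.1.2.2.2 + q.2.2.2

/-- the search through all ways to distribute the triples -/
def go (leaf : List Asg → Bool) (P : List (T3 × T3)) :
    List T3 → ℕ → ℕ → ℕ → List Asg → Bool :=
  List.rec (fun _ _ _ _ acc => leaf acc) (fun p _ ih rem A B C acc =>
    pick (fun y rest => !(A.testBit (i1 (p, y)) && (B.testBit (i2 (p, y)) &&
      C.testBit (i3 (p, y)))) || ih rest (A ^^^ 2 ^ i1 (p, y)) (B ^^^ 2 ^ i2 (p, y))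
        (C ^^^ 2 ^ i3 (p, y)) ((p, y) :: acc)) rem []) P

theorem bit_xor {A i j : ℕ} (h : A.testBit j = true) (hij : i ≠ j) :
    (A ^^^ 2 ^ i).testBit j = true := by
  rw [Nat.testBit_xor, h, Nat.testBit_two_pow_of_ne hij]
  rfl

theorem go_sound (leaf : List Asg → Bool) : ∀ (L : List Asg) (rem : List T3) (A B C : ℕ)
    (acc : List Asg), rem.Perm (L.map Prod.snd) →
    (∀ q ∈ L, A.testBit (i1 q) = true ∧ B.testBit (i2 q) = true ∧ C.testBit (i3 q) = true) →
    L.Pairwise (fun q q' => i1 q ≠ i1 q' ∧ i2 q ≠ i2 q' ∧ i3 q ≠ i3 q') →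
    go leaf (L.map Prod.fst) rem A B C acc = true → leaf (L.reverseAux acc) = true := by
  intro L
  induction L with
  | nil => intro _ _ _ _ _ _ _ _ h; exact h
  | cons q L ih =>
    intro rem A B C acc hp hb hd h
    obtain ⟨r, hr, hf⟩ := pick_sound (fun y rest => !(A.testBit (i1 (q.1, y)) &&
      (B.testBit (i2 (q.1, y)) && C.testBit (i3 (q.1, y)))) || go leaf (L.map Prod.fst) rest
        (A ^^^ 2 ^ i1 (q.1, y)) (B ^^^ 2 ^ i2 (q.1, y)) (C ^^^ 2 ^ i3 (q.1, y)) ((q.1, y) :: acc))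
      rem rem [] (List.Perm.refl _) (fun _ _ e => nomatch e) h q.2
      (hp.symm.subset List.mem_cons_self)
    obtain ⟨h1, h2, h3⟩ := hb q List.mem_cons_self
    rw [List.pairwise_cons] at hd
    simp only [Prod.mk.eta, h1, h2, h3, Bool.and_self, Bool.not_true, Bool.false_or] at hf
    refine ih r _ _ _ (q :: acc) (hr.trans hp).cons_inv (fun q' hq' => ?_) hd.2 hf
    obtain ⟨g1, g2, g3⟩ := hb q' (List.mem_cons_of_mem _ hq')
    obtain ⟨e1, e2, e3⟩ := hd.1 q' hq'
    exact ⟨bit_xor g1 e1, bit_xor g2 e2, bit_xor g3 e3⟩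

def mask (l : List ℕ) : ℕ := l.foldr (fun i m => 2 ^ i ||| m) 0

theorem mask_bit {l : List ℕ} {i : ℕ} (h : i ∈ l) : (mask l).testBit i = true := by
  induction l with
  | nil => cases h
  | cons a l ih =>
    change (2 ^ a ||| mask l).testBit i = true
    rw [Nat.testBit_or]
    rcases List.mem_cons.1 h with rfl | h
    · rw [Nat.testBit_two_pow_self]
      rfl
    · rw [ih h, Bool.or_true]

def sg (a b : ℕ) : ℤ := if a < b then 1 else if b < a then -1 else 0

theorem sg_swap (a b : ℕ) : sg a b = -sg b a := by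
  unfold sg
  split_ifs <;> first | rfl | omega

theorem sg_sq {a b : ℕ} (h : a ≠ b) : sg a b * sg a b = 1 := by
  unfold sg
  split_ifs <;> first | rfl | omega

def hh (c c' r r' u u' : ℕ) : ℤ := if c = c' then sg u u' * sg r r' else 1

theorem sign_sq {n : ℕ} (c r : Fin n → ℕ) (π : Perm (Fin n)) (hπ : π ∈ stab c) : ∃ V : ℤ,
    ∏ i, ∏ j ∈ Ioi i, hh (c i) (c j) (r i) (r j) (r (π i)) (r (π j)) = Perm.sign π * (V * V) := by
  let f : Fin n → Fin n → ℤ := fun i j => if c i = c j then sg (r i) (r j) else sg (c i) (c j)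
  have hf : ∀ i j, f i j = -f j i := fun i j => by
    by_cases h : c i = c j
    · simp only [f, if_pos h, if_pos h.symm]
      exact sg_swap _ _
    · simp only [f, if_neg h, if_neg (Ne.symm h)]
      exact sg_swap _ _
  refine ⟨∏ i, ∏ j ∈ Ioi i, f i j, ?_⟩
  have h0 := π.prod_Ioi_comp_eq_sign_mul_prod hf
  rw [Int.cast_id] at h0
  rw [← mul_assoc, ← h0, ← prod_mul_distrib]
  refine prod_congr rfl fun i _ => ?_
  rw [← prod_mul_distrib]
  refine prod_congr rfl fun j _ => ?_
  simp only [f, hh, mem_stab.1 hπ]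
  split_ifs with h
  · rfl
  · exact (sg_sq h).symm

def h3 (p q : Asg) : ℤ :=
  hh p.1.2.1 q.1.2.1 p.1.1.1 q.1.1.1 p.2.1 q.2.1 *
    (hh p.1.2.2.1 q.1.2.2.1 p.1.1.2.1 q.1.1.2.1 p.2.2.1 q.2.2.1 *
      hh p.1.2.2.2 q.1.2.2.2 p.1.1.2.2 q.1.1.2.2 p.2.2.2 q.2.2.2)

def HH (l : List Asg) : ℤ := List.rec 1 (fun p l ih => (l.map (h3 p)).prod * ih) l

theorem HH_ofFn : ∀ {n : ℕ} (g : Fin n → Asg),
    HH (List.ofFn g) = ∏ i, ∏ j ∈ Ioi i, h3 (g i) (g j)
  | 0, g => by simp [HH]
  | n + 1, g => by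
    rw [List.ofFn_succ, Fin.prod_univ_succ]
    change ((List.ofFn fun i => g i.succ).map (h3 (g 0))).prod * HH _ = _
    rw [HH_ofFn, List.map_ofFn, List.prod_ofFn, Fin.prod_Ioi_zero]
    simp only [Fin.prod_Ioi_succ, Function.comp_apply]

/-- the codes of the cells of one tableau -/
def codes (k : T3 → ℕ) (D : List (T3 × T3)) : List ℕ := D.map fun p => 32 * k p.2 + k p.1

/-- equal triples are put next to each other -/
def srt (l : List T3) : List T3 :=
  l.insertionSort fun s t => 1024 * s.1 + (32 * s.2.1 + s.2.2) ≤ 1024 * t.1 + (32 * t.2.1 + t.2.2)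

/-- all ways to obtain the leading monomial have the sign `+` -/
def run (D : List (T3 × T3)) : Bool :=
  go (fun acc => decide (HH acc.reverse = 1)) D (srt (D.map Prod.fst)) (mask (codes (·.1) D))
    (mask (codes (·.2.1) D)) (mask (codes (·.2.2) D)) []

theorem code_facts {n : ℕ} (g : Fin n → T3 × T3) (k : T3 → ℕ)
    (h : (codes k (List.ofFn g)).Nodup) (π : Perm (Fin n)) (hπ : π ∈ stab fun x => k (g x).2) :
    (∀ x, (mask (codes k (List.ofFn g))).testBit (32 * k (g x).2 + k (g (π x)).1) = true) ∧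
      ∀ x y, x ≠ y → 32 * k (g x).2 + k (g (π x)).1 ≠ 32 * k (g y).2 + k (g (π y)).1 := by
  have e := mem_stab.1 hπ
  rw [codes, List.map_ofFn] at h ⊢
  refine ⟨fun x => mask_bit (List.mem_ofFn.2 ⟨π x, ?_⟩), fun x y hxy he => hxy (π.injective
    (List.nodup_ofFn.1 h ?_))⟩
  · simp only [Function.comp_apply, e x]
  · simp only [Function.comp_apply, e x, e y, he]

theorem hw_ne_zero {n : ℕ} (g : Fin n → T3 × T3) (h1 : (codes (·.1) (List.ofFn g)).Nodup)
    (h2 : (codes (·.2.1) (List.ofFn g)).Nodup) (h3' : (codes (·.2.2) (List.ofFn g)).Nodup)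
    (h : run (List.ofFn g) = true) :
    N197.hw (fun x => (g x).2.1) (fun x => (g x).1.1) (fun x => (g x).2.2.1)
      (fun x => (g x).1.2.1) (fun x => (g x).2.2.2) (fun x => (g x).1.2.2) ≠ 0 := by
  set r1 : Fin n → ℕ := fun x => (g x).1.1
  set r2 : Fin n → ℕ := fun x => (g x).1.2.1
  set r3 : Fin n → ℕ := fun x => (g x).1.2.2
  have key : ∀ π ∈ stab (fun x => (g x).2.1), ∀ σ ∈ stab (fun x => (g x).2.2.1),
      ∀ τ ∈ stab (fun x => (g x).2.2.2),
      N197.dg (r1 ∘ π) (r2 ∘ σ) (r3 ∘ τ) = N197.dg r1 r2 r3 →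
      (Perm.sign π : ℤ) * (Perm.sign σ * Perm.sign τ) = 1 := by
    intro π hπ σ hσ τ hτ hd
    let u : Fin n → T3 := fun x => (r1 (π x), r2 (σ x), r3 (τ x))
    obtain ⟨s, hs⟩ := H328.exists_perm_of_fiber u (fun x => (g x).1) fun k => by
      have := congrArg (· k) hd
      simp only [N197.dg_apply] at this
      exact this
    obtain ⟨a1, b1⟩ := code_facts g (·.1) h1 π hπ
    obtain ⟨a2, b2⟩ := code_facts g (·.2.1) h2 σ hσ
    obtain ⟨a3, b3⟩ := code_facts g (·.2.2) h3' τ hτ
    have hl := go_sound (fun acc => decide (HH acc.reverse = 1))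
      (List.ofFn fun x => (g x, u x)) (srt ((List.ofFn g).map Prod.fst)) _ _ _ [] (by
        refine (List.perm_insertionSort _ _).trans ?_
        rw [List.map_ofFn, List.map_ofFn]
        have := (s.ofFn_comp_perm fun x => (g x).1).symm
        rwa [show (fun x => (g x).1) ∘ s = u from funext hs] at this)
      (fun q hq => by
        obtain ⟨x, rfl⟩ := List.mem_ofFn.1 hq
        exact ⟨a1 x, a2 x, a3 x⟩)
      (List.pairwise_ofFn.2 fun x y hxy => ⟨b1 x y hxy.ne, b2 x y hxy.ne, b3 x y hxy.ne⟩)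
      (by rw [List.map_ofFn]; exact h)
    rw [decide_eq_true_eq, List.reverseAux_eq, List.append_nil, List.reverse_reverse,
      HH_ofFn] at hl
    obtain ⟨V1, e1⟩ := sign_sq _ r1 π hπ
    obtain ⟨V2, e2⟩ := sign_sq _ r2 σ hσ
    obtain ⟨V3, e3⟩ := sign_sq _ r3 τ hτ
    simp only [h3, prod_mul_distrib] at hl
    rw [e1, e2, e3] at hl
    rcases Int.units_eq_one_or (Perm.sign π * (Perm.sign σ * Perm.sign τ)) with e | e
    · exact congrArg Units.val e
    · have e' : (Perm.sign π : ℤ) * (Perm.sign σ * Perm.sign τ) = -1 := congrArg Units.val e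
      have : (Perm.sign π : ℤ) * (Perm.sign σ * Perm.sign τ) * (V1 * V2 * V3) ^ 2 = 1 := by
        rw [← hl]; ring
      rw [e'] at this
      nlinarith [sq_nonneg (V1 * V2 * V3)]
  intro h0
  have hc := congrArg (MvPolynomial.coeff (N197.dg r1 r2 r3)) h0
  have : ((∑ π ∈ stab (fun x => (g x).2.1), ∑ σ ∈ stab (fun x => (g x).2.2.1),
      ∑ τ ∈ stab (fun x => (g x).2.2.2), if N197.dg (r1 ∘ π) (r2 ∘ ⇑σ⁻¹) (r3 ∘ ⇑τ⁻¹) =
        N197.dg r1 r2 r3 then 1 else 0 : ℕ) : ℂ) = 0 := by
    rw [← MvPolynomial.coeff_zero (R := ℂ) (N197.dg r1 r2 r3), ← hc, N197.hw]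
    simp only [MvPolynomial.coeff_sum, Nat.cast_sum]
    refine sum_congr rfl fun π hπ => sum_congr rfl fun σ hσ => sum_congr rfl fun τ hτ => ?_
    rw [MvPolynomial.coeff_smul, N197.mon_eq, MvPolynomial.coeff_monomial]
    split_ifs with hd
    · have := key π hπ σ⁻¹ (Conj.inv_mem_stab hσ) τ⁻¹ (Conj.inv_mem_stab hτ) hd
      rw [Perm.sign_inv, Perm.sign_inv] at this
      rw [smul_eq_mul, mul_one]
      exact_mod_cast this.symm
    · simp
  have h4 := sum_eq_zero_iff.1 (sum_eq_zero_iff.1 (sum_eq_zero_iff.1 (Nat.cast_eq_zero.1 this) 1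
    (Conj.one_mem_stab _)) 1 (Conj.one_mem_stab _)) 1 (Conj.one_mem_stab _)
  simp at h4

/-- the points fill the diagram with rows `a` -/
def lab (k : T3 → ℕ) (a : List ℕ) (D : List (T3 × T3)) : Bool :=
  D.all (fun p => Nat.blt (k p.2) (a.getD (k p.1) 0)) && (decide (codes k D).Nodup &&
    (List.range a.length).all fun i => (List.range (a.getD i 0)).all fun j =>
      D.any fun p => Nat.beq (k p.1) i && Nat.beq (k p.2) j)

theorem lab_sound {n : ℕ} (g : Fin n → T3 × T3) (k : T3 → ℕ) (a : List ℕ) (A : YoungDiagram)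
    (hA : ∀ i, A.rowLen i = a.getD i 0) (h : lab k a (List.ofFn g) = true) :
    IsLabel A.cells (fun x => k (g x).1) (fun x => k (g x).2) ∧ (codes k (List.ofFn g)).Nodup := by
  simp only [lab, Bool.and_eq_true, List.all_eq_true, List.any_eq_true, Nat.blt_eq, Nat.beq_eq,
    decide_eq_true_eq, List.mem_range] at h
  obtain ⟨h1, h2, h3⟩ := h
  refine ⟨⟨fun x => ?_, fun x y e1 e2 => ?_, fun c hc => ?_⟩, h2⟩
  · rw [YoungDiagram.mem_cells, YoungDiagram.mem_iff_lt_rowLen, hA]
    exact h1 _ (List.mem_ofFn.2 ⟨x, rfl⟩)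
  · rw [codes, List.map_ofFn] at h2
    refine List.nodup_ofFn.1 h2 ?_
    simp only [Function.comp_apply, e1, e2]
  · have hc' : c.2 < a.getD c.1 0 := by
      rw [← hA, ← YoungDiagram.mem_iff_lt_rowLen]
      exact hc
    have hl : c.1 < a.length := by
      by_contra hl
      rw [List.getD_eq_getElem?_getD, List.getElem?_eq_none (not_lt.1 hl)] at hc'
      simp at hc'
    obtain ⟨p, hp, e⟩ := h3 c.1 hl c.2 hc'
    obtain ⟨x, rfl⟩ := List.mem_ofFn.1 hp
    exact ⟨x, e⟩

/-- the points encoded by a number -/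
def dec (n : ℕ) : ℕ → List (T3 × T3) :=
  Nat.rec (fun _ => []) (fun _ ih x => ((x % 32, x / 32 % 32, x / 1024 % 32),
    (x / 32768 % 32, x / 1048576 % 32, x / 33554432 % 32)) :: ih (x / 1073741824)) n

/-- the check of one certificate -/
def chk (a b c : List ℕ) (D : List (T3 × T3)) : Bool :=
  lab (·.1) c D && (lab (·.2.1) a D && (lab (·.2.2) b D && run D))

theorem chk_sound {a b c : List ℕ} {D : List (T3 × T3)} (h : chk a b c D = true) :
    PosL a b c := by
  intro A B C hA hB hC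
  rw [← List.ofFn_get D] at h
  simp only [chk, Bool.and_eq_true] at h
  obtain ⟨l1, n1⟩ := lab_sound _ _ c C hC h.1
  obtain ⟨l2, n2⟩ := lab_sound _ _ a A hA h.2.1
  obtain ⟨l3, n3⟩ := lab_sound _ _ b B hB h.2.2.1
  exact ⟨Fin D.length, inferInstance, inferInstance, _, _, _, _, _, _, l1, l2, l3,
    hw_ne_zero _ n1 n2 n3 h.2.2.2⟩

/-- all certificates of a table are valid -/
def good (n : ℕ) (a : List ℕ) (cs : List (List ℕ × ℕ)) : Bool :=
  cs.all fun c => chk a a c.1 (dec n c.2)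

theorem good_append {n : ℕ} {a : List ℕ} {cs ds : List (List ℕ × ℕ)} (h : good n a cs = true)
    (h' : good n a ds = true) : good n a (cs ++ ds) = true := by
  rw [good, List.all_append]
  exact Bool.and_eq_true_iff.2 ⟨h, h'⟩

end

end Vale.Agent.N197T.F
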