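import Vale.Agent.N197T.Spec

/-!
# The tensor square conjecture: every size is reached by a universal state
-/

namespace Vale.Agent.N197T

open Finset Vale.Agent.P197 Vale.Agent.P197.H369 Vale.Agent.N197

namespace Cov

/-! ### Geometry of a diagram -/

/-- The number of cells in the first `a` rows and the first `b` columns. -/
def box (ν : YoungDiagram) (a b : ℕ) : ℕ := ∑ r ∈ range a, min b (ν.rowLen r)

theorem size_box (ν : YoungDiagram) (a b : ℕ) :
    ν.card + box ν a b ≤ firstRows ν a + firstRows ν.transpose b +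
      (ν.rowLen a - b) * (ν.colLen b - a) := by
  have h1 := card_union_add_card_inter (ν.cells.filter fun d => d.1 < a)
    (ν.cells.filter fun d => d.2 < b)
  rw [card_top, card_left, ← filter_and, card_box] at h1
  have h2 : ν.cells ⊆ ((ν.cells.filter fun d => d.1 < a) ∪ (ν.cells.filter fun d => d.2 < b)) ∪
      (Ico a (ν.colLen b) ×ˢ Ico b (ν.rowLen a)) := by
    rintro ⟨r, c⟩ hd
    simp only [mem_union, mem_filter, mem_product, mem_Ico]
    by_cases ha : r < a
    · exact Or.inl (Or.inl ⟨hd, ha⟩)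
    by_cases hb : c < b
    · exact Or.inl (Or.inr ⟨hd, hb⟩)
    rw [YoungDiagram.mem_cells] at hd
    have h3 := YoungDiagram.mem_iff_lt_colLen.1 (ν.up_left_mem le_rfl (by omega : b ≤ c) hd)
    have h4 := YoungDiagram.mem_iff_lt_rowLen.1 (ν.up_left_mem (by omega : a ≤ r) le_rfl hd)
    exact Or.inr ⟨⟨by omega, h3⟩, by omega, h4⟩
  have h3 := (card_le_card h2).trans (card_union_le _ _)
  rw [card_product, Nat.card_Ico, Nat.card_Ico, mul_comm] at h3
  have h4 : ν.cells.card = ν.card := rfl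
  unfold box
  omega

theorem mul_le_box (ν : YoungDiagram) {a b : ℕ} (h : ∀ r < a, b ≤ ν.rowLen r) :
    a * b ≤ box ν a b := by
  have := card_nsmul_le_sum (range a) (fun r => min b (ν.rowLen r)) b fun r hr =>
    le_min le_rfl (h r (mem_range.1 hr))
  simpa [box] using this

theorem rowLen_le_div (ν : YoungDiagram) {a M : ℕ} (ha : 0 < a) (h : firstRows ν a ≤ M) :
    ν.rowLen a ≤ M / a := by
  have h1 := card_nsmul_le_sum (range a) ν.rowLen (ν.rowLen a) fun r hr =>
    ν.rowLen_anti _ _ (mem_range.1 hr).le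
  rw [card_range, smul_eq_mul] at h1
  exact (Nat.le_div_iff_mul_le ha).2 (by rw [mul_comm]; exact h1.trans h)

theorem box_add_box (ν : YoungDiagram) {a b t : ℕ} (ha : t ≤ a) (hb : t ≤ b) :
    box ν t b + box ν.transpose t a ≤ box ν a b + t * t := by
  have h1 := card_union_add_card_inter (ν.cells.filter fun d => d.1 < t ∧ d.2 < b)
    (ν.cells.filter fun d => d.1 < a ∧ d.2 < t)
  rw [card_box, card_box, ← sum_min ν a t] at h1
  have h2 : (ν.cells.filter fun d => d.1 < t ∧ d.2 < b) ∪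
      (ν.cells.filter fun d => d.1 < a ∧ d.2 < t) ⊆ ν.cells.filter fun d => d.1 < a ∧ d.2 < b := by
    intro d hd
    simp only [mem_union, mem_filter] at hd ⊢
    rcases hd with h | h
    exacts [⟨h.1, by omega, h.2.2⟩, ⟨h.1, h.2.1, by omega⟩]
  have h3 : (ν.cells.filter fun d => d.1 < t ∧ d.2 < b) ∩
      (ν.cells.filter fun d => d.1 < a ∧ d.2 < t) ⊆ range t ×ˢ range t := by
    intro d hd
    simp only [mem_inter, mem_filter, mem_product, mem_range] at hd ⊢
    exact ⟨hd.1.2.1, hd.2.2.2⟩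
  have h4 := card_le_card h2
  have h5 := card_le_card h3
  rw [card_box] at h4
  rw [card_product, card_range] at h5
  simp only [box, YoungDiagram.rowLen_transpose]
  omega

theorem firstRows_le (ν : YoungDiagram) (t : ℕ) : firstRows ν t ≤ ν.card := by
  rw [← card_top]
  exact card_filter_le _ _

/-! ### Tables -/

/-- Bounds for weighted sums of the numbers of short columns. -/
structure Tb where
  /-- first kind, one row -/
  a1 : ℕ
  /-- first kind, two rows -/
  a2 : ℕ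
  /-- first kind, three rows -/
  a3 : ℕ
  /-- both kinds, four rows -/
  a4 : ℕ
  /-- second kind, one row -/
  d1 : ℕ
  /-- second kind, two rows -/
  d2 : ℕ
  /-- second kind, three rows -/
  d3 : ℕ

/-- The bounds hold. -/
def Tb.ok (T : Tb) (m1 m2 m3 m4 : ℕ) : Bool :=
  decide (m1 ≤ T.a1) && decide (m1 + 2 * m2 ≤ T.a2) && decide (m1 + 2 * m2 + 3 * m3 ≤ T.a3) &&
    decide (m1 + 2 * m2 + 3 * m3 + 4 * m4 ≤ T.a4) && decide (m1 + m2 + m3 + m4 ≤ T.d1) &&
    decide (m1 + 2 * m2 + 2 * m3 + 2 * m4 ≤ T.d2) && decide (m1 + 2 * m2 + 3 * m3 + 3 * m4 ≤ T.d3)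

/-- The bounds for a diagram to which no move applies. -/
def tab (n q d e : ℕ) : Tb :=
  if 3 ≤ q ∧ d < 3 then
    if e = 0 then
      if d = 0 then ⟨23, 25, 32, 32, 25, 29, 32⟩
      else if d = 1 then ⟨3, 25, 32, 32, 15, 29, 32⟩ else ⟨3, 9, 28, 28, 11, 21, 28⟩
    else ⟨1, 23, 25, 25, 12, 24, 25⟩
  else if e = 0 then
    if 3 ≤ d then ⟨3, 9, 16, 16, 7, 13, 16⟩
    else if d = 2 then ⟨3, 9, n, n, n, n, n⟩
    else if d = 1 then ⟨3, n, n, n, n, n, n⟩ else ⟨n, n, n, n, n, n, n⟩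
  else if 3 ≤ d then ⟨1, 7, 9, 9, 4, 8, 9⟩ else ⟨1, n, n, n, n, n, n⟩

theorem jump_tab : ((List.range 3).all fun d => (List.range 2).all fun e =>
    (List.range 24).all fun m1 => (List.range 12).all fun m2 => (List.range 8).all fun m3 =>
      (List.range 6).all fun m4 =>
        (tab 0 3 d e).ok m1 m2 m3 m4 || topMove d e m1 m2 m3 m4 || jump m1 m2 m3 m4) = true := by
  decide +kernel

theorem jump_of {m1 m2 m3 m4 : ℕ} (x : ℕ × ℕ × ℕ × ℕ) (hx : x ∈ L33) (h1 : x.1 + x.1 ≤ m1)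
    (h2 : x.2.1 + x.2.1 ≤ m2) (h3 : x.2.2.1 + x.2.2.1 ≤ m3) (h4 : x.2.2.2 + x.2.2.2 ≤ m4) :
    jump m1 m2 m3 m4 = true := by
  simp only [jump, List.any_eq_true, Bool.and_eq_true, decide_eq_true_eq]
  exact ⟨x, hx, x, hx, ⟨⟨h1, h2⟩, h3⟩, h4⟩

theorem tab_ok {n q d e m1 m2 m3 m4 : ℕ} (he : e ≤ 1) (h : ¬ movable q d e m1 m2 m3 m4 = true)
    (hn : m1 + 2 * m2 + 3 * m3 + 4 * m4 ≤ n) : (tab n q d e).ok m1 m2 m3 m4 = true := by
  simp only [movable, Bool.or_eq_true, Bool.and_eq_true, decide_eq_true_eq, not_or] at h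
  obtain ⟨h1, h2⟩ := h
  by_cases hq : 3 ≤ q ∧ d < 3
  · have h3 : ¬ jump m1 m2 m3 m4 = true := fun h3 => h2 ⟨hq, h3⟩
    have b1 : m1 < 24 := not_le.1 fun b => h3 (jump_of (12, 0, 0, 0) (by decide) b
      (Nat.zero_le _) (Nat.zero_le _) (Nat.zero_le _))
    have b2 : m2 < 12 := not_le.1 fun b => h3 (jump_of (0, 6, 0, 0) (by decide) (Nat.zero_le _) b
      (Nat.zero_le _) (Nat.zero_le _))
    have b3 : m3 < 8 := not_le.1 fun b => h3 (jump_of (0, 0, 4, 0) (by decide) (Nat.zero_le _)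
      (Nat.zero_le _) b (Nat.zero_le _))
    have b4 : m4 < 6 := not_le.1 fun b => h3 (jump_of (0, 0, 0, 3) (by decide) (Nat.zero_le _)
      (Nat.zero_le _) (Nat.zero_le _) b)
    have h4 := jump_tab
    simp only [List.all_eq_true, List.mem_range, Bool.or_eq_true] at h4
    have h5 := ((h4 d hq.2 e (by omega) m1 b1 m2 b2 m3 b3 m4 b4).resolve_right h3).resolve_right h1
    rw [tab, if_pos ⟨le_rfl, hq.2⟩] at h5
    rwa [tab, if_pos hq]
  · rw [tab, if_neg hq]
    unfold topMove two2 two3 at h1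
    split_ifs with c1 c2 c3 c4 c5 <;>
      simp only [c1, if_true, if_false, Tb.ok, Bool.or_eq_true, Bool.and_eq_true,
        decide_eq_true_eq] at h1 ⊢ <;> omega

theorem mv_le (ν : YoungDiagram) :
    mv ν 0 + 2 * mv ν 1 + 3 * mv ν 2 + 4 * mv ν 3 ≤ ν.card := by
  have h := firstRows_le ν 4
  have h0 := ν.rowLen_anti 0 1 (by omega)
  have h1 := ν.rowLen_anti 1 2 (by omega)
  have h2 := ν.rowLen_anti 2 3 (by omega)
  have h3 := ν.rowLen_anti 3 4 (by omega)
  simp only [firstRows, sum_range_succ, sum_range_zero] at h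
  simp only [mv, Nat.reduceAdd]
  omega

theorem top_ok (ν : YoungDiagram) {n : ℕ} (hn : ν.card = n) :
    (tab n 0 0 0).ok (mv ν 0) (mv ν 1) (mv ν 2) (mv ν 3) = true := by
  have h := mv_le ν
  have h1 : tab n 0 0 0 = ⟨n, n, n, n, n, n, n⟩ := rfl
  simp only [h1, Tb.ok, Bool.and_eq_true, decide_eq_true_eq]
  omega

/-! ### The test for a pair of levels -/

/-- The bound if exactly `L` rows are longer than `b`. -/
def rhoL (t b G L A D : ℕ) : ℕ :=
  if L < t ∧ G ≤ A then L * b + (t - L) * (b - (D - G) / L) else t * b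

/-- A lower bound for the number of cells in the first `t` rows and the first `b` columns. -/
def rho (t b G : ℕ) (T : Tb) : ℕ :=
  min (min (rhoL t b G 1 T.a1 T.d1) (rhoL t b G 2 T.a2 T.d2))
    (min (rhoL t b G 3 T.a3 T.d3) (rhoL t b G 4 T.a4 T.a4))

theorem rhoL_le (t b G L A D : ℕ) : rhoL t b G L A D ≤ t * b := by
  unfold rhoL
  split_ifs with h
  · calc _ ≤ L * b + (t - L) * b := by gcongr; exact Nat.sub_le _ _
      _ = t * b := by rw [← add_mul, Nat.add_sub_cancel' h.1.le]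
  · rfl

theorem rho_le (ν : YoungDiagram) {t b M : ℕ} {T : Tb} (ht : t ≤ 5) (hM : M < ν.card)
    (h : firstRows ν.transpose b ≤ M) (hT : T.ok (mv ν 0) (mv ν 1) (mv ν 2) (mv ν 3) = true) :
    rho t b (ν.card - M) T ≤ box ν t b := by
  have a1 : ∀ r < ν.colLen b, b < ν.rowLen r := fun r hr =>
    YoungDiagram.mem_iff_lt_rowLen.1 (YoungDiagram.mem_iff_lt_colLen.2 hr)
  rcases le_or_gt t (ν.colLen b) with h1 | h1
  · exact ((min_le_left _ _).trans ((min_le_left _ _).trans (rhoL_le _ _ _ _ _ _))).trans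
      (mul_le_box ν fun r hr => (a1 r (hr.trans_le h1)).le)
  have a2 : ν.rowLen (ν.colLen b) ≤ b := not_lt.1 fun a2 =>
    lt_irrefl _ (YoungDiagram.mem_iff_lt_colLen.1 (YoungDiagram.mem_iff_lt_rowLen.2 a2))
  have a3 := size_box ν (ν.colLen b) b
  have a4 := mul_le_box ν fun r hr => (a1 r hr).le
  rw [Nat.sub_self, mul_zero] at a3
  have a5 : ν.card - M + ν.colLen b * b ≤ firstRows ν (ν.colLen b) := by omega
  have a6 : 0 < ν.card - M := by omega
  have h0 := ν.rowLen_anti 0 1 (by omega)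
  have h2 := ν.rowLen_anti 1 2 (by omega)
  have h3 := ν.rowLen_anti 2 3 (by omega)
  have h4 := ν.rowLen_anti 3 4 (by omega)
  simp only [Tb.ok, Bool.and_eq_true, decide_eq_true_eq] at hT
  simp only [mv, Nat.reduceAdd] at hT
  generalize ν.card - M = G at a5 a6
  generalize ν.colLen b = L at a1 a2 a5 h1
  clear a3 a4 h hM
  obtain rfl | rfl | rfl | rfl | rfl : L = 0 ∨ L = 1 ∨ L = 2 ∨ L = 3 ∨ L = 4 := by omega
  · simp [firstRows] at a5
    omega
  · refine ((min_le_left _ _).trans (min_le_left _ _)).trans ?_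
    have := a1 0 (by omega)
    simp only [firstRows, sum_range_succ, sum_range_zero] at a5
    rw [rhoL, if_pos ⟨h1, by omega⟩]
    obtain rfl | rfl | rfl | rfl : t = 2 ∨ t = 3 ∨ t = 4 ∨ t = 5 := by omega
    all_goals
      simp only [box, sum_range_succ, sum_range_zero]
      omega
  · refine ((min_le_left _ _).trans (min_le_right _ _)).trans ?_
    have := a1 1 (by omega)
    simp only [firstRows, sum_range_succ, sum_range_zero] at a5
    rw [rhoL, if_pos ⟨h1, by omega⟩]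
    obtain rfl | rfl | rfl : t = 3 ∨ t = 4 ∨ t = 5 := by omega
    all_goals
      simp only [box, sum_range_succ, sum_range_zero]
      omega
  · refine ((min_le_right _ _).trans (min_le_left _ _)).trans ?_
    have := a1 2 (by omega)
    simp only [firstRows, sum_range_succ, sum_range_zero] at a5
    rw [rhoL, if_pos ⟨h1, by omega⟩]
    obtain rfl | rfl : t = 4 ∨ t = 5 := by omega
    all_goals
      simp only [box, sum_range_succ, sum_range_zero]
      omega
  · refine ((min_le_right _ _).trans (min_le_right _ _)).trans ?_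
    have := a1 3 (by omega)
    simp only [firstRows, sum_range_succ, sum_range_zero] at a5
    rw [rhoL, if_pos ⟨h1, by omega⟩]
    obtain rfl : t = 5 := by omega
    simp only [box, sum_range_succ, sum_range_zero]
    omega

/-- No diagram of size `n` has at most `M` cells in the first `a` rows and at most `M'` cells in
the first `b` columns. -/
def pairOK (n a b M M' : ℕ) (T : Tb) (ts : List ℕ) : Bool :=
  !(decide (b < M / a) && decide (a < M' / b) &&
      decide (n + a * b ≤ M + M' + (M / a - b) * (M' / b - a))) &&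
    decide (M < n) && decide (M' < n) &&
    ts.any fun t => decide (t ≤ 5) && decide (t ≤ a) && decide (t ≤ b) &&
      decide (M + M' + t * t < n + rho t b (n - M') T + rho t a (n - M) T)

theorem pairOK_false (ν : YoungDiagram) {a b M M' : ℕ} {T : Tb} {ts : List ℕ} (ha : 0 < a)
    (hb : 0 < b) (h : pairOK ν.card a b M M' T ts = true) (h1 : firstRows ν a ≤ M)
    (h2 : firstRows ν.transpose b ≤ M') (hT : T.ok (mv ν 0) (mv ν 1) (mv ν 2) (mv ν 3) = true)
    (hT' : T.ok (mv ν.transpose 0) (mv ν.transpose 1) (mv ν.transpose 2) (mv ν.transpose 3) =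
      true) : False := by
  simp only [pairOK, Bool.and_eq_true, Bool.not_eq_true', ← Bool.not_eq_true, decide_eq_true_eq,
    List.any_eq_true] at h
  obtain ⟨⟨⟨c1, c2⟩, c3⟩, t, -, ⟨⟨c4, c5⟩, c6⟩, c7⟩ := h
  have a1 := size_box ν a b
  rcases lt_or_ge b (ν.rowLen a) with h3 | h3
  · have a2 := rowLen_le_div ν ha h1
    have a3 := rowLen_le_div ν.transpose hb h2
    rw [YoungDiagram.rowLen_transpose] at a3
    have a4 := YoungDiagram.mem_iff_lt_colLen.1 (YoungDiagram.mem_iff_lt_rowLen.2 h3)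
    have a5 := mul_le_box ν (a := a) (b := b) fun r hr => h3.le.trans (ν.rowLen_anti _ _ hr.le)
    have a6 : (ν.rowLen a - b) * (ν.colLen b - a) ≤ (M / a - b) * (M' / b - a) :=
      Nat.mul_le_mul (Nat.sub_le_sub_right a2 _) (Nat.sub_le_sub_right a3 _)
    exact c1 ⟨⟨h3.trans_le a2, a4.trans_le a3⟩, by omega⟩
  · rw [Nat.sub_eq_zero_of_le h3, zero_mul] at a1
    have a2 := box_add_box ν c5 c6
    have a3 := rho_le ν c4 c3 h2 hT
    have a4 := rho_le ν.transpose (b := a) (M := M) c4 (by rwa [Saxl.card_transpose])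
      (by rwa [YoungDiagram.transpose_transpose]) hT'
    rw [Saxl.card_transpose] at a4
    omega

/-! ### The levels at which the strips fail -/

/-- Pairs `(a, M)`: if the strips do not exist, the first `a` rows hold at most `M` cells for one
of them. -/
def levels (K q d e : ℕ) : List (ℕ × ℕ) :=
  if q = 0 then
    [(4, 2 * (K + d) - 1 + e + (if 2 ≤ d then 1 else 3) * e - 1),
      (8, 2 * (K + d) - 1 + e + (if 2 ≤ d then 1 else 3) * e + (2 * (K + d) - 5 + 4 * e) - 1)]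
  else
    [(4, 2 * (K + q + d) - 1 + 2 * e - 1),
      (8, 2 * (K + q + d) - 1 + 2 * e + max (2 * (K + q) - 5) (2 * (K + q + d) - 9 + 4 * e) - 1),
      (12, 2 * (K + q + d) - 1 + 2 * e + (2 * (K + q) - 5) + (2 * (K + q + d) - 9 + 4 * e) - 1),
      (16, 2 * (K + q + d) - 1 + 2 * e + (2 * (K + q) - 5) + (2 * (K + q + d) - 9 + 4 * e) +
        (2 * (K + q) - 13) - 1)]

theorem fail_level (h2 : TwoStmt) (h4 : FourStmt) (ν : YoungDiagram) {K q d e : ℕ}
    (hA : Adm K q d e) (h : ¬ ((q = 0 ∧ Two ν K d e) ∨ (3 ≤ q ∧ Four ν K q d e))) :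
    ∃ p ∈ levels K q d e, 0 < p.1 ∧ firstRows ν p.1 ≤ p.2 := by
  by_contra hc
  have hc' : ∀ p ∈ levels K q d e, 0 < p.1 → p.2 < firstRows ν p.1 := fun p hp h0 =>
    not_le.1 fun h1 => hc ⟨p, hp, h0, h1⟩
  obtain ⟨a1, a2, -, a3 | ⟨a3, a4⟩⟩ := hA
  · rw [levels, if_pos a3] at hc'
    simp only [List.forall_mem_cons] at hc'
    have b1 := hc'.1 (by omega)
    have b2 := hc'.2.1 (by omega)
    refine h (Or.inl ⟨a3, h2 ν K d e (if 2 ≤ d then 1 else 3) a1 a2 ?_ (by omega) (by omega)⟩)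
    split_ifs with c
    exacts [Or.inr ⟨rfl, c⟩, Or.inl rfl]
  · rw [levels, if_neg (by omega)] at hc'
    simp only [List.forall_mem_cons] at hc'
    have b1 := hc'.1 (by omega)
    have b2 := hc'.2.1 (by omega)
    have b3 := hc'.2.2.1 (by omega)
    have b4 := hc'.2.2.2.1 (by omega)
    exact h (Or.inr ⟨a3, h4 ν K q d e _ _ _ _ a4 a2 rfl rfl rfl rfl (by omega) (by omega)
      (by omega) (by omega)⟩)

/-- All pairs of levels pass the test. -/
def check (K q d e : ℕ) (T : Tb) (ts : List ℕ) : Bool :=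
  (levels K q d e).all fun p => (levels K q d e).all fun r =>
    pairOK (sz K q d e) p.1 r.1 p.2 r.2 T ts

theorem strips_of_check (h2 : TwoStmt) (h4 : FourStmt) (ν : YoungDiagram) {K q d e : ℕ} {T : Tb}
    {ts : List ℕ} (hA : Adm K q d e) (hc : check K q d e T ts = true) (hn : ν.card = sz K q d e)
    (hT : T.ok (mv ν 0) (mv ν 1) (mv ν 2) (mv ν 3) = true)
    (hT' : T.ok (mv ν.transpose 0) (mv ν.transpose 1) (mv ν.transpose 2) (mv ν.transpose 3) =
      true) :
    ((q = 0 ∧ Two ν K d e) ∨ (3 ≤ q ∧ Four ν K q d e)) ∨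
      ((q = 0 ∧ Two ν.transpose K d e) ∨ (3 ≤ q ∧ Four ν.transpose K q d e)) := by
  by_contra h
  rw [not_or] at h
  obtain ⟨p, hp, p0, p1⟩ := fail_level h2 h4 ν hA h.1
  obtain ⟨r, hr, r0, r1⟩ := fail_level h2 h4 ν.transpose hA h.2
  simp only [check, List.all_eq_true] at hc
  have h5 := hc p hp r hr
  rw [← hn] at h5
  exact pairOK_false ν p0 r0 h5 p1 r1 hT hT'

theorem coveredS_of_check (h2 : TwoStmt) (h4 : FourStmt) {K q d e : ℕ} {ts : List ℕ}
    (hA : Adm K q d e) (hc : check K q d e (tab (sz K q d e) 0 0 0) ts = true) :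
    CoveredS K q d e := fun ν hn =>
  strips_of_check h2 h4 ν hA hc hn (top_ok ν hn)
    (top_ok ν.transpose ((Saxl.card_transpose ν).trans hn))

theorem covered_of_check (h2 : TwoStmt) (h4 : FourStmt) {K q d e : ℕ} {ts : List ℕ}
    (hA : Adm K q d e) (hc : check K q d e (tab (sz K q d e) q d e) ts = true) :
    Covered K q d e := by
  intro ν hn
  by_cases m1 : movable q d e (mv ν 0) (mv ν 1) (mv ν 2) (mv ν 3) = true
  · exact Or.inl (Or.inl m1)
  by_cases m2 : movable q d e (mv ν.transpose 0) (mv ν.transpose 1) (mv ν.transpose 2)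
      (mv ν.transpose 3) = true
  · exact Or.inr (Or.inl m2)
  exact (strips_of_check h2 h4 ν hA hc hn (tab_ok hA.2.1 m1 (hn ▸ mv_le ν))
    (tab_ok hA.2.1 m2 (((Saxl.card_transpose ν).trans hn) ▸ mv_le ν.transpose))).imp Or.inr Or.inr

/-! ### The finite range -/

/-- The largest excess needed. -/
def xm (K : ℕ) : ℕ := if K % 2 = 0 then 3 * K + 8 else K + 3

/-- Membership in a list of states. -/
def mem3 (l : List (ℕ × ℕ × ℕ)) (q d e : ℕ) : Bool :=
  l.any fun s => decide (s.2.1 = d) && decide (s.2.2 = e) && decide (s.1 = q)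

/-- The targets of the moves are in the list. -/
def below (l : List (ℕ × ℕ × ℕ)) (q d e : ℕ) : Bool :=
  ((List.range 4).all fun u => (List.range 2).all fun e' =>
    !decide (u ≤ d ∧ e' ≤ e ∧ d - u + e' < d + e ∧ (e' = 1 → 1 ≤ d - u)) || mem3 l q (d - u) e') &&
    (!decide (3 ≤ q ∧ d < 3) || mem3 l (q - 3) d e)

/-- The state can be added to the list. -/
def accept (K : ℕ) (l : List (ℕ × ℕ × ℕ)) (q d e : ℕ) : Bool :=
  decide (8 * q + 4 * d + 2 * e ≤ xm K ∧ 1 ≤ q + d ∧ (3 ≤ q → d < 3 → q = 3 ∨ 6 ≤ q) ∧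
      4 ≤ K ∧ e ≤ 1 ∧ (e = 1 → 1 ≤ d) ∧ (q = 0 ∨ (3 ≤ q ∧ 8 ≤ K))) &&
    (check K q d e (tab (sz K q d e) 0 0 0) [1] ||
      (below l q d e && (decide (q = 0 ∧ K ≤ 10 ∧ (K ≤ 6 ∨ e = 1)) ||
        check K q d e (tab (sz K q d e) q d e) [5, 4, 3, 2, 1])))

/-- Every excess is reached by a state of the list. -/
def reached (K : ℕ) (l : List (ℕ × ℕ × ℕ)) : Bool :=
  (List.range (xm K / 2 + 1)).all fun y => decide (y < 2) || decide (2 * y + 2 = xm K) ||
    l.any fun s => decide (8 * s.1 + 4 * s.2.1 + 2 * s.2.2 = 2 * y)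

/-- Run through the candidates. -/
def grow (K : ℕ) : List (ℕ × ℕ × ℕ) → List (ℕ × ℕ × ℕ) → Bool
  | [], l => reached K l
  | s :: r, l => bif accept K l s.1 s.2.1 s.2.2 then grow K r (s :: l) else grow K r l

/-- The candidates. -/
def cand (K : ℕ) : List (ℕ × ℕ × ℕ) :=
  (if K % 2 = 1 ∨ K < 14 then [0] else [0, 3, 6, 9]).flatMap fun q =>
    (List.range (xm K / 4 + 1)).flatMap fun d => [(q, d, 0), (q, d, 1)]

theorem grow_all :
    ((List.range 29).all fun k => grow (k + 4) (cand (k + 4)) [(0, 0, 0)]) = true := by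
  decide +kernel

/-- The rule with moves. -/
def Rule1 : Prop := ∀ K q d e, Adm K q d e → 1 ≤ q + d → (3 ≤ q → d < 3 → q = 3 ∨ 6 ≤ q) →
  Below K q d e → Covered K q d e → Univ K q d e

/-- The rule with strips only. -/
def Rule2 : Prop := ∀ K q d e, Adm K q d e → 1 ≤ q + d → CoveredS K q d e → Univ K q d e

/-- All states of the list are admissible and universal. -/
def Good (K : ℕ) (l : List (ℕ × ℕ × ℕ)) : Prop :=
  ∀ s ∈ l, Adm K s.1 s.2.1 s.2.2 ∧ Univ K s.1 s.2.1 s.2.2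

theorem mem3_univ {K q d e : ℕ} {l : List (ℕ × ℕ × ℕ)} (hl : Good K l)
    (h : mem3 l q d e = true) : Univ K q d e := by
  simp only [mem3, List.any_eq_true, Bool.and_eq_true, decide_eq_true_eq] at h
  obtain ⟨s, hs, ⟨rfl, rfl⟩, rfl⟩ := h
  exact (hl s hs).2

theorem below_of {K q d e : ℕ} {l : List (ℕ × ℕ × ℕ)} (hl : Good K l) (he : e ≤ 1)
    (h : below l q d e = true) : Below K q d e := by
  simp only [below, Bool.and_eq_true, List.all_eq_true, List.mem_range, Bool.or_eq_true,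
    Bool.not_eq_true', decide_eq_false_iff_not] at h
  refine ⟨fun d' e' a1 a2 a3 a4 a5 => ?_, fun a1 a2 => mem3_univ hl (h.2.resolve_left fun c =>
    c ⟨a1, a2⟩)⟩
  have h1 := h.1 (d - d') (by omega) e' (by omega)
  rw [show d - (d - d') = d' by omega] at h1
  exact mem3_univ hl (h1.resolve_left fun c => c ⟨by omega, a3, a4, a5⟩)

theorem accept_good (hE : EnumStmt) (h2 : TwoStmt) (h4 : FourStmt) (r1 : Rule1) (r2 : Rule2)
    {K q d e : ℕ} {l : List (ℕ × ℕ × ℕ)} (hl : Good K l) (h : accept K l q d e = true) :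
    Adm K q d e ∧ Univ K q d e := by
  simp only [accept, Bool.and_eq_true, Bool.or_eq_true, decide_eq_true_eq] at h
  obtain ⟨⟨a1, a2, a3, hA⟩, h⟩ := h
  have hA' : Adm K q d e := hA
  refine ⟨hA', ?_⟩
  rcases h with h | ⟨hb, ⟨rfl, b1, b2⟩ | h⟩
  · exact r2 K q d e hA' a2 (coveredS_of_check h2 h4 hA' h)
  · refine r1 K 0 d e hA' a2 a3 (below_of hl hA.2.1 hb)
      (hE K d e hA.1 b1 (by omega) hA.2.1 b2 ?_)
    rw [xm] at a1
    omega
  · exact r1 K q d e hA' a2 a3 (below_of hl hA.2.1 hb) (covered_of_check h2 h4 hA' h)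

theorem grow_good (hE : EnumStmt) (h2 : TwoStmt) (h4 : FourStmt) (r1 : Rule1) (r2 : Rule2)
    (K : ℕ) (r : List (ℕ × ℕ × ℕ)) : ∀ l, Good K l → grow K r l = true →
      ∃ l', Good K l' ∧ reached K l' = true := by
  induction r with
  | nil => exact fun l hl h => ⟨l, hl, h⟩
  | cons s r ih =>
    intro l hl h
    rw [grow] at h
    cases ha : accept K l s.1 s.2.1 s.2.2 with
    | false => rw [ha, cond_false] at h; exact ih l hl h
    | true =>
      rw [ha, cond_true] at h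
      exact ih (s :: l) (List.forall_mem_cons.2 ⟨accept_good hE h2 h4 r1 r2 hl ha, hl⟩) h

/-- The excess `x` is reached by a universal state. -/
def Reach (K x : ℕ) : Prop := ∃ q d e, Adm K q d e ∧ x = 8 * q + 4 * d + 2 * e ∧ Univ K q d e

theorem reach_small (hE : EnumStmt) (h2 : TwoStmt) (h4 : FourStmt) (r1 : Rule1) (r2 : Rule2)
    (r0 : ∀ K, Univ K 0 0 0) {K x : ℕ} (k1 : 4 ≤ K) (k2 : K ≤ 32) (x1 : 4 ≤ x) (x2 : x ≤ xm K)
    (x3 : x % 2 = 0) (x4 : x + 2 ≠ xm K) : Reach K x := by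
  have h := grow_all
  simp only [List.all_eq_true, List.mem_range] at h
  have h1 := h (K - 4) (by omega)
  rw [Nat.sub_add_cancel k1] at h1
  obtain ⟨l, hl, h3⟩ := grow_good hE h2 h4 r1 r2 K _ _ (List.forall_mem_singleton.2
    ⟨⟨k1, Nat.zero_le _, fun c => absurd c (by decide), Or.inl rfl⟩, r0 K⟩) h1
  simp only [reached, List.all_eq_true, List.mem_range, Bool.or_eq_true, decide_eq_true_eq,
    List.any_eq_true] at h3
  obtain ⟨s, hs, h5⟩ := (h3 (x / 2) (by omega)).resolve_left (by omega)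
  exact ⟨_, _, _, (hl s hs).1, by omega, (hl s hs).2⟩

/-! ### Large staircases -/

theorem pair_one {n a b M M' W : ℕ} (T : Tb) (ha : 1 ≤ a) (hb : 1 ≤ b) (h1 : 2 * M ≤ a * W)
    (h2 : 2 * M' ≤ b * W) (h3 : W * W + 4 * (a + b) < 4 * n) (h4 : M + M' + 1 < n + a + b)
    (h5 : M < n) (h6 : M' < n) : pairOK n a b M M' T [1] = true := by
  have r : ∀ b G, rho 1 b G T = b := fun b G => by simp [rho, rhoL]
  simp only [pairOK, Bool.and_eq_true, Bool.not_eq_true', ← Bool.not_eq_true, decide_eq_true_eq,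
    List.any_cons, List.any_nil, Bool.or_false, r]
  refine ⟨⟨⟨?_, h5⟩, h6⟩, ⟨⟨by omega, ha⟩, hb⟩, by omega⟩
  rintro ⟨⟨c1, c2⟩, c3⟩
  have a1 := Nat.div_add_mod M a
  have a2 := Nat.div_add_mod M' b
  have a3 := Nat.mod_lt M ha
  have a4 := Nat.mod_lt M' hb
  obtain ⟨u, hu⟩ := Nat.exists_eq_add_of_le c1.le
  obtain ⟨v, hv⟩ := Nat.exists_eq_add_of_le c2.le
  rw [hu] at a1 c3
  rw [hv] at a2 c3
  rw [Nat.add_sub_cancel_left, Nat.add_sub_cancel_left] at c3
  have a5 : a * (2 * (b + u)) ≤ a * W := by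
    rw [mul_left_comm]
    omega
  have a6 : b * (2 * (a + v)) ≤ b * W := by
    rw [mul_left_comm]
    omega
  have a7 := Nat.mul_le_mul (Nat.le_of_mul_le_mul_left a5 ha) (Nat.le_of_mul_le_mul_left a6 hb)
  nlinarith

theorem check_of_levels {K q d e W : ℕ} (T : Tb) (hW : W * W + 128 < 4 * sz K q d e)
    (h : ∀ p ∈ levels K q d e, 1 ≤ p.1 ∧ p.1 ≤ 16 ∧ 2 * p.2 ≤ p.1 * W ∧
      2 * p.2 + 2 ≤ sz K q d e + 2 * p.1 ∧ p.2 < sz K q d e) : check K q d e T [1] = true := by
  simp only [check, List.all_eq_true]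
  intro p hp r hr
  obtain ⟨a1, a2, a3, a4, a5⟩ := h p hp
  obtain ⟨b1, b2, b3, b4, b5⟩ := h r hr
  exact pair_one T a1 b1 a3 b3 (by omega) (by omega) a5 b5

theorem check_big {K q d e : ℕ} (T : Tb) (hK : 33 ≤ K) (he : e ≤ 1) (hd : 1 ≤ d)
    (hq : (q = 0 ∧ d ≤ 6) ∨ (3 ≤ q ∧ d ≤ 2)) (hx : 8 * q + 4 * d + 2 * e ≤ 3 * K + 8) :
    check K q d e T [1] = true := by
  have hN : 2 * (K * (K + 1) / 2) = K * (K + 1) :=
    Nat.two_mul_div_two_of_even (Nat.even_mul_succ_self K)
  have hs : sz K q d e = K * (K + 1) / 2 + 8 * q + 4 * d + 2 * e := rfl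
  generalize K * (K + 1) / 2 = N at hN hs
  have a1 : 19 * K ≤ N + 72 := by nlinarith
  rcases hq with ⟨rfl, hq⟩ | ⟨hq, hq'⟩
  · have a2 : (K + 6) * (K + 6) + 128 < 4 * N := by nlinarith
    refine check_of_levels (W := K + 6) T (by omega) ?_
    have a3 : (if 2 ≤ d then 1 else 3) * e ≤ 3 ∧ (2 ≤ d → (if 2 ≤ d then 1 else 3) * e ≤ 1) := by
      split_ifs <;> omega
    rw [levels, if_pos rfl, hs]
    generalize (if 2 ≤ d then 1 else 3) * e = z at a3
    simp only [List.forall_mem_cons, List.not_mem_nil, false_imp_iff, implies_true, and_true]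
    omega
  · have a2 : (K + q + 2) * (K + q + 2) + 128 < 4 * N + 32 * q + 16 := by
      obtain ⟨r, hr⟩ : ∃ r, 3 * K + 4 = 8 * q + r := ⟨3 * K + 4 - 8 * q, by omega⟩
      obtain ⟨k, hk⟩ := Nat.exists_eq_add_of_le hK
      nlinarith [Nat.zero_le (q * r), Nat.zero_le (r * k), Nat.zero_le (k * k)]
    refine check_of_levels (W := K + q + 2) T (by omega) ?_
    rw [levels, if_neg (by omega), hs]
    simp only [List.forall_mem_cons, List.not_mem_nil, false_imp_iff, implies_true, and_true]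
    omega

theorem reach_big (h2 : TwoStmt) (h4 : FourStmt) (r2 : Rule2) {K x : ℕ} (hK : 33 ≤ K)
    (x1 : 4 ≤ x) (x2 : x ≤ 3 * K + 8) (x3 : x % 2 = 0) : Reach K x := by
  obtain ⟨q, d, e, a1, a2, a3, a4⟩ : ∃ q d e, e ≤ 1 ∧ 1 ≤ d ∧
      ((q = 0 ∧ d ≤ 6) ∨ (3 ≤ q ∧ d ≤ 2)) ∧ x = 8 * q + 4 * d + 2 * e := by
    by_cases c : x < 28
    · exact ⟨0, x / 4, x / 2 % 2, by omega, by omega, by omega, by omega⟩
    · exact ⟨(x / 4 - 1) / 2, x / 4 - 2 * ((x / 4 - 1) / 2), x / 2 % 2, by omega, by omega,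
        by omega, by omega⟩
  have hA : Adm K q d e := ⟨by omega, a1, fun _ => a2, by omega⟩
  exact ⟨q, d, e, hA, a4, r2 K q d e hA (by omega)
    (coveredS_of_check h2 h4 hA (check_big _ hK a1 a2 a3 (by omega)))⟩

/-! ### All sizes -/

theorem tri_succ (K : ℕ) : (K + 1) * (K + 1 + 1) / 2 = K * (K + 1) / 2 + K + 1 := by
  rw [show (K + 1) * (K + 1 + 1) = K * (K + 1) + 2 * (K + 1) by ring]
  omega

theorem tri_three (K : ℕ) : (K + 3) * (K + 3 + 1) / 2 = K * (K + 1) / 2 + 3 * K + 6 := by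
  rw [show (K + 3) * (K + 3 + 1) = K * (K + 1) + 2 * (3 * K + 6) by ring]
  omega

/-- `n` is a triangular number plus an admissible excess. -/
def Dec (n : ℕ) : Prop :=
  ∃ K x, 4 ≤ K ∧ n = K * (K + 1) / 2 + x ∧ 4 ≤ x ∧ x ≤ xm K ∧ x % 2 = 0

theorem dec_step {n : ℕ} (h : Dec n) : Dec (n + 2) := by
  obtain ⟨K, x, a1, a2, a3, a4, a5⟩ := h
  by_cases c : x + 2 ≤ xm K
  · exact ⟨K, x + 2, a1, by omega, by omega, c, by omega⟩
  rw [xm] at a4 c
  split_ifs at a4 c with c1
  · refine ⟨K + 3, 4, by omega, ?_, le_rfl, ?_, rfl⟩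
    · rw [tri_three]
      omega
    · rw [xm]
      split_ifs <;> omega
  · refine ⟨K + 1, 4, by omega, ?_, le_rfl, ?_, rfl⟩
    · rw [tri_succ]
      omega
    · rw [xm]
      split_ifs <;> omega

theorem dec_add {n : ℕ} (h : Dec n) (j : ℕ) : Dec (n + 2 * j) := by
  induction j with
  | zero => exact h
  | succ j ih => exact dec_step ih

end Cov

open Cov in
theorem coverStmt (hE : EnumStmt) (h2 : TwoStmt) (h4 : FourStmt) : CoverStmt := by
  intro r1 r2 r0 n h14 h17
  have st : ∀ K, 4 ≤ K → n = K * (K + 1) / 2 →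
      ∃ K q d e, Adm K q d e ∧ n = sz K q d e ∧ Univ K q d e := fun K a1 a2 =>
    ⟨K, 0, 0, 0, ⟨a1, Nat.zero_le _, fun c => absurd c (by decide), Or.inl rfl⟩, a2, r0 K⟩
  by_cases h15 : n = 15
  · exact st 5 (by omega) h15
  have hd : Dec n := by
    by_cases c : n % 2 = 0
    · rw [show n = 14 + 2 * ((n - 14) / 2) by omega]
      exact dec_add ⟨4, 4, le_rfl, rfl, le_rfl, by decide, rfl⟩ _
    · rw [show n = 19 + 2 * ((n - 19) / 2) by omega]
      exact dec_add ⟨5, 4, by omega, rfl, le_rfl, by decide, rfl⟩ _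
  obtain ⟨K, x, a1, a2, a3, a4, a5⟩ := hd
  by_cases c : x + 2 = xm K
  · rw [xm] at c
    split_ifs at c with c1
    · exact st (K + 3) (by omega) (by rw [tri_three]; omega)
    · exact st (K + 1) (by omega) (by rw [tri_succ]; omega)
  have hr : Reach K x := by
    by_cases k : K ≤ 32
    · exact reach_small hE h2 h4 r1 r2 r0 a1 k a3 a4 a5 c
    · refine reach_big h2 h4 r2 (by omega) a3 ?_ a5
      rw [xm] at a4
      split_ifs at a4 <;> omega
  obtain ⟨q, d, e, b1, b2, b3⟩ := hr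
  exact ⟨K, q, d, e, b1, by rw [sz]; omega, b3⟩

end Vale.Agent.N197T
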