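import Vale.Agent.N197T.Spec

/-!
# Strips from sums of rows, and the direct enumeration
-/

namespace Vale.Agent.N197T

open Finset Vale.Agent.P197 Vale.Agent.P197.H369

/-! ### Functions on columns -/

theorem interp (N : ℕ) : ∀ (a b : ℕ → ℕ) (s : ℕ), (∀ c, a c ≤ b c) → ∑ c ∈ range N, a c ≤ s →
    s ≤ ∑ c ∈ range N, b c → ∃ x : ℕ → ℕ, (∀ c, a c ≤ x c ∧ x c ≤ b c) ∧ ∑ c ∈ range N, x c = s := by
  induction N with
  | zero => exact fun a b s h h1 h2 => ⟨a, fun c => ⟨le_rfl, h c⟩, by simp at h2 ⊢; omega⟩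
  | succ N ih =>
    intro a b s h h1 h2
    rw [sum_range_succ] at h1 h2
    have h3 : ∑ c ∈ range N, a c ≤ ∑ c ∈ range N, b c := sum_le_sum fun c _ => h c
    have h4 := h N
    obtain ⟨x, x1, x2⟩ := ih a b (s - max (a N) (s - ∑ c ∈ range N, b c)) h (by omega) (by omega)
    refine ⟨fun c => if c = N then max (a N) (s - ∑ c ∈ range N, b c) else x c, fun c => ?_, ?_⟩
    · beta_reduce
      split_ifs with hc
      · subst hc
        omega
      · exact x1 c
    · rw [sum_range_succ, if_pos rfl, sum_congr rfl fun c hc => if_neg (mem_range.1 hc).ne, x2]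
      omega

/-- the number of cells of height less than `t` -/
def TT (N : ℕ) (h : ℕ → ℕ) (t : ℕ) : ℕ := ∑ c ∈ range N, min (h c) t

theorem TT_mono (N : ℕ) (h : ℕ → ℕ) {s t : ℕ} (hs : s ≤ t) : TT N h s ≤ TT N h t :=
  sum_le_sum fun c _ => by omega

theorem greedy (N : ℕ) (h : ℕ → ℕ) (s : ℕ) (hs : s ≤ TT N h 4) : ∃ x : ℕ → ℕ,
    (∀ c, x c ≤ h c) ∧ Strip N x s ∧
      ∀ l, TT N h l ≤ TT N (fun c => h c - x c) l ∨
        TT N h (l + 4) ≤ TT N (fun c => h c - x c) l + s := by
  classical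
  have ex : ∃ q, ∑ c ∈ range N, min (h c - (q + 1)) 4 ≤ s := by
    refine ⟨∑ c ∈ range N, h c, (sum_eq_zero fun c hc => ?_).le.trans (Nat.zero_le _)⟩
    have := single_le_sum (f := h) (fun _ _ => Nat.zero_le _) hc
    omega
  have h1 := Nat.find_spec ex
  have h2 : s ≤ ∑ c ∈ range N, min (h c - Nat.find ex) 4 := by
    rcases h3 : Nat.find ex with _ | q
    · exact hs
    · exact (not_le.1 (Nat.find_min ex (h3 ▸ q.lt_succ_self))).le
  generalize Nat.find ex = q at h1 h2
  obtain ⟨x, x1, x2⟩ := interp N _ _ s (fun c => by omega) h1 h2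
  refine ⟨x, fun c => by have := x1 c; omega, ⟨fun c => by have := x1 c; omega, x2⟩, fun l => ?_⟩
  rcases le_or_gt l q with hl | hl
  · exact Or.inl (sum_le_sum fun c _ => by have := x1 c; beta_reduce; omega)
  · refine Or.inr ?_
    rw [← x2, TT, TT, ← sum_add_distrib]
    exact sum_le_sum fun c _ => by have := x1 c; omega

/-- two commodities -/
theorem twoCom (N : ℕ) (a b t : ℕ → ℕ) (s1 s2 : ℕ) (ha : ∀ c, a c ≤ t c ∧ b c ≤ t c ∧ t c ≤ a c + b c)
    (h1 : s1 ≤ ∑ c ∈ range N, a c) (h2 : s2 ≤ ∑ c ∈ range N, b c)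
    (h3 : s1 + s2 ≤ ∑ c ∈ range N, t c) : ∃ x y : ℕ → ℕ,
      (∀ c, x c ≤ a c ∧ y c ≤ b c ∧ x c + y c ≤ t c) ∧ ∑ c ∈ range N, x c = s1 ∧
        ∑ c ∈ range N, y c = s2 := by
  rcases le_total s1 (∑ c ∈ range N, (t c - b c)) with h | h
  · obtain ⟨x, x1, x2⟩ := interp N (fun _ => 0) _ s1 (fun _ => Nat.zero_le _) (by simp) h
    obtain ⟨y, y1, y2⟩ := interp N (fun _ => 0) _ s2 (fun _ => Nat.zero_le _) (by simp) h2
    exact ⟨x, y, fun c => by have := x1 c; have := y1 c; have := ha c; omega, x2, y2⟩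
  · obtain ⟨x, x1, x2⟩ := interp N _ a s1 (fun c => by have := ha c; omega) h h1
    have h4 : ∑ c ∈ range N, (t c - x c) + ∑ c ∈ range N, x c = ∑ c ∈ range N, t c := by
      rw [← sum_add_distrib]
      exact sum_congr rfl fun c _ => by have := x1 c; have := ha c; omega
    obtain ⟨y, y1, y2⟩ := interp N (fun _ => 0) (fun c => t c - x c) s2 (fun _ => Nat.zero_le _)
      (by simp) (by omega)
    exact ⟨x, y, fun c => by have := x1 c; have := y1 c; have := ha c; omega, x2, y2⟩

/-- shrink with prescribed values on `Z` -/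
theorem shrink (N : ℕ) (x y : ℕ → ℕ) (Z : Finset ℕ) (hZ : Z ⊆ range N) (s : ℕ)
    (h1 : ∀ c ∈ Z, y c ≤ x c) (h2 : ∑ c ∈ Z, y c ≤ s)
    (h3 : s + ∑ c ∈ Z, x c ≤ ∑ c ∈ range N, x c + ∑ c ∈ Z, y c) :
    ∃ z : ℕ → ℕ, (∀ c, z c ≤ x c) ∧ ∑ c ∈ range N, z c = s ∧ ∀ c ∈ Z, z c = y c := by
  have e : ∀ f : ℕ → ℕ, ∑ c ∈ range N, (if c ∈ Z then f c else 0) = ∑ c ∈ Z, f c := fun f => by
    rw [sum_ite_mem, inter_eq_right.2 hZ]
  obtain ⟨z, z1, z2⟩ := interp N (fun c => if c ∈ Z then y c else 0)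
    (fun c => if c ∈ Z then y c else x c) s (fun c => by split_ifs <;> omega) (by rw [e]; exact h2)
    (by
      have h4 : ∑ c ∈ range N, (if c ∈ Z then y c else x c) +
          ∑ c ∈ range N, (if c ∈ Z then x c else 0) =
          ∑ c ∈ range N, x c + ∑ c ∈ range N, (if c ∈ Z then y c else 0) := by
        rw [← sum_add_distrib, ← sum_add_distrib]
        exact sum_congr rfl fun c _ => by split_ifs <;> omega
      rw [e, e] at h4
      omega)
  refine ⟨z, fun c => ?_, z2, fun c hc => ?_⟩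
  · have := z1 c
    by_cases hc : c ∈ Z
    · have := h1 c hc
      simp only [if_pos hc] at *
      omega
    · simp only [if_neg hc] at *
      omega
  · have := z1 c
    simp only [if_pos hc] at this
    omega

theorem odd1_of {N : ℕ} {x : ℕ → ℕ} {s : ℕ} (h : Strip N x (s + 3)) (hs : 1 ≤ s) :
    ∃ z : ℕ → ℕ, (∀ c, z c ≤ x c) ∧ Strip N z s ∧ Odd1 N z := by
  obtain ⟨c, hc, h0⟩ := exists_ne_zero_of_sum_ne_zero (h.2.trans_ne (Nat.succ_ne_zero _))
  have h1 := h.1 c
  obtain ⟨z, z1, z2, z3⟩ := shrink N x (fun _ => 1) {c} (singleton_subset_iff.2 hc) s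
    (fun a ha => by rw [mem_singleton.1 ha]; omega) (by simpa) (by simp [h.2]; omega)
  exact ⟨z, z1, ⟨fun a => (z1 a).trans (h.1 a), z2⟩, c, mem_range.1 hc, z3 c (mem_singleton_self c)⟩

theorem odd3_of {N : ℕ} {x : ℕ → ℕ} {s : ℕ} (h : Strip N x (s + 1)) (hs : 3 ≤ s) :
    ∃ z : ℕ → ℕ, (∀ c, z c ≤ x c) ∧ Strip N z s ∧ Odd3 N z := by
  classical
  by_cases h3 : ∃ c ∈ range N, 3 ≤ x c
  · obtain ⟨c, hc, h0⟩ := h3
    have h1 := h.1 c
    obtain ⟨z, z1, z2, z3⟩ := shrink N x (fun _ => 3) {c} (singleton_subset_iff.2 hc) s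
      (fun a ha => by rw [mem_singleton.1 ha]; omega) (by simpa) (by simp [h.2]; omega)
    exact ⟨z, z1, ⟨fun a => (z1 a).trans (h.1 a), z2⟩, {c}, singleton_subset_iff.2 hc,
      by simpa using z3⟩
  · have ex : ∃ k, 3 ≤ ∑ c ∈ range k, x c := ⟨N, by rw [h.2]; omega⟩
    have h1 := Nat.find_spec ex
    have h2 : Nat.find ex ≤ N := Nat.find_min' ex (by rw [h.2]; omega)
    have h4 := fun m => Nat.find_min ex (m := m)
    rcases h5 : Nat.find ex with _ | k
    · simp [h5] at h1
    rw [h5] at h1 h2 h4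
    have h6 := h4 k k.lt_succ_self
    have h7 : ¬3 ≤ x k := fun hk => h3 ⟨k, mem_range.2 h2, hk⟩
    rw [sum_range_succ] at h1
    have e : ∑ c ∈ range (k + 1), (if c = k then 3 - ∑ c ∈ range k, x c else x c) = 3 := by
      have e' : ∑ c ∈ range k, (if c = k then 3 - ∑ c ∈ range k, x c else x c) =
          ∑ c ∈ range k, x c := sum_congr rfl fun c hc => if_neg (mem_range.1 hc).ne
      rw [sum_range_succ, if_pos rfl, e']
      omega
    obtain ⟨z, z1, z2, z3⟩ := shrink N x (fun c => if c = k then 3 - ∑ c ∈ range k, x c else x c)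
      (range (k + 1)) (range_subset_range.2 h2) s
      (fun a _ => by split_ifs with ha <;> [(subst ha; omega); rfl]) (by rw [e]; exact hs)
      (by rw [e, h.2, sum_range_succ]; omega)
    exact ⟨z, z1, ⟨fun a => (z1 a).trans (h.1 a), z2⟩, _, range_subset_range.2 h2,
      (sum_congr rfl z3).trans e⟩

/-! ### Young diagrams -/

theorem lt_col (nu : YoungDiagram) (i j : ℕ) : i < nu.colLen j ↔ j < nu.rowLen i := by
  rw [← YoungDiagram.mem_iff_lt_colLen, YoungDiagram.mem_iff_lt_rowLen]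

theorem count_lt {N r : ℕ} (h : r ≤ N) : ∑ c ∈ range N, (if c < r then 1 else 0) = r := by
  rw [← card_filter, show (range N).filter (· < r) = range r by ext; simp; omega, card_range]

theorem firstRows_eq (nu : YoungDiagram) (t : ℕ) :
    firstRows nu t = TT (nu.rowLen 0) nu.colLen t := by
  induction t with
  | zero => simp [firstRows, TT]
  | succ t ih =>
    rw [firstRows, sum_range_succ, ← firstRows, ih, ← count_lt (nu.rowLen_anti 0 t (Nat.zero_le _)),
      TT, TT, ← sum_add_distrib]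
    refine sum_congr rfl fun c _ => ?_
    simp only [← lt_col]
    split_ifs <;> omega

theorem twoStmt : TwoStmt := by
  intro nu K d e s hK he hs h1 h2
  rw [firstRows_eq] at h1 h2
  obtain ⟨x, x1, x2, x3⟩ := greedy _ _ _ h1
  obtain ⟨y, y1, y2, -⟩ := greedy (nu.rowLen 0) (fun c => nu.colLen c - x c)
    (2 * (K + d) - 5 + 4 * e) (by
      have : e ≤ s * e := Nat.le_mul_of_pos_left e (by omega)
      have := x3 4
      norm_num at this
      omega)
  obtain rfl | rfl : e = 0 ∨ e = 1 := by omega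
  · exact ⟨x, y, fun c => by have := x1 c; have := y1 c; omega, x2, y2, fun h => by omega⟩
  obtain ⟨y', a1, a2, a3⟩ := odd1_of (s := 2 * (K + d) - 5 + 1) y2 (by omega)
  rcases hs with rfl | ⟨rfl, hd⟩
  · obtain ⟨x', b1, b2, b3⟩ := odd1_of x2 (by omega)
    exact ⟨x', y', fun c => by have := x1 c; have := y1 c; have := a1 c; have := b1 c; omega,
      b2, a2, fun _ => ⟨Or.inl b3, a3⟩⟩
  · obtain ⟨x', b1, b2, b3⟩ := odd3_of x2 (by omega)
    exact ⟨x', y', fun c => by have := x1 c; have := y1 c; have := a1 c; have := b1 c; omega,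
      b2, a2, fun _ => ⟨Or.inr ⟨hd, b3⟩, a3⟩⟩

theorem fourStmt : FourStmt := by
  intro nu K q d e c1 c2 c3 c4 hK he e1 e2 e3 e4 h1 h2 h3 h4
  rw [firstRows_eq] at h1 h2 h3 h4
  obtain ⟨x, x1, x2, x3⟩ := greedy _ _ _ h1
  have u1 := x3 4
  have u2 := x3 8
  have u3 := x3 12
  norm_num at u1 u2 u3
  obtain ⟨y, y1, y2, y3⟩ := greedy (nu.rowLen 0) (fun c => nu.colLen c - x c) c2 (by omega)
  have v1 := y3 4
  have v2 := y3 8
  norm_num at v1 v2
  obtain ⟨z, z1, z2, z3⟩ := greedy (nu.rowLen 0) (fun c => nu.colLen c - x c - y c) c3 (by omega)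
  have w1 := z3 4
  norm_num at w1
  obtain ⟨w, t1, t2, -⟩ := greedy (nu.rowLen 0) (fun c => nu.colLen c - x c - y c - z c) c4
    (by omega)
  subst e1 e2 e3 e4
  obtain rfl | rfl : e = 0 ∨ e = 1 := by omega
  · exact ⟨x, y, z, w, fun c => by have := x1 c; have := y1 c; have := z1 c; have := t1 c; omega,
      x2, y2, z2, t2, fun h => by omega⟩
  obtain ⟨x', a1, a2, a3⟩ := odd3_of (s := 2 * (K + q + d) - 1 + 1) x2 (by omega)
  obtain ⟨z', b1, b2, b3⟩ := odd1_of (s := 2 * (K + q + d) - 9 + 1) z2 (by omega)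
  exact ⟨x', y, z', w, fun c => by
    have := x1 c; have := y1 c; have := z1 c; have := t1 c; have := a1 c; have := b1 c; omega,
    a2, y2, b2, t2, fun _ => ⟨a3, b3⟩⟩

/-! ### The refined test -/

theorem sum_two {N : ℕ} (f g : ℕ → ℕ) {a b : ℕ} (ha : a < N) (hb : b < N) (hab : a ≠ b)
    (h : ∀ c, c ≠ a → c ≠ b → f c = g c) :
    ∑ c ∈ range N, f c + g a + g b = ∑ c ∈ range N, g c + f a + f b := by
  have e : ∀ u : ℕ → ℕ, ∑ c ∈ range N, u c = u a + (u b + ∑ c ∈ ((range N).erase a).erase b, u c) :=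
    fun u => by
      rw [add_sum_erase _ u (mem_erase.2 ⟨hab.symm, mem_range.2 hb⟩),
        add_sum_erase _ u (mem_range.2 ha)]
  have e' : ∑ c ∈ ((range N).erase a).erase b, f c = ∑ c ∈ ((range N).erase a).erase b, g c :=
    sum_congr rfl fun c hc => h c (mem_erase.1 (mem_erase.1 hc).2).1 (mem_erase.1 hc).1
  rw [e f, e g, e']
  omega

theorem fixTwo (N : ℕ) (h : ℕ → ℕ) {a b s c1 c2 : ℕ} (ha : a < N) (hb : b < N) (hab : a ≠ b)
    (hs : s ≤ 4) (h1 : s ≤ h a) (h2 : 1 ≤ h b) (h3 : s ≤ c1) (h4 : 1 ≤ c2)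
    (l1 : c1 + min (h a) 4 + min (h b) 4 ≤ TT N h 4 + s + min (h b - 1) 4)
    (l2 : c2 + min (h a) 4 + min (h b) 4 ≤ TT N h 4 + 1 + min (h a - s) 4)
    (l3 : c1 + c2 + min (h a) 8 + min (h b) 8 ≤
      TT N h 8 + s + 1 + min (h a - s) 4 + min (h b - 1) 4) :
    ∃ x y : ℕ → ℕ, (∀ c, x c + y c ≤ h c) ∧ Strip N x c1 ∧ Strip N y c2 ∧ x a = s ∧ y b = 1 := by
  have hba := hab.symm
  have e1 := sum_two (fun c => if c = a then 0 else if c = b then min (h b - 1) 4 else min (h c) 4)
    (fun c => min (h c) 4) ha hb hab fun c p q => by simp [p, q]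
  have e2 := sum_two (fun c => if c = a then min (h a - s) 4 else if c = b then 0 else min (h c) 4)
    (fun c => min (h c) 4) ha hb hab fun c p q => by simp [p, q]
  have e3 := sum_two
    (fun c => if c = a then min (h a - s) 4 else if c = b then min (h b - 1) 4 else min (h c) 8)
    (fun c => min (h c) 8) ha hb hab fun c p q => by simp [p, q]
  simp only [if_true, if_neg hba] at e1 e2 e3
  unfold TT at l1 l2 l3
  obtain ⟨x, y, z1, z2, z3⟩ := twoCom N
    (fun c => if c = a then 0 else if c = b then min (h b - 1) 4 else min (h c) 4)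
    (fun c => if c = a then min (h a - s) 4 else if c = b then 0 else min (h c) 4)
    (fun c => if c = a then min (h a - s) 4 else if c = b then min (h b - 1) 4 else min (h c) 8)
    (c1 - s) (c2 - 1) (fun c => by split_ifs <;> omega) (by omega) (by omega) (by omega)
  have za := z1 a
  have zb := z1 b
  simp only [if_true, if_neg hba] at za zb
  have e4 := sum_two (fun c => if c = a then s else x c) x ha hb hab fun c p _ => if_neg p
  have e5 := sum_two (fun c => if c = b then 1 else y c) y ha hb hab fun c _ q => if_neg q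
  simp only [if_true, if_neg hba, if_neg hab] at e4 e5
  refine ⟨fun c => if c = a then s else x c, fun c => if c = b then 1 else y c, fun c => ?_,
    ⟨fun c => ?_, by beta_reduce; omega⟩, ⟨fun c => ?_, by beta_reduce; omega⟩, if_pos rfl,
    if_pos rfl⟩ <;> have := z1 c <;> beta_reduce <;> split_ifs at this ⊢ <;> subst_vars <;> omega

/-- the test with slack -/
def simple (K d e T4 T8 : ℕ) : Bool :=
  Nat.ble (2 * (K + d) - 1 + e + (cond (Nat.ble 2 d) 1 3) * e) T4 &&
    Nat.ble (2 * (K + d) - 1 + e + (cond (Nat.ble 2 d) 1 3) * e + (2 * (K + d) - 5 + 4 * e)) T8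

theorem simple_sound {nu : YoungDiagram} {K d e T : ℕ} (hK : 4 ≤ K) (he : e ≤ 1)
    (hT : T ≤ firstRows nu 8) (h : simple K d e (firstRows nu 4) T = true) : Two nu K d e := by
  simp only [simple, Bool.and_eq_true, Nat.ble_eq] at h
  refine twoStmt nu K d e _ hK he ?_ h.1 (h.2.trans hT)
  cases h2 : Nat.ble 2 d
  · exact Or.inl rfl
  · exact Or.inr ⟨rfl, Nat.ble_eq.mp h2⟩

/-- some number below `n` passes -/
def anyTo (P : ℕ → Bool) (n : ℕ) : Bool := Nat.rec false (fun i ih => P i || ih) n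

theorem anyTo_sound {P : ℕ → Bool} : ∀ {n}, anyTo P n = true → ∃ i < n, P i = true
  | 0, h => by simp [anyTo] at h
  | n + 1, h => by
    rcases Bool.or_eq_true_iff.1 h with h | h
    · exact ⟨n, n.lt_succ_self, h⟩
    · obtain ⟨i, a, b⟩ := anyTo_sound h
      exact ⟨i, by omega, b⟩

/-- the inequalities for columns of heights `i + 1`, `j + 1` -/
def ineq (c s i j T4 T8 : ℕ) : Bool :=
  Nat.ble s (i + 1) && Nat.ble (c + min (i + 1) 4 + min (j + 1) 4) (T4 + s + min j 4) &&
    Nat.ble (c - 4 + min (i + 1) 4 + min (j + 1) 4) (T4 + 1 + min (i + 1 - s) 4) &&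
    Nat.ble (c + (c - 4) + (i + 1) + (j + 1)) (T8 + s + 1 + min (i + 1 - s) 4 + min j 4)

/-- the row below row `i`, with the rows from the ninth on ignored -/
def nxt (g : ℕ → ℕ) (i : ℕ) : ℕ := cond (Nat.ble 7 i) 0 (g (i + 1))

/-- the refined test -/
def refined (K d e : ℕ) (g : ℕ → ℕ) (T4 T8 : ℕ) : Bool :=
  Nat.beq e 1 && Nat.ble (2 * (K + d)) T4 && Nat.ble (4 * (K + d) - 4) T8 &&
    anyTo (fun i => Nat.blt (nxt g i) (g i) && anyTo (fun j =>
      Nat.blt (nxt g j + cond (Nat.beq i j) 1 0) (g j) &&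
        (ineq (2 * (K + d)) 1 i j T4 T8 || (Nat.ble 2 d && ineq (2 * (K + d)) 3 i j T4 T8))) 8) 8

theorem height {nu : YoungDiagram} {g : ℕ → ℕ} (hg : ∀ i < 8, nu.rowLen i = g i) {i c : ℕ}
    (hi : i < 8) (h1 : nxt g i ≤ c) (h2 : c < g i) :
    min (nu.colLen c) 8 = i + 1 ∧ c < nu.rowLen 0 := by
  rw [← hg i hi] at h2
  have h3 := (lt_col nu i c).2 h2
  refine ⟨?_, h2.trans_le (nu.rowLen_anti 0 i (Nat.zero_le _))⟩
  rcases Nat.lt_or_ge i 7 with h | h
  · have h4 : Nat.ble 7 i = false := by rw [← Bool.not_eq_true, Nat.ble_eq]; omega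
    rw [nxt, h4, cond_false, ← hg _ (by omega)] at h1
    have h5 := (lt_col nu (i + 1) c).not.2 (by omega)
    omega
  · omega

theorem refined_sound {nu : YoungDiagram} {K d e : ℕ} (hK : 4 ≤ K) {g : ℕ → ℕ}
    (hg : ∀ i < 8, nu.rowLen i = g i)
    (h : refined K d e g (firstRows nu 4) (firstRows nu 8) = true) : Two nu K d e := by
  simp only [refined, Bool.and_eq_true, Nat.beq_eq] at h
  obtain ⟨⟨⟨rfl, -⟩, -⟩, h⟩ := h
  obtain ⟨i, hi, h⟩ := anyTo_sound h
  rw [Bool.and_eq_true] at h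
  obtain ⟨j, hj, h1⟩ := anyTo_sound h.2
  rw [Bool.and_eq_true, Nat.blt_eq] at h1
  obtain ⟨a1, a2⟩ := height hg hi le_rfl (Nat.blt_eq.mp h.1)
  obtain ⟨b1, b2⟩ := height hg hj (Nat.le_add_right _ _) h1.1
  have hab : nxt g i ≠ nxt g j + cond (Nat.beq i j) 1 0 := by
    intro e
    rw [← e] at b1
    obtain rfl : i = j := by omega
    simp at e
  generalize nxt g j + cond (Nat.beq i j) 1 0 = b at *
  generalize nxt g i = a at *
  have key : ∀ s, s ≤ 3 → ineq (2 * (K + d)) s i j (firstRows nu 4) (firstRows nu 8) = true →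
      ∃ x y : ℕ → ℕ, (∀ c, x c + y c ≤ nu.colLen c) ∧
        Strip (nu.rowLen 0) x (2 * (K + d) - 1 + 1) ∧ Strip (nu.rowLen 0) y (2 * (K + d) - 5 + 1) ∧
        x a = s ∧ y b = 1 := fun s hs h => by
    simp only [ineq, Bool.and_eq_true, Nat.ble_eq, firstRows_eq] at h
    exact fixTwo _ _ a2 b2 hab (by omega) (by omega) (by omega) (by omega) (by omega) (by omega)
      (by omega) (by omega)
  rcases Bool.or_eq_true_iff.1 h1.2 with h2 | h2
  · obtain ⟨x, y, p1, p2, p3, p4, p5⟩ := key 1 (by omega) h2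
    exact ⟨x, y, p1, p2, p3, fun _ => ⟨Or.inl ⟨a, a2, p4⟩, b, b2, p5⟩⟩
  · rw [Bool.and_eq_true, Nat.ble_eq] at h2
    obtain ⟨x, y, p1, p2, p3, p4, p5⟩ := key 3 le_rfl h2.2
    exact ⟨x, y, p1, p2, p3, fun _ => ⟨Or.inr ⟨h2.1, {a}, by simpa, by simpa⟩, b, b2, p5⟩⟩

/-! ### The enumeration -/

/-- evaluate `n` first -/
def frc (n : ℕ) (f : ℕ → Bool) : Bool := Nat.rec (f 0) (fun m _ => f (Nat.succ m)) n

theorem frc_eq (n : ℕ) (f : ℕ → Bool) : frc n f = f n := by cases n <;> rfl

/-- a sum -/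
def sumTo (f : ℕ → ℕ) (n : ℕ) : ℕ := Nat.rec 0 (fun i s => s + f i) n

theorem sumTo_eq (f : ℕ → ℕ) : ∀ n, sumTo f n = ∑ i ∈ range n, f i
  | 0 => rfl
  | n + 1 => by rw [sum_range_succ, ← sumTo_eq f n]; rfl

/-- the row test on the first eight rows -/
def rowTest (K d e : ℕ) (g : ℕ → ℕ) : Bool :=
  topMove d e (g 0 - g 1) (g 1 - g 2) (g 2 - g 3) (g 3 - g 4) ||
    simple K d e (sumTo g 4) (sumTo g 8) || refined K d e g (sumTo g 4) (sumTo g 8)

theorem top_ok {nu : YoungDiagram} {K d e : ℕ}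
    (h : topMove d e (mv nu 0) (mv nu 1) (mv nu 2) (mv nu 3) = true) : RowOK nu K 0 d e :=
  Or.inl (by rw [movable, h, Bool.true_or])

theorem two_ok {nu : YoungDiagram} {K d e : ℕ} (h : Two nu K d e) : RowOK nu K 0 d e :=
  Or.inr (Or.inl ⟨rfl, h⟩)

theorem rowTest_sound {nu : YoungDiagram} {K d e : ℕ} (hK : 4 ≤ K) (he : e ≤ 1)
    (h : rowTest K d e nu.rowLen = true) : RowOK nu K 0 d e := by
  simp only [rowTest, Bool.or_eq_true, sumTo_eq] at h
  rcases h with (h | h) | h
  exacts [top_ok h, two_ok (simple_sound hK he le_rfl h), two_ok (refined_sound hK (fun _ _ => rfl) h)]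

/-- the loop over the next row -/
def down (P : ℕ → Bool) (w rem m : ℕ) : Bool :=
  Nat.rec true (fun k ih => Nat.blt (Nat.succ k * w) rem || (P (Nat.succ k) && ih)) m

theorem down_sound {P : ℕ → Bool} {w rem k : ℕ} (h0 : 0 < k) (h1 : rem ≤ k * w) :
    ∀ {m}, k ≤ m → down P w rem m = true → P k = true
  | 0, h, _ => by omega
  | m + 1, h, h' => by
    rcases Bool.or_eq_true_iff.1 h' with h2 | h2
    · have := Nat.mul_le_mul_right w h
      rw [Nat.blt_eq, Nat.succ_eq_add_one] at h2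
      omega
    · rw [Bool.and_eq_true] at h2
      rcases Nat.lt_or_ge m k with h3 | h3
      · obtain rfl : k = m + 1 := by omega
        exact h2.1
      · exact down_sound h0 h1 h3 h2.2

/-- the rows from `L` on -/
def node (K d e n r0 T4 f : ℕ) : (ℕ → ℕ) → ℕ → ℕ → ℕ → Bool :=
  Nat.rec (fun _ _ _ _ => false) (fun _ ih g L rem last =>
    (Nat.ble L 8 && (simple K d e T4 (n - rem) ||
      ((Nat.beq L 8 || Nat.beq rem 0) && refined K d e g T4 (n - rem)))) ||
    cond (Nat.beq rem 0)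
      (rowTest K d e fun j => sumTo (fun i => cond (Nat.blt j (g i)) 1 0) L)
      (down (fun k => frc (rem - k) fun rem' => frc (L + 1) fun L' =>
        ih (fun i => cond (Nat.beq i L) k (g i)) L' rem' k) (r0 - L) rem (min rem last))) f

theorem node_succ (K d e n r0 T4 f : ℕ) (g : ℕ → ℕ) (L rem last : ℕ) :
    node K d e n r0 T4 (f + 1) g L rem last =
    ((Nat.ble L 8 && (simple K d e T4 (n - rem) ||
      ((Nat.beq L 8 || Nat.beq rem 0) && refined K d e g T4 (n - rem)))) ||
    cond (Nat.beq rem 0)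
      (rowTest K d e fun j => sumTo (fun i => cond (Nat.blt j (g i)) 1 0) L)
      (down (fun k => frc (rem - k) fun rem' => frc (L + 1) fun L' =>
        node K d e n r0 T4 f (fun i => cond (Nat.beq i L) k (g i)) L' rem' k) (r0 - L) rem
          (min rem last))) := rfl

theorem rows_add (nu : YoungDiagram) (L w : ℕ) :
    firstRows nu (L + w) ≤ firstRows nu L + nu.rowLen L * w ∧
      firstRows nu L ≤ firstRows nu (L + w) := by
  induction w with
  | zero => simp
  | succ w ih =>
    have := nu.rowLen_anti L (L + w) (Nat.le_add_right _ _)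
    rw [← add_assoc, firstRows, sum_range_succ, ← firstRows, Nat.mul_succ]
    omega

theorem rows_le (nu : YoungDiagram) (L : ℕ) : firstRows nu L ≤ nu.card := by
  rw [card_eq_sum nu (L + nu.card) (Nat.le_add_left _ _)]
  exact (rows_add nu L _).2

theorem rows_zero (nu : YoungDiagram) {L : ℕ} (h : nu.rowLen L = 0) : firstRows nu L = nu.card := by
  have h1 := (rows_add nu L nu.card).1
  rw [h, zero_mul, add_zero, firstRows, ← card_eq_sum nu _ (Nat.le_add_left _ _)] at h1
  exact le_antisymm (rows_le nu L) h1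

theorem node_sound {nu : YoungDiagram} {K d e : ℕ} (hK : 4 ≤ K) (he : e ≤ 1)
    (hw : nu.colLen 0 ≤ nu.rowLen 0) : ∀ (f : ℕ) (g : ℕ → ℕ) (L rem last : ℕ),
      (∀ i < L, nu.rowLen i = g i) → (∀ i, L ≤ i → g i = 0) → firstRows nu L + rem = nu.card →
      nu.rowLen L ≤ last →
      node K d e nu.card (nu.rowLen 0) (firstRows nu 4) f g L rem last = true →
      RowOK nu K 0 d e ∨ RowOK nu.transpose K 0 d e
  | 0, _, _, _, _, _, _, _, _, h => by simp [node] at h
  | f + 1, g, L, rem, last, h1, h2, h3, h4, h => by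
    have s1 : firstRows nu (L + 1) = firstRows nu L + nu.rowLen L := sum_range_succ _ _
    have s2 := rows_le nu (L + 1)
    have z : rem = 0 → ∀ i, nu.rowLen i = g i := fun h0 i => by
      rcases Nat.lt_or_ge i L with hi | hi
      · exact h1 i hi
      · have := nu.rowLen_anti L i hi
        rw [h2 i hi]
        omega
    have e : nu.card - rem = firstRows nu L := by omega
    rw [node_succ] at h
    rcases Bool.or_eq_true_iff.1 h with h | h
    · simp only [Bool.and_eq_true, Bool.or_eq_true, Nat.ble_eq, Nat.beq_eq, e] at h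
      obtain ⟨w, hw⟩ := Nat.exists_eq_add_of_le h.1
      have s3 := rows_add nu L w
      rw [← hw] at s3
      refine Or.inl (two_ok ?_)
      rcases h.2 with h5 | ⟨rfl | h5, h6⟩
      · exact simple_sound hK he s3.2 h5
      · exact refined_sound hK h1 h6
      · have := rows_le nu 8
        rw [show firstRows nu L = firstRows nu 8 by omega] at h6
        exact refined_sound hK (fun i _ => z h5 i) h6
    · rcases Nat.eq_zero_or_pos rem with h0 | h0
      · refine Or.inr (rowTest_sound hK he ?_)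
        rw [h0, Nat.beq_refl, cond_true] at h
        refine Eq.trans (congrArg _ (funext fun j => ?_)) h
        have h5 : nu.colLen j ≤ L := by
          have := (lt_col nu L j).not.2 (by rw [z h0, h2 L le_rfl]; omega)
          omega
        rw [YoungDiagram.rowLen_transpose, sumTo_eq, ← count_lt h5]
        refine sum_congr rfl fun i _ => ?_
        rw [← z h0, Bool.cond_eq_ite]
        simp only [Nat.blt_eq, lt_col]
      · have h5 : Nat.beq rem 0 = false := by rw [← Bool.not_eq_true, Nat.beq_eq]; omega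
        rw [h5, cond_false] at h
        have h6 : nu.rowLen (nu.rowLen 0) = 0 := by
          have := (lt_col nu (nu.rowLen 0) 0).not.1 (by omega)
          omega
        have h7 : 0 < nu.rowLen L := Nat.pos_of_ne_zero fun h => by
          have := rows_zero nu h
          omega
        have h8 : L ≤ nu.rowLen 0 := by
          have := (lt_col nu L 0).2 h7
          omega
        have h9 := (rows_add nu L (nu.rowLen 0 - L)).1
        rw [Nat.add_sub_cancel' h8, rows_zero nu h6] at h9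
        have h10 := down_sound h7 (by omega) (by omega) h
        rw [frc_eq, frc_eq] at h10
        refine node_sound hK he hw f _ (L + 1) (rem - nu.rowLen L) _ (fun i hi => ?_) (fun i hi => ?_) (by omega)
          (nu.rowLen_anti _ _ (Nat.le_succ L)) h10
        · rw [Bool.cond_eq_ite]
          simp only [Nat.beq_eq]
          split_ifs with h11
          · rw [h11]
          · exact h1 i (by omega)
        · rw [Bool.cond_eq_ite]
          simp only [Nat.beq_eq]
          rw [if_neg (by omega), h2 i (by omega)]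

/-- a loop with a break -/
def upto (stop P : ℕ → Bool) (f : ℕ) : ℕ → Bool :=
  Nat.rec (fun _ => false) (fun _ ih i => frc i fun i => stop i || (P i && ih (Nat.succ i))) f

theorem upto_sound {stop P : ℕ → Bool} {j : ℕ} (hj : ∀ i ≤ j, stop i = false) :
    ∀ {f i}, i ≤ j → upto stop P f i = true → P j = true
  | 0, _, _, h => by simp [upto] at h
  | f + 1, i, h, h' => by
    have h1 : (stop i || (P i && upto stop P f (i + 1))) = true := 
      (frc_eq i fun i => stop i || (P i && upto stop P f (i + 1))).symm.trans h'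
    rw [hj i h, Bool.false_or, Bool.and_eq_true] at h1
    rcases h.eq_or_lt with rfl | h2
    · exact h1.1
    · exact upto_sound hj h2 h1.2

/-- the first five rows -/
def five (a b c d e i : ℕ) : ℕ :=
  cond (Nat.beq i 0) a (cond (Nat.beq i 1) b (cond (Nat.beq i 2) c (cond (Nat.beq i 3) d
    (cond (Nat.beq i 4) e 0))))

/-- the whole check -/
def check (K d e : ℕ) : Bool := frc (sz K 0 d e) fun n =>
  upto (fun p => Nat.blt n (5 * p)) (fun p =>
    upto (fun m4 => Nat.blt n (5 * p + 4 * m4) || topMove d e 0 0 0 m4) (fun m4 =>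
      upto (fun m3 => Nat.blt n (5 * p + 4 * m4 + 3 * m3) || topMove d e 0 0 m3 m4) (fun m3 =>
        upto (fun m2 => Nat.blt n (5 * p + 4 * m4 + 3 * m3 + 2 * m2) || topMove d e 0 m2 m3 m4)
          (fun m2 => upto (fun m1 => Nat.blt n (5 * p + 4 * m4 + 3 * m3 + 2 * m2 + m1) ||
            topMove d e m1 m2 m3 m4) (fun m1 =>
              frc (4 * p + 4 * m4 + 3 * m3 + 2 * m2 + m1) fun T4 =>
              frc (p + m4 + m3 + m2 + m1) fun r0 => frc (n - (T4 + p)) fun rem =>
                node K d e n r0 T4 100 (five r0 (p + m4 + m3 + m2) (p + m4 + m3) (p + m4) p)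
                  5 rem p) 100 0) 100 0) 100 0) 100 0) 100 0

theorem topMove_mono {d e a1 a2 a3 a4 b1 b2 b3 b4 : ℕ} (h1 : a1 ≤ b1) (h2 : a2 ≤ b2)
    (h3 : a3 ≤ b3) (h4 : a4 ≤ b4) (h : topMove d e b1 b2 b3 b4 = false) :
    topMove d e a1 a2 a3 a4 = false := by
  rw [← Bool.not_eq_true] at h ⊢
  unfold topMove two2 two3 at h ⊢
  split_ifs at h ⊢ <;>
    simp only [Bool.or_eq_true, Bool.and_eq_true, decide_eq_true_eq] at h ⊢ <;> omega

theorem check_sound {K d e : ℕ} (hK : 4 ≤ K) (he : e ≤ 1) (h : check K d e = true) :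
    Covered K 0 d e := by
  have key : ∀ nu : YoungDiagram, nu.card = sz K 0 d e → nu.colLen 0 ≤ nu.rowLen 0 →
      RowOK nu K 0 d e ∨ RowOK nu.transpose K 0 d e := by
    intro nu hn hw
    cases hm : topMove d e (mv nu 0) (mv nu 1) (mv nu 2) (mv nu 3)
    swap
    · exact Or.inl (top_ok hm)
    have a1 := nu.rowLen_anti 0 1 (by omega)
    have a2 := nu.rowLen_anti 1 2 (by omega)
    have a3 := nu.rowLen_anti 2 3 (by omega)
    have a4 := nu.rowLen_anti 3 4 (by omega)
    have a5 := rows_le nu 5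
    have s4 : firstRows nu 4 = nu.rowLen 0 + nu.rowLen 1 + nu.rowLen 2 + nu.rowLen 3 := by
      simp [firstRows, sum_range_succ]
    have s5 : firstRows nu 5 = firstRows nu 4 + nu.rowLen 4 := sum_range_succ _ _
    have m0 : mv nu 0 = nu.rowLen 0 - nu.rowLen 1 := rfl
    have m1 : mv nu 1 = nu.rowLen 1 - nu.rowLen 2 := rfl
    have m2 : mv nu 2 = nu.rowLen 2 - nu.rowLen 3 := rfl
    have m3 : mv nu 3 = nu.rowLen 3 - nu.rowLen 4 := rfl
    have nb : ∀ {t : ℕ}, t ≤ nu.card → Nat.blt nu.card t = false := fun h => by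
      rw [← Bool.not_eq_true, Nat.blt_eq]; omega
    have z := Nat.zero_le
    rw [check, frc_eq, ← hn] at h
    have h1 := upto_sound (j := nu.rowLen 4) (fun i hi => nb (by omega)) (z _) h
    have h2 := upto_sound (j := mv nu 3) (fun i hi => by
      rw [nb (by omega), topMove_mono (z _) (z _) (z _) hi hm]; rfl) (z _) h1
    have h3 := upto_sound (j := mv nu 2) (fun i hi => by
      rw [nb (by omega), topMove_mono (z _) (z _) hi le_rfl hm]; rfl) (z _) h2
    have h4 := upto_sound (j := mv nu 1) (fun i hi => by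
      rw [nb (by omega), topMove_mono (z _) hi le_rfl le_rfl hm]; rfl) (z _) h3
    have h5 := upto_sound (j := mv nu 0) (fun i hi => by
      rw [nb (by omega), topMove_mono hi le_rfl le_rfl le_rfl hm]; rfl) (z _) h4
    simp only [frc_eq] at h5
    rw [show 4 * nu.rowLen 4 + 4 * mv nu 3 + 3 * mv nu 2 + 2 * mv nu 1 + mv nu 0 = firstRows nu 4 by
      omega, show nu.rowLen 4 + mv nu 3 + mv nu 2 + mv nu 1 + mv nu 0 = nu.rowLen 0 by omega] at h5
    refine node_sound hK he hw _ _ _ _ _ (fun i hi => ?_) (fun i hi => ?_) (by omega)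
      (nu.rowLen_anti 4 5 (by omega)) h5
    · interval_cases i <;> simp only [five, Nat.beq, cond_true, cond_false] <;> omega
    · simp only [five, Bool.cond_eq_ite, Nat.beq_eq]
      split_ifs <;> omega
  intro nu hn
  rcases le_total (nu.colLen 0) (nu.rowLen 0) with hw | hw
  · exact key nu hn hw
  · have h1 := key nu.transpose (by rw [Saxl.card_transpose, hn])
      (by rwa [YoungDiagram.rowLen_transpose, YoungDiagram.colLen_transpose])
    rw [YoungDiagram.transpose_transpose] at h1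
    exact h1.symm

/-- all parameters for one `K` -/
def checkAll (K : ℕ) : Bool := (List.range 10).all fun d => (List.range 2).all fun e =>
  !(decide (1 ≤ d) && (decide (K ≤ 6) || decide (e = 1)) &&
    decide (4 * d + 2 * e ≤ if K % 2 = 0 then 3 * K + 8 else K + 3)) || check K d e

theorem c4 : checkAll 4 = true := by decide +kernel
theorem c5 : checkAll 5 = true := by decide +kernel
theorem c6 : checkAll 6 = true := by decide +kernel
theorem c7 : checkAll 7 = true := by decide +kernel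
theorem c8 : checkAll 8 = true := by decide +kernel
theorem c9 : checkAll 9 = true := by decide +kernel
theorem c10 : checkAll 10 = true := by decide +kernel

theorem enumStmt : EnumStmt := by
  intro K d e h1 h2 h3 h4 h5 h6
  have h : checkAll K = true := by
    interval_cases K
    exacts [c4, c5, c6, c7, c8, c9, c10]
  have hd : d < 10 := by split_ifs at h6 <;> omega
  have h7 := List.all_eq_true.1 (List.all_eq_true.1 h d (List.mem_range.2 hd)) e
    (List.mem_range.2 (by omega))
  refine check_sound h1 h4 ?_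
  simp only [Bool.or_eq_true, Bool.not_eq_true', Bool.and_eq_false_iff, Bool.or_eq_false_iff,
    decide_eq_false_iff_not] at h7
  exact h7.resolve_left (by tauto)

end Vale.Agent.N197T
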