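import Vale.Agent.N197T.Spec

/-!
# The tensor square conjecture: states and moves
-/

namespace Vale.Agent.N197T

open Finset Vale.Agent.P197 Vale.Agent.P197.H369

/-! ### Row lengths -/

theorem rowLen_eq_of {A : YoungDiagram} {a n : ℕ} (h : ∀ c, (a, c) ∈ A ↔ c < n) :
    A.rowLen a = n := by
  have h1 := h n
  have h2 := h (A.rowLen a)
  rw [YoungDiagram.mem_iff_lt_rowLen] at h1 h2
  omega

theorem rowLen_congr {A B : YoungDiagram} {a : ℕ} (h : ∀ c, (a, c) ∈ A ↔ (a, c) ∈ B) :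
    A.rowLen a = B.rowLen a :=
  rowLen_eq_of fun c => by rw [h, YoungDiagram.mem_iff_lt_rowLen]

theorem card_add {A a b : YoungDiagram} (h : ∀ i, A.rowLen i = a.rowLen i + b.rowLen i) :
    A.card = a.card + b.card := by
  obtain ⟨N, hN⟩ : ∃ N, N = A.card + a.card + b.card := ⟨_, rfl⟩
  rw [card_eq_sum A N (by omega), card_eq_sum a N (by omega), card_eq_sum b N (by omega),
    ← Finset.sum_add_distrib]
  exact Finset.sum_congr rfl fun i _ => h i

theorem exists_rows (f : ℕ → ℕ) (N : ℕ) (hf : ∀ i, f (i + 1) ≤ f i) (hN : ∀ i, N ≤ i → f i = 0) :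
    ∃ A : YoungDiagram, ∀ i, A.rowLen i = f i :=
  ⟨ofFun f (antitone_nat_of_succ_le hf) N, rowLen_ofFun hN⟩

theorem exists_add (a b : YoungDiagram) :
    ∃ A : YoungDiagram, ∀ i, A.rowLen i = a.rowLen i + b.rowLen i := by
  refine exists_rows _ (a.card + b.card) (fun i => ?_) fun i hi => ?_
  · exact Nat.add_le_add (a.rowLen_anti _ _ (by omega)) (b.rowLen_anti _ _ (by omega))
  · rw [rowLen_eq_zero a i (by omega), rowLen_eq_zero b i (by omega)]

/-- Four row lengths. -/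
def r4 (a0 a1 a2 a3 i : ℕ) : ℕ :=
  if i = 0 then a0 else if i = 1 then a1 else if i = 2 then a2 else if i = 3 then a3 else 0

theorem exists_r4 {a0 a1 a2 a3 : ℕ} (h1 : a1 ≤ a0) (h2 : a2 ≤ a1) (h3 : a3 ≤ a2) :
    ∃ A : YoungDiagram, ∀ i, A.rowLen i = r4 a0 a1 a2 a3 i := by
  refine exists_rows _ 4 (fun i => ?_) fun i hi => ?_ <;> unfold r4 <;> split_ifs <;>
    first | omega | contradiction

theorem card_r4 {A : YoungDiagram} {a0 a1 a2 a3 : ℕ} (h : ∀ i, A.rowLen i = r4 a0 a1 a2 a3 i) :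
    A.card = a0 + a1 + a2 + a3 := by
  rw [N197.card_eq_of_row A 4 (by rw [h]; rfl)]
  simp [firstRows, Finset.sum_range_succ, h, r4]

/-! ### Prolonged staircases -/

/-- The staircase `K` with row `a` prolonged by `f a` and column `c` by `g c`. -/
def IsPro (A : YoungDiagram) (K : ℕ) (f g : ℕ → ℕ) : Prop :=
  ∀ a c, (a, c) ∈ A ↔ (a + c < K + f a ∨ a + c < K + g c)

theorem exists_pro (K : ℕ) {f g : ℕ → ℕ} (hf : Antitone f) (hg : Antitone g) :
    ∃ A, IsPro A K f g := by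
  refine ⟨⟨(range (K + f 0 + g 0) ×ˢ range (K + f 0 + g 0)).filter
    fun x => x.1 + x.2 < K + f x.1 ∨ x.1 + x.2 < K + g x.2, ?_⟩, fun a c => ?_⟩
  · rintro ⟨a, b⟩ ⟨c, d⟩ hle h
    simp only [Finset.mem_coe, Finset.mem_filter, Finset.mem_product, Finset.mem_range,
      Prod.mk_le_mk] at *
    have := hf hle.1
    have := hg hle.2
    omega
  · rw [← YoungDiagram.mem_cells]
    simp only [Finset.mem_filter, Finset.mem_product, Finset.mem_range]
    have := hf (Nat.zero_le a)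
    have := hg (Nat.zero_le c)
    omega

theorem IsPro.transpose {A : YoungDiagram} {K : ℕ} {f g : ℕ → ℕ} (h : IsPro A K f g) :
    IsPro A.transpose K g f := by
  intro a c
  rw [YoungDiagram.mem_transpose, Prod.swap_prod_mk, h]
  omega

theorem IsPro.unique {A B : YoungDiagram} {K : ℕ} {f g : ℕ → ℕ} (h : IsPro A K f g)
    (h' : IsPro B K f g) : A = B := by
  ext ⟨a, c⟩
  rw [YoungDiagram.mem_cells, YoungDiagram.mem_cells, h, h']

theorem IsPro.rows {A B : YoungDiagram} {K : ℕ} {f f' g eps : ℕ → ℕ} (hA : IsPro A K f g)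
    (hB : IsPro B K f' g) (hf : ∀ a, f a = f' a + eps a)
    (hc : ∀ a c, 0 < eps a → a ≤ K ∧ (a + c < K + g c → a + c < K + f' a)) (a : ℕ) :
    A.rowLen a = B.rowLen a + eps a := by
  have h0 := hf a
  rcases Nat.eq_zero_or_pos (eps a) with h | h
  · rw [h, add_zero]
    refine rowLen_congr fun c => ?_
    rw [hA, hB]
    omega
  · have h1 : A.rowLen a = K + f a - a := rowLen_eq_of fun c => by
      have := hc a c h
      rw [hA]
      omega
    have h2 : B.rowLen a = K + f' a - a := rowLen_eq_of fun c => by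
      have := hc a c h
      rw [hB]
      omega
    have := (hc a 0 h).1
    omega

theorem ex_anti (q d e : ℕ) : Antitone (ex q d e) := by
  refine antitone_nat_of_succ_le fun i => ?_
  unfold ex
  split_ifs <;> first | omega | contradiction

/-- The two halves of a move: first the rows are prolonged, then the columns. -/
theorem halves {K : ℕ} {f f' eps : ℕ → ℕ} (h1 : Antitone f) (h2 : Antitone f')
    (hf : ∀ a, f a = f' a + eps a)
    (hc : ∀ a c, 0 < eps a → a ≤ K ∧ (a + c < K + f c → a + c < K + f' a))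
    {lam lam0 : YoungDiagram} (hl : IsPro lam K f f) (hl0 : IsPro lam0 K f' f') :
    ∃ mu : YoungDiagram, (∀ a, mu.rowLen a = lam0.rowLen a + eps a) ∧
      ∀ a, lam.rowLen a = mu.transpose.rowLen a + eps a := by
  obtain ⟨mu, hmu⟩ := exists_pro K h1 h2
  refine ⟨mu, hmu.rows hl0 hf fun a c h => ?_, hl.rows hmu.transpose hf hc⟩
  have := hc a c h
  have := hf c
  omega

theorem stair_of {lam : YoungDiagram} {K : ℕ} (h : IsState lam K 0 0 0) (a : ℕ) :
    lam.rowLen a = K - a := by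
  refine rowLen_eq_of fun c => ?_
  rw [h]
  unfold ex
  split_ifs <;> omega

theorem card_state {lam : YoungDiagram} {K q d e : ℕ} (hA : Adm K q d e)
    (hl : IsState lam K q d e) : lam.card = sz K q d e := by
  obtain ⟨lam0, hl0⟩ := exists_pro K (ex_anti 0 0 0) (ex_anti 0 0 0)
  obtain ⟨E, hE⟩ := exists_r4 (a0 := q + d + e) (a1 := q + d) (a2 := q) (a3 := q) (by omega)
    (by omega) le_rfl
  obtain ⟨h4, -, -, hq⟩ := hA
  obtain ⟨mu, h1, h2⟩ := halves (eps := E.rowLen) (ex_anti q d e) (ex_anti 0 0 0) (fun a => by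
    rw [hE]
    unfold ex r4
    split_ifs <;> omega) (fun a c h => by
    rw [hE] at h
    unfold ex
    unfold r4 at h
    split_ifs at h ⊢ <;> omega) hl hl0
  have h3 := card_add h1
  have h5 := card_add h2
  rw [Saxl.card_transpose] at h5
  have h6 := card_r4 hE
  have h7 := N197.card_of_tail lam0 0 K fun a => stair_of hl0 a
  have h8 : firstRows lam0 0 = 0 := rfl
  unfold sz
  omega

theorem stateStmt (hO : OfOccStmt) : StateStmt := by
  refine ⟨fun K q d e _ => exists_pro K (ex_anti q d e) (ex_anti q d e),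
    fun lam K q d e h => IsPro.unique (IsPro.transpose h) h,
    fun lam K q d e hA hl => card_state hA hl, fun K lam nu hl hnu => ?_⟩
  obtain ⟨r, i, j, hlab⟩ := N197.exists_lab lam rfl
  obtain ⟨hs, hr⟩ := hlab.stair (stair_of hl)
  obtain ⟨b, rl, cl, h1, h2⟩ := occ_staircase hs nu (by simpa [sz] using hnu)
  rw [← hr] at h2
  exact hO _ lam lam nu rl cl r j r i b h1 (N197.label_j hlab) (N197.label_i hlab) h2

/-! ### Blocks -/

/-- Positivity for `e, e` and the diagram with `w1, ..., w4` columns of heights `1, ..., 4`. -/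
def Blk (e0 e1 e2 e3 w1 w2 w3 w4 : ℕ) : Prop :=
  (e1 ≤ e0 ∧ e2 ≤ e1 ∧ e3 ≤ e2 ∧ w1 + 2 * w2 + 3 * w3 + 4 * w4 = e0 + e1 + e2 + e3) ∧
  ∀ A B C : YoungDiagram, (∀ i, A.rowLen i = r4 e0 e1 e2 e3 i) →
    (∀ i, B.rowLen i = r4 e0 e1 e2 e3 i) →
    (∀ i, C.rowLen i = r4 (w1 + w2 + w3 + w4) (w2 + w3 + w4) (w3 + w4) w4 i) → Pos A B C

theorem getD_eq (a : List ℕ) (ha : a.length ≤ 4) (i : ℕ) :
    r4 (a.getD 0 0) (a.getD 1 0) (a.getD 2 0) (a.getD 3 0) i = a.getD i 0 := by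
  unfold r4
  split_ifs with h0 h1 h2 h3
  · rw [h0]
  · rw [h1]
  · rw [h2]
  · rw [h3]
  · rw [List.getD_eq_getElem?_getD, List.getElem?_eq_none (by omega)]
    rfl

theorem Blk.of_posL {a c : List ℕ} (h : PosL a a c) (ha : a.length ≤ 4) (hc : c.length ≤ 4)
    (e0 e1 e2 e3 w1 w2 w3 w4 : ℕ)
    (h1 : a.getD 0 0 = e0 ∧ a.getD 1 0 = e1 ∧ a.getD 2 0 = e2 ∧ a.getD 3 0 = e3)
    (h2 : c.getD 0 0 = w1 + w2 + w3 + w4 ∧ c.getD 1 0 = w2 + w3 + w4 ∧ c.getD 2 0 = w3 + w4 ∧
      c.getD 3 0 = w4)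
    (h3 : e1 ≤ e0 ∧ e2 ≤ e1 ∧ e3 ≤ e2 ∧ w1 + 2 * w2 + 3 * w3 + 4 * w4 = e0 + e1 + e2 + e3) :
    Blk e0 e1 e2 e3 w1 w2 w3 w4 := by
  refine ⟨h3, fun A B C hA hB hC => h A B C (fun i => ?_) (fun i => ?_) fun i => ?_⟩
  · rw [hA, ← getD_eq a ha, h1.1, h1.2.1, h1.2.2.1, h1.2.2.2]
  · rw [hB, ← getD_eq a ha, h1.1, h1.2.1, h1.2.2.1, h1.2.2.2]
  · rw [hC, ← getD_eq c hc, h2.1, h2.2.1, h2.2.2.1, h2.2.2.2]

theorem Blk.add (hP : SumStmt) {e0 e1 e2 e3 w1 w2 w3 w4 f0 f1 f2 f3 v1 v2 v3 v4 : ℕ}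
    (h : Blk e0 e1 e2 e3 w1 w2 w3 w4) (h' : Blk f0 f1 f2 f3 v1 v2 v3 v4) :
    Blk (e0 + f0) (e1 + f1) (e2 + f2) (e3 + f3) (w1 + v1) (w2 + v2) (w3 + v3) (w4 + v4) := by
  obtain ⟨h0, h⟩ := h
  obtain ⟨h0', h'⟩ := h'
  refine ⟨by omega, fun A B C hA hB hC => ?_⟩
  obtain ⟨a, ha⟩ := exists_r4 h0.1 h0.2.1 h0.2.2.1
  obtain ⟨a', ha'⟩ := exists_r4 h0'.1 h0'.2.1 h0'.2.2.1
  obtain ⟨c, hc⟩ := exists_r4 (a0 := w1 + w2 + w3 + w4) (a1 := w2 + w3 + w4) (a2 := w3 + w4)
    (a3 := w4) (by omega) (by omega) (by omega)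
  obtain ⟨c', hc'⟩ := exists_r4 (a0 := v1 + v2 + v3 + v4) (a1 := v2 + v3 + v4) (a2 := v3 + v4)
    (a3 := v4) (by omega) (by omega) (by omega)
  refine hP a a c a' a' c' A B C (h a a c ha ha hc) (h' a' a' c' ha' ha' hc') (fun i => ?_)
    (fun i => ?_) fun i => ?_
  · rw [hA, ha, ha']
    unfold r4
    split_ifs <;> omega
  · rw [hB, ha, ha']
    unfold r4
    split_ifs <;> omega
  · rw [hC, hc, hc']
    unfold r4
    split_ifs <;> omega

theorem Blk.flip (hS : SymStmt) {e0 e1 e2 e3 f0 f1 f2 f3 w1 w2 w3 w4 : ℕ}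
    (h : Blk e0 e1 e2 e3 w1 w2 w3 w4)
    (h0 : f1 ≤ f0 ∧ f2 ≤ f1 ∧ f3 ≤ f2 ∧ w1 + 2 * w2 + 3 * w3 + 4 * w4 = f0 + f1 + f2 + f3)
    (ht : ∀ a c, a < r4 f0 f1 f2 f3 c ↔ c < r4 e0 e1 e2 e3 a) : Blk f0 f1 f2 f3 w1 w2 w3 w4 := by
  refine ⟨h0, fun A B C hA hB hC => ?_⟩
  have key : ∀ D : YoungDiagram, (∀ i, D.rowLen i = r4 f0 f1 f2 f3 i) →
      ∀ i, D.transpose.rowLen i = r4 e0 e1 e2 e3 i := by
    intro D hD i
    refine rowLen_eq_of fun c => ?_
    rw [YoungDiagram.mem_transpose, Prod.swap_prod_mk, YoungDiagram.mem_iff_lt_rowLen, hD, ht]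
  have h1 := (hS _ _ _ (h.2 _ _ C (key A hA) (key B hB) hC)).2.2
  rwa [YoungDiagram.transpose_transpose, YoungDiagram.transpose_transpose] at h1

/-- A move from a universal state. -/
theorem move (hS : SymStmt) (hP : SumStmt) {K q d e q' d' e' : ℕ}
    {e0 e1 e2 e3 w1 w2 w3 w4 v1 v2 v3 v4 : ℕ} (hU : Univ K q' d' e')
    (h : Blk e0 e1 e2 e3 w1 w2 w3 w4) (h' : Blk e0 e1 e2 e3 v1 v2 v3 v4)
    (hK : 4 ≤ K ∧ (q = 0 ∨ 8 ≤ K))
    (he : q + d + e = q' + d' + e' + e0 ∧ q + d = q' + d' + e1 ∧ q = q' + e2 ∧ q = q' + e3)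
    {lam nu : YoungDiagram} (hl : IsState lam K q d e) (hnu : nu.card = sz K q d e)
    (hw : w1 + v1 ≤ mv nu 0 ∧ w2 + v2 ≤ mv nu 1 ∧ w3 + v3 ≤ mv nu 2 ∧ w4 + v4 ≤ mv nu 3) :
    Pos lam lam nu := by
  obtain ⟨h0, h⟩ := h
  obtain ⟨h0', h'⟩ := h'
  obtain ⟨lam0, hl0⟩ := exists_pro K (ex_anti q' d' e') (ex_anti q' d' e')
  obtain ⟨E, hE⟩ := exists_r4 h0.1 h0.2.1 h0.2.2.1
  obtain ⟨c, hc⟩ := exists_r4 (a0 := w1 + w2 + w3 + w4) (a1 := w2 + w3 + w4) (a2 := w3 + w4)
    (a3 := w4) (by omega) (by omega) (by omega)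
  obtain ⟨c', hc'⟩ := exists_r4 (a0 := v1 + v2 + v3 + v4) (a1 := v2 + v3 + v4) (a2 := v3 + v4)
    (a3 := v4) (by omega) (by omega) (by omega)
  obtain ⟨mu, h1, h2⟩ := halves (eps := E.rowLen) (ex_anti q d e) (ex_anti q' d' e') (fun a => by
    rw [hE]
    unfold ex r4
    split_ifs <;> omega) (fun a c h => by
    rw [hE] at h
    unfold ex
    unfold r4 at h
    split_ifs at h ⊢ <;> omega) hl hl0
  have a0 := nu.rowLen_anti 0 1 (by omega)
  have a1 := nu.rowLen_anti 1 2 (by omega)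
  have a2 := nu.rowLen_anti 2 3 (by omega)
  have a3 := nu.rowLen_anti 3 4 (by omega)
  simp only [mv, zero_add, Nat.reduceAdd] at hw
  have hle : ∀ i, c.rowLen i + c'.rowLen i ≤ nu.rowLen i := by
    intro i
    rw [hc, hc']
    unfold r4
    split_ifs with i0 i1 i2 i3
    · rw [i0]
      omega
    · rw [i1]
      omega
    · rw [i2]
      omega
    · rw [i3]
      omega
    · omega
  obtain ⟨nu0, hn0⟩ := exists_rows (fun i => nu.rowLen i - (c.rowLen i + c'.rowLen i)) nu.card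
    (fun i => by
      have := nu.rowLen_anti i (i + 1) (by omega)
      simp only [hc, hc']
      rcases (by omega : i = 0 ∨ i = 1 ∨ i = 2 ∨ i = 3 ∨ 4 ≤ i) with rfl | rfl | rfl | rfl | hi
      · simp only [r4, zero_add, Nat.reduceEqDiff, if_true, if_false, one_ne_zero]
        omega
      · simp only [r4, Nat.reduceAdd, Nat.reduceEqDiff, if_true, if_false, one_ne_zero]
        omega
      · simp only [r4, Nat.reduceAdd, Nat.reduceEqDiff, if_true, if_false]
        omega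
      · simp only [r4, Nat.reduceAdd, Nat.reduceEqDiff, if_true, if_false]
        omega
      · unfold r4
        split_ifs <;> omega)
    (fun i hi => by
      rw [rowLen_eq_zero nu i hi]
      exact Nat.zero_sub _)
  obtain ⟨nu1, hn1⟩ := exists_add nu0 c
  have hn : ∀ i, nu.rowLen i = nu1.rowLen i + c'.rowLen i := by
    intro i
    have := hle i
    rw [hn1, hn0]
    omega
  have k1 := card_add hn
  have k2 := card_add hn1
  have k3 := card_r4 hc
  have k4 := card_r4 hc'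
  have p0 : Pos lam0 lam0 nu0 := by
    refine hU lam0 nu0 hl0 ?_
    unfold sz at hnu ⊢
    omega
  have p1 := hP _ _ _ _ _ _ mu mu nu1 p0 (h E E c hE hE hc) h1 h1 hn1
  exact hP _ _ _ _ _ _ lam lam nu (hS _ _ _ p1).2.2 (h' E E c' hE hE hc') h2 h2 hn

theorem blk33 (hS : SymStmt) (hP : SumStmt) (hB : BaseStmt) :
    ∀ x ∈ L33, Blk 3 3 3 3 x.1 x.2.1 x.2.2.1 x.2.2.2 := by
  obtain ⟨-, b2, -, -, b5, b6, b7, b8, b9, b10, b11⟩ := hB
  have c2 := Blk.of_posL b2 (by decide) (by decide) 1 1 0 0 2 0 0 0 (by decide) (by decide)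
    (by decide)
  have c5 := Blk.of_posL b5 (by decide) (by decide) 2 2 0 0 0 2 0 0 (by decide) (by decide)
    (by decide)
  have c6 := Blk.of_posL b6 (by decide) (by decide) 2 2 0 0 0 0 0 1 (by decide) (by decide)
    (by decide)
  have c7 := Blk.of_posL b7 (by decide) (by decide) 3 3 0 0 0 0 2 0 (by decide) (by decide)
    (by decide)
  have t1 : ∀ a c, a < r4 2 2 2 0 c ↔ c < r4 3 3 0 0 a := by
    intro a c
    unfold r4
    split_ifs <;> omega
  have t2 : ∀ a c, a < r4 3 3 3 3 c ↔ c < r4 4 4 4 0 a := by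
    intro a c
    unfold r4
    split_ifs <;> omega
  have g1 : Blk 2 2 2 0 6 0 0 0 :=
    Blk.flip hS (e0 := 3) (e1 := 3) (e2 := 0) (e3 := 0) ((c2.add hP c2).add hP c2) (by decide) t1
  have g2 : Blk 2 2 2 0 2 2 0 0 :=
    Blk.flip hS (e0 := 3) (e1 := 3) (e2 := 0) (e3 := 0) (c2.add hP c5) (by decide) t1
  have g3 : Blk 2 2 2 0 2 0 0 1 :=
    Blk.flip hS (e0 := 3) (e1 := 3) (e2 := 0) (e3 := 0) (c2.add hP c6) (by decide) t1
  have g4 : Blk 2 2 2 0 0 0 2 0 := Blk.flip hS c7 (by decide) t1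
  have two : ∀ {w1 w2 w3 w4 v1 v2 v3 v4 : ℕ}, Blk 2 2 2 0 w1 w2 w3 w4 → Blk 2 2 2 0 v1 v2 v3 v4 →
      Blk 3 3 3 3 (w1 + v1) (w2 + v2) (w3 + v3) (w4 + v4) := by
    intro w1 w2 w3 w4 v1 v2 v3 v4 h h'
    have k := h.1
    have k' := h'.1
    exact Blk.flip hS (e0 := 4) (e1 := 4) (e2 := 4) (e3 := 0) (h.add hP h') (by omega) t2
  intro x hx
  simp only [L33, List.mem_cons, List.not_mem_nil, or_false] at hx
  rcases hx with rfl | rfl | rfl | rfl | rfl | rfl | rfl | rfl | rfl | rfl | rfl | rfl | rfl | rfl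
  · exact two g1 g1
  · exact two g1 g2
  · exact two g1 g3
  · exact two g1 g4
  · exact two g2 g2
  · exact two g2 g3
  · exact two g2 g4
  · exact two g3 g3
  · exact two g3 g4
  · exact two g4 g4
  · exact Blk.of_posL b8 (by decide) (by decide) 3 3 3 3 0 6 0 0 (by decide) (by decide)
      (by decide)
  · exact Blk.of_posL b9 (by decide) (by decide) 3 3 3 3 0 4 0 1 (by decide) (by decide)
      (by decide)
  · exact Blk.of_posL b10 (by decide) (by decide) 3 3 3 3 0 2 0 2 (by decide) (by decide)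
      (by decide)
  · exact Blk.of_posL b11 (by decide) (by decide) 3 3 3 3 0 0 0 3 (by decide) (by decide)
      (by decide)

theorem moveStmt (hS : SymStmt) (hP : SumStmt) (hB : BaseStmt) : MoveStmt := by
  intro K q d e lam nu hA _ hBel hl hnu hm
  have h33 := blk33 hS hP hB
  obtain ⟨b1, b2, b3, b4, b5, b6, b7, -⟩ := hB
  have c1 := Blk.of_posL b1 (by decide) (by decide) 1 0 0 0 1 0 0 0 (by decide) (by decide)
    (by decide)
  have c2 := Blk.of_posL b2 (by decide) (by decide) 1 1 0 0 2 0 0 0 (by decide) (by decide)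
    (by decide)
  have c3 := Blk.of_posL b3 (by decide) (by decide) 2 1 0 0 1 1 0 0 (by decide) (by decide)
    (by decide)
  have c4 := Blk.of_posL b4 (by decide) (by decide) 2 1 0 0 0 0 1 0 (by decide) (by decide)
    (by decide)
  have c5 := Blk.of_posL b5 (by decide) (by decide) 2 2 0 0 0 2 0 0 (by decide) (by decide)
    (by decide)
  have c6 := Blk.of_posL b6 (by decide) (by decide) 2 2 0 0 0 0 0 1 (by decide) (by decide)
    (by decide)
  have c7 := Blk.of_posL b7 (by decide) (by decide) 3 3 0 0 0 0 2 0 (by decide) (by decide)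
    (by decide)
  have c8 : Blk 3 3 0 0 2 2 0 0 := c2.add hP c5
  have c9 : Blk 3 3 0 0 2 0 0 1 := c2.add hP c6
  obtain ⟨h4, he, hd, hq⟩ := hA
  have hK : 4 ≤ K ∧ (q = 0 ∨ 8 ≤ K) := by omega
  have sq : 2 ≤ d → (e = 1 → 3 ≤ d) → two2 (mv nu 1) (mv nu 3) = true → Pos lam lam nu := by
    intro h2 h3 ht
    have hU := hBel.1 (d - 2) e (by omega) (by omega) le_rfl (by omega) (by omega)
    simp only [two2, Bool.or_eq_true, Bool.and_eq_true, decide_eq_true_eq] at ht
    rcases ht with (ht | ht) | ht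
    · exact move hS hP hU c6 c6 hK (by omega) hl hnu (by omega)
    · exact move hS hP hU c5 c6 hK (by omega) hl hnu (by omega)
    · exact move hS hP hU c5 c5 hK (by omega) hl hnu (by omega)
  simp only [movable, Bool.or_eq_true, Bool.and_eq_true, decide_eq_true_eq] at hm
  rcases hm with hm | ⟨⟨h3, hd3⟩, hm⟩
  · unfold topMove at hm
    split_ifs at hm with h0
    · simp only [Bool.or_eq_true, Bool.and_eq_true, decide_eq_true_eq] at hm
      rcases hm with (hm | hm) | ⟨h3, hm⟩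
      · exact move hS hP (hBel.1 (d - 1) e (by omega) (by omega) le_rfl (by omega) (by omega))
          c2 c2 hK (by omega) hl hnu (by omega)
      · exact sq hm.1 (by omega) hm.2
      · have hU := hBel.1 (d - 3) e (by omega) (by omega) le_rfl (by omega) (by omega)
        simp only [two3, Bool.or_eq_true, Bool.and_eq_true, decide_eq_true_eq] at hm
        rcases hm with hm | ⟨hm, hm' | hm'⟩
        · exact move hS hP hU c7 c7 hK (by omega) hl hnu (by omega)
        · exact move hS hP hU c7 c9 hK (by omega) hl hnu (by omega)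
        · exact move hS hP hU c7 c8 hK (by omega) hl hnu (by omega)
    · simp only [Bool.or_eq_true, Bool.and_eq_true, decide_eq_true_eq] at hm
      have hU := hBel.1 (d - 1) 0 (by omega) (by omega) (by omega) (by omega) (by omega)
      rcases hm with ((hm | hm) | hm) | hm
      · exact move hS hP (hBel.1 d 0 le_rfl (by omega) (by omega) (by omega) (by omega))
          c1 c1 hK (by omega) hl hnu (by omega)
      · exact move hS hP hU c4 c4 hK (by omega) hl hnu (by omega)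
      · exact move hS hP hU c3 c4 hK (by omega) hl hnu (by omega)
      · exact sq (by omega) (fun _ => hm.1) hm.2
  · simp only [jump, List.any_eq_true, Bool.and_eq_true, decide_eq_true_eq] at hm
    obtain ⟨x, hx, y, hy, hm⟩ := hm
    exact move hS hP (hBel.2 h3 hd3) (h33 x hx) (h33 y hy) hK (by omega) hl hnu (by omega)

end Vale.Agent.N197T
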