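import Vale.Agent.N197T.SSpec

/-!
# The strip rule from its parts
-/

namespace Vale.Agent.N197T

open Equiv Finset Vale.Agent.P197 Vale.Agent.P197.H369 Vale.Agent.N197

namespace Chain

/-- The cells above the lowest `f c` cells of each column `c`. -/
def up (ν : YoungDiagram) (f : ℕ → ℕ) : Finset (ℕ × ℕ) :=
  ν.cells.filter fun d => d.1 + f d.2 < ν.colLen d.2

/-- The lowest `x c` cells of `up ν f` in each column `c`. -/
def band (ν : YoungDiagram) (f x : ℕ → ℕ) : Finset (ℕ × ℕ) :=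
  (up ν f).filter fun d => ν.colLen d.2 ≤ d.1 + f d.2 + x d.2

theorem mem_up {ν : YoungDiagram} {f : ℕ → ℕ} {d : ℕ × ℕ} :
    d ∈ up ν f ↔ d.1 + f d.2 < ν.colLen d.2 := by
  rw [up, mem_filter, YoungDiagram.mem_cells]
  exact and_iff_right_of_imp fun h =>
    (YoungDiagram.mem_iff_lt_colLen (i := d.1) (j := d.2)).2 (by omega)

theorem mem_band {ν : YoungDiagram} {f x : ℕ → ℕ} {d : ℕ × ℕ} :
    d ∈ band ν f x ↔ d.1 + f d.2 < ν.colLen d.2 ∧ ν.colLen d.2 ≤ d.1 + f d.2 + x d.2 := by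
  rw [band, mem_filter, mem_up]

theorem up_zero (ν : YoungDiagram) : up ν (fun _ => 0) = ν.cells := by
  ext d
  rw [mem_up, YoungDiagram.mem_cells]
  exact (YoungDiagram.mem_iff_lt_colLen (i := d.1) (j := d.2)).symm

theorem band_union (ν : YoungDiagram) (f x : ℕ → ℕ) :
    band ν f x ∪ up ν (fun c => f c + x c) = up ν f := by
  ext d
  simp only [mem_union, mem_band, mem_up]
  omega

theorem card_band_filter (ν : YoungDiagram) {f x : ℕ → ℕ} (h : ∀ c, f c + x c ≤ ν.colLen c)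
    (Z : Finset ℕ) : ((band ν f x).filter fun d => d.2 ∈ Z).card = ∑ c ∈ Z, x c := by
  rw [card_eq_sum_card_fiberwise (f := fun d : ℕ × ℕ => d.2) (t := Z)
    (s := (band ν f x).filter fun d => d.2 ∈ Z) fun d hd => mem_coe.2 (mem_filter.1 (mem_coe.1 hd)).2]
  refine sum_congr rfl fun c hc => ?_
  have h3 : ((band ν f x).filter fun d => d.2 ∈ Z).filter (fun d => d.2 = c) =
      (Ico (ν.colLen c - f c - x c) (ν.colLen c - f c)).image fun a => (a, c) := by
    ext ⟨a, b⟩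
    simp only [mem_filter, mem_band, mem_image, mem_Ico, Prod.mk.injEq]
    constructor
    · rintro ⟨⟨⟨h4, h5⟩, -⟩, rfl⟩
      exact ⟨a, ⟨by omega, by omega⟩, rfl, rfl⟩
    · rintro ⟨a', ⟨h4, h5⟩, rfl, rfl⟩
      exact ⟨⟨⟨by omega, by omega⟩, hc⟩, rfl⟩
  rw [h3, card_image_of_injective _ (fun a b hab => by simpa using hab), Nat.card_Ico]
  have := h c
  omega

theorem card_band (ν : YoungDiagram) {f x : ℕ → ℕ} (h : ∀ c, f c + x c ≤ ν.colLen c) {s : ℕ}
    (hx : Strip (ν.rowLen 0) x s) : (band ν f x).card = s := by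
  rw [← hx.2, ← card_band_filter ν h, filter_true_of_mem]
  intro d hd
  have h1 := (mem_band.1 hd).1
  exact mem_range.2 (YoungDiagram.mem_iff_lt_rowLen.1
    (YoungDiagram.mem_iff_lt_colLen.2 (by omega)))

theorem card_up (ν : YoungDiagram) {f x : ℕ → ℕ} (h : ∀ c, f c + x c ≤ ν.colLen c) {s : ℕ}
    (hx : Strip (ν.rowLen 0) x s) : (up ν f).card = s + (up ν fun c => f c + x c).card := by
  rw [← band_union ν f x, card_union_of_disjoint, card_band ν h hx]
  refine disjoint_left.2 fun d h1 h2 => ?_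
  have h3 := (mem_band.1 h1).2
  have h4 := mem_up.1 h2
  omega

/-- A pair of rows is put on top; its cells are the lowest ones. -/
theorem step (hP : PLStmt) (ν : YoungDiagram) {f x : ℕ → ℕ} (h : ∀ c, f c + x c ≤ ν.colLen c)
    {P src al : ℕ → ℕ → Prop} (B e v N : ℕ) (I J : Perm ℕ) (he : e ≤ 1) (hv : v ≤ e)
    (hN : N + v ≤ B) (hI : ∀ a, N ≤ a → I a = a) (hJ : ∀ a, N ≤ a → J a = a) {s : ℕ}
    (hx : Strip (ν.rowLen 0) x s) (hs : s = 2 * B + 1 + e)
    (hZ : ∃ Z : Finset ℕ, ∑ c ∈ Z, x c = e * (2 * v + 1))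
    (hsrc : ∀ a a', src a a' → I a + J a' + 2 + v ≤ B)
    (hC : Conf (up ν fun c => f c + x c) P src al) :
    Conf (up ν f) (fun a b => Row2 B e a b ∨ (2 ≤ a ∧ P (a - 2) b))
      (fun a a' => e = 0 → I a + J a' ≤ B)
      (fun a a' => (a < 2 ∧ a' < 2) ∨ (2 ≤ a ∧ 2 ≤ a' ∧ al (a - 2) (a' - 2))) := by
  obtain ⟨Z, hZ⟩ := hZ
  rw [← band_union ν f x]
  refine hP _ _ (fun c => ν.colLen c - (f c + x c)) P src al B e v N I J Z he hv hN hI hJ
    (fun d hd => ?_) (fun d hd => ?_) ((card_band ν h hx).trans hs) (fun d hd d' hd' h1 h2 => ?_)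
    ((card_band_filter ν h Z).trans hZ) hsrc hC
  · have := (mem_band.1 hd).2
    omega
  · have := mem_up.1 hd
    omega
  · rw [mem_band] at hd hd'
    have := hx.1 d.2
    rw [← h1] at hd'
    exact Prod.ext (by omega) h1

/-- The staircase at the core. -/
theorem base (hD : DSStmt) (hK : KEStmt) (ν : YoungDiagram) (f : ℕ → ℕ) (k : ℕ)
    (hc : (up ν f).card = k * (k + 1) / 2) : ∃ σ : Perm ℕ, (∀ a, k ≤ a → σ a = a) ∧
      Conf (up ν f) (fun a b => a + b < k) (fun a a' => a + a' < k)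
        (fun a a' => σ a + a' ≤ k) := by
  obtain ⟨μ, φ, hφ, hS⟩ := exists_sorted_diagram (up ν f) (fun c => ν.colLen c - f c) fun d => by
    rw [mem_up]
    omega
  have hμ : μ.card = k * (k + 1) / 2 := by
    rw [hS, card_image_of_injective] at hc
    · exact hc
    · intro a b hab
      simp only [Prod.mk.injEq] at hab
      exact Prod.ext hab.1 (hφ hab.2)
  obtain ⟨σ, hσ, H⟩ := hD k μ hμ
  refine ⟨σ, hσ, fun X _ _ hX => ?_⟩
  have e : X ≃ (staircase k).cells := Fintype.equivOfCardEq (by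
    rw [hX, hc, Fintype.card_coe]
    exact (card_staircase k).symm)
  have hs : IsStair k (fun x => (e x).1.1) (fun x => (e x).1.2) :=
    ⟨fun x => mem_staircase.1 (e x).2, fun x y h1 h2 => e.injective (Subtype.ext (Prod.ext h1 h2)),
      fun a b hab => ⟨e.symm ⟨(a, b), mem_staircase.2 hab⟩, by simp, by simp⟩⟩
  generalize (fun x => (e x).1.1) = i at hs
  generalize (fun x => (e x).1.2) = j at hs
  obtain ⟨rl, cl, hl, y, hy, g, ho⟩ := H X i j hs
  rw [e0, e1, wordRep_polyt, wordRep_polyt] at ho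
  obtain ⟨g1, g2, h1, h2⟩ := hK X rl cl _ _ _ _ y ho
  have lab : ∀ r c : X → ℕ, IsStair k r c →
      Lab (fun a b => a + b < k) (r ∘ ⇑(g⁻¹ : Perm X)) (c ∘ ⇑(g⁻¹ : Perm X)) := fun r c h =>
    ⟨fun x => h.lt _, fun x y a1 a2 => (g⁻¹).injective (h.inj _ _ a1 a2), fun a b hab => by
      obtain ⟨x, a1, a2⟩ := h.surj a b hab
      exact ⟨g x, by simpa using a1, by simpa using a2⟩⟩
  have hr : r0 k j i = r0 k i j := by
    funext x
    unfold r0
    omega
  refine ⟨_, _, _, _, lab _ _ (Conj.stair_rev hs), hr ▸ lab _ _ (Conj.stair_rev hs.swap),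
    fun x => hs.swap.lt _, rl, φ ∘ cl, ⟨fun x => ?_, fun x x' a1 a2 => hl.inj x x' a1 (hφ a2),
      fun d hd => ?_⟩, g1, g2, hy _ _ h1, ?_⟩
  · rw [hS]
    exact mem_image.2 ⟨_, hl.mem x, rfl⟩
  · rw [hS] at hd
    obtain ⟨d', hd', rfl⟩ := mem_image.1 hd
    obtain ⟨x, a1, a2⟩ := hl.surj d' hd'
    exact ⟨x, a1, by rw [Function.comp_apply, a2]⟩
  · rw [occ, stab_congr (c := φ ∘ cl) (d := cl) fun x y => hφ.eq_iff]
    exact h2

/-- The end of the chain. -/
theorem pos_of (hO : OfOccStmt) {lam ν : YoungDiagram} {P src al : ℕ → ℕ → Prop}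
    (hP : ∀ a b, P a b ↔ (a, b) ∈ lam) (hC : Conf (up ν fun _ => 0) P src al) : Pos lam lam ν := by
  rw [up_zero] at hC
  obtain ⟨c, r, c', r', l1, l2, -, rl, cl, hl, g, g', -, ho⟩ :=
    hC (Fin ν.cells.card) (Fintype.card_fin _)
  have lab : ∀ r c : Fin ν.cells.card → ℕ, Lab P r c → IsLabel lam.cells r c := fun r c h =>
    ⟨fun x => (hP _ _).1 (h.mem x), h.inj, fun d hd => h.surj _ _ ((hP _ _).2 hd)⟩
  exact hO _ lam lam ν rl cl r c r' c'
    ((LinearMap.mul ℂ ℂ).compl₁₂ (Finsupp.lapply (r ∘ g)) (Finsupp.lapply (r' ∘ g'))) hl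
    (lab _ _ l1) (lab _ _ l2) ho

/-- The cyclic shift of `[0, k + s)` by `s` places. -/
def shift (k s : ℕ) : Perm ℕ where
  toFun a := if a < s then k + a else if a < k + s then a - s else a
  invFun b := if b < k then b + s else if b < k + s then b - k else b
  left_inv a := by
    dsimp only
    split_ifs <;> omega
  right_inv b := by
    dsimp only
    split_ifs <;> omega

theorem shift_apply (k s a : ℕ) :
    shift k s a = if a < s then k + a else if a < k + s then a - s else a := rfl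

theorem shift_fix (k s a : ℕ) (h : k + s ≤ a) : shift k s a = a := by
  rw [shift_apply]
  split_ifs <;> omega

theorem odd_one {N e : ℕ} {x : ℕ → ℕ} (he : e ≤ 1) (h : e = 1 → Odd1 N x) :
    ∃ Z : Finset ℕ, ∑ c ∈ Z, x c = e * (2 * 0 + 1) := by
  by_cases h1 : e = 1
  · obtain ⟨c, -, hc⟩ := h h1
    exact ⟨{c}, by rw [sum_singleton, hc, h1]⟩
  · exact ⟨∅, by rw [sum_empty]; omega⟩

theorem tri_four (k : ℕ) : (k + 4) * (k + 4 + 1) / 2 = k * (k + 1) / 2 + 4 * k + 10 := by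
  rw [show (k + 4) * (k + 4 + 1) = k * (k + 1) + 2 * (4 * k + 10) by ring]
  omega

theorem tri_eight (k : ℕ) : (k + 8) * (k + 8 + 1) / 2 = k * (k + 1) / 2 + 8 * k + 36 := by
  rw [show (k + 8) * (k + 8 + 1) = k * (k + 1) + 2 * (8 * k + 36) by ring]
  omega

end Chain

open Chain in
theorem s1 (hD : DSStmt) (hK : KEStmt) (hF : FLStmt) (hP : PLStmt) (hO : OfOccStmt) : S1Stmt := by
  rintro K d e lam ν ⟨a1, a2, -, -⟩ hd hl hn ⟨x1, x2, hx, t1, t2, ho⟩
  obtain ⟨k, rfl⟩ : ∃ k, K = k + 4 := ⟨K - 4, by omega⟩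
  have f1 : ∀ c, 0 + x1 c ≤ ν.colLen c := fun c => by have := hx c; omega
  have f2 : ∀ c, 0 + x1 c + x2 c ≤ ν.colLen c := fun c => by have := hx c; omega
  have c1 := card_up ν (f := fun _ => 0) f1 t1
  have c2 := card_up ν (f := fun c => 0 + x1 c) f2 t2
  have c0 : (up ν fun _ => 0).card = ν.card := by rw [up_zero]
  rw [sz, tri_four] at hn
  obtain ⟨σ, hσ, C0⟩ := base hD hK ν (fun c => 0 + x1 c + x2 c) k (by omega)
  have C1 := step hP ν (f := fun c => 0 + x1 c) f2 (k + 1 + d) e 0 k σ 1 a2 (Nat.zero_le _)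
    (by omega) hσ (fun _ _ => rfl) t2 (by omega) (odd_one a2 fun h => (ho h).2)
    (fun a a' h => by rw [Perm.one_apply]; omega) (hF _ _ _ _ C0)
  obtain ⟨v, hv, hvd, hZ⟩ : ∃ v, v ≤ e ∧ v + 1 ≤ d ∧
      ∃ Z : Finset ℕ, ∑ c ∈ Z, x1 c = e * (2 * v + 1) := by
    by_cases h1 : e = 1 → Odd1 (ν.rowLen 0) x1
    · exact ⟨0, Nat.zero_le _, hd, odd_one a2 h1⟩
    · rw [Classical.not_imp] at h1
      obtain ⟨b1, Z, -, b2⟩ := (ho h1.1).1.resolve_left h1.2
      exact ⟨1, h1.1.ge, b1, Z, by rw [b2, h1.1]⟩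
  have C2 := step hP ν (f := fun _ => 0) f1 (k + 3 + d) e v (k + 2) 1 (shift k 2) a2 hv
    (by omega) (fun _ _ => rfl) (shift_fix k 2) t1 (by omega) hZ
    (fun a a' h => by rw [Perm.one_apply, shift_apply]; split_ifs <;> omega) (hF _ _ _ _ C1)
  refine pos_of hO (fun a b => ?_) C2
  rw [hl]
  simp only [Row2, ex]
  split_ifs <;> omega

open Chain in
theorem s2 (hD : DSStmt) (hK : KEStmt) (hF : FLStmt) (hP : PLStmt) (hO : OfOccStmt) : S2Stmt := by
  rintro K q d e lam ν ⟨-, a2, a3, a4⟩ hq hl hn ⟨x1, x2, x3, x4, hx, t1, t2, t3, t4, ho⟩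
  obtain ⟨k, rfl⟩ : ∃ k, K = k + 8 := ⟨K - 8, by omega⟩
  have f1 : ∀ c, 0 + x1 c ≤ ν.colLen c := fun c => by have := hx c; omega
  have f2 : ∀ c, 0 + x1 c + x2 c ≤ ν.colLen c := fun c => by have := hx c; omega
  have f3 : ∀ c, 0 + x1 c + x2 c + x3 c ≤ ν.colLen c := fun c => by have := hx c; omega
  have f4 : ∀ c, 0 + x1 c + x2 c + x3 c + x4 c ≤ ν.colLen c := fun c => by have := hx c; omega
  have c1 := card_up ν (f := fun _ => 0) f1 t1
  have c2 := card_up ν (f := fun c => 0 + x1 c) f2 t2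
  have c3 := card_up ν (f := fun c => 0 + x1 c + x2 c) f3 t3
  have c4 := card_up ν (f := fun c => 0 + x1 c + x2 c + x3 c) f4 t4
  have c0 : (up ν fun _ => 0).card = ν.card := by rw [up_zero]
  rw [sz, tri_eight] at hn
  obtain ⟨σ, hσ, C0⟩ := base hD hK ν (fun c => 0 + x1 c + x2 c + x3 c + x4 c) k (by omega)
  have C4 := step hP ν (f := fun c => 0 + x1 c + x2 c + x3 c) f4 (k + q + 1) 0 0 k σ 1
    (Nat.zero_le _) le_rfl (by omega) hσ (fun _ _ => rfl) t4 (by omega) ⟨∅, rfl⟩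
    (fun a a' h => by rw [Perm.one_apply]; omega) (hF _ _ _ _ C0)
  have C3 := step hP ν (f := fun c => 0 + x1 c + x2 c) f3 (k + q + d + 3) e 0 k σ 1 a2
    (Nat.zero_le _) (by omega) hσ (fun _ _ => rfl) t3 (by omega) (odd_one a2 fun h => (ho h).2)
    (fun a a' h => by have := h rfl; omega) C4
  have C2 := step hP ν (f := fun c => 0 + x1 c) f2 (k + q + 5) 0 0 (k + 4) 1 (shift k 4)
    (Nat.zero_le _) le_rfl (by omega) (fun _ _ => rfl) (shift_fix k 4) t2 (by omega) ⟨∅, rfl⟩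
    (fun a a' h => by rw [Perm.one_apply, shift_apply]; split_ifs <;> omega) (hF _ _ _ _ C3)
  have hZ : ∃ Z : Finset ℕ, ∑ c ∈ Z, x1 c = e * (2 * e + 1) := by
    by_cases h1 : e = 1
    · obtain ⟨Z, -, b2⟩ := (ho h1).1
      exact ⟨Z, by rw [b2, h1]⟩
    · obtain rfl : e = 0 := by omega
      exact ⟨∅, rfl⟩
  have C1 := step hP ν (f := fun _ => 0) f1 (k + q + d + 7) e e (k + 4) 1 (shift k 4) a2 le_rfl
    (by omega) (fun _ _ => rfl) (shift_fix k 4) t1 (by omega) hZ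
    (fun a a' h => by have := h rfl; omega) C2
  refine pos_of hO (fun a b => ?_) C1
  rw [hl]
  simp only [Row2, ex]
  split_ifs <;> omega

end Vale.Agent.N197T
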