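import Vale.Agent.N197T.SOne

/-!
# The staircase with a kernel of small support
-/

namespace Vale.Agent.N197T

open Equiv Finset Vale.Agent.P197 Vale.Agent.P197.H369 Vale.Agent.P197.Conj

noncomputable section

variable {X : Type} [Fintype X] [DecidableEq X]

/-- On the Specht module the form `b` has a kernel of small support. -/
def SB (m : ℕ) (i j : X → ℕ) (σ : Perm ℕ) (b : BF X) : Prop :=
  ∃ y : (X → ℕ) → (X → ℕ) → ℂ, (∀ u u', y u u' ≠ 0 → ∀ x, u x < m ∧ σ (u x) + u' x ≤ m) ∧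
    ∀ g g' : Perm X, b (wordRep X g (e0 m i j)) (wordRep X g' (e0 m i j)) =
      kform y (wordRep X g (e0 m i j)) (wordRep X g' (e0 m i j))

/-- The inductive statement with supports. -/
def TSup (m : ℕ) (i j : X → ℕ) (σ σ' : Perm ℕ) (ν : YoungDiagram) : Prop :=
  ∃ (b : BF X) (Q : Submodule ℤ (Perm X → ℂ)), Good m i j b Q ∧
    (∃ rl cl : X → ℕ, IsLabel ν.cells rl cl ∧ ∃ F ∈ Q, occ rl cl F ≠ 0) ∧
    SB m i j σ b ∧ SB m i j σ' (b.comp (theta m i j))

theorem sb_small {m : ℕ} (hm : m ≤ 1) {i j : X → ℕ} (hs : IsStair m i j) (b : BF X) :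
    SB m i j 1 b := by
  classical
  refine ⟨fun u u' => if ∀ x, u x < m ∧ u x + u' x ≤ m then
    b (Finsupp.single u 1) (Finsupp.single u' 1) else 0, ?_, ?_⟩
  · intro u u' h
    by_contra hc
    exact h (if_neg hc)
  · intro g g'
    unfold e0
    rw [bilin_polyt, bilin_polyt]
    refine Finset.sum_congr rfl fun π _ => Finset.sum_congr rfl fun π' _ => ?_
    rw [kform_single, one_mul, one_mul, if_pos]
    intro x
    have := hs.lt x
    simp only [Function.comp_apply, r0]
    omega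

omit [Fintype X] [DecidableEq X] in
theorem stair_label {m : ℕ} {i j : X → ℕ} (hs : IsStair m i j) :
    IsLabel (staircase m).cells (r0 m i j) j := by
  have h := stair_rev hs
  refine ⟨fun x => ?_, h.inj, fun c hc => ?_⟩
  · rw [YoungDiagram.mem_cells, mem_staircase]
    exact h.lt x
  · rw [YoungDiagram.mem_cells, mem_staircase] at hc
    exact h.surj _ _ hc

theorem theta_Wd {m : ℕ} {i j : X → ℕ} (hs : IsStair m i j) (v : WM X) :
    theta m i j v ∈ H328.Wd X (H328.cnt (staircase m)) := by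
  induction v using Finsupp.induction_linear with
  | zero => simp
  | add v v' h h' => rw [map_add]; exact Submodule.add_mem _ h h'
  | single u a =>
    have e : Finsupp.single u a = a • Finsupp.single u (1 : ℂ) := by simp
    rw [e, map_smul, theta_single]
    refine Submodule.smul_mem _ _ (Submodule.sum_mem _ fun π _ => Submodule.smul_mem _ _ ?_)
    refine Finsupp.single_mem_supported ℂ _ ?_
    intro k
    rw [H328.count_comp, H328.count_label (stair_label hs)]

theorem theta_theta_rep (m : ℕ) (i j : X → ℕ) (g : Perm X) (v : WM X) :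
    theta m i j (theta m i j (wordRep X g v)) = wordRep X g (theta m i j (theta m i j v)) := by
  rw [theta_equiv, map_smul, theta_equiv, smul_smul, sgn_sq, one_smul]

theorem theta_theta {m : ℕ} {i j : X → ℕ} (hs : IsStair m i j) :
    ∃ c : ℂ, theta m i j (theta m i j (e0 m i j)) = c • e0 m i j := by
  obtain ⟨a, ha⟩ := H328.kap_mem_span (stair_label hs) (theta_Wd hs (theta m i j (e0 m i j)))
  have h1 : H328.kap j (theta m i j (theta m i j (e0 m i j))) =
      theta m i j (theta m i j (H328.kap j (e0 m i j))) := by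
    rw [H328.kap_apply, H328.kap_apply, map_sum, map_sum]
    refine Finset.sum_congr rfl fun π _ => ?_
    rw [map_smul, map_smul, theta_theta_rep]
  have h2 : H328.kap j (e0 m i j) = ((stab j).card : ℂ) • e0 m i j := H328.kap_polyt _ _
  rw [h1, h2, map_smul, map_smul] at ha
  refine ⟨((stab j).card : ℂ)⁻¹ * a, ?_⟩
  rw [mul_smul]
  exact (eq_inv_smul_iff₀ (H328.card_stab_ne_zero j)).2 ha

theorem sb_flip {m : ℕ} {i j : X → ℕ} (hs : IsStair m i j) {σ : Perm ℕ} {b : BF X}
    (h : SB m i j σ b) : SB m i j σ ((b.comp (theta m i j)).comp (theta m i j)) := by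
  obtain ⟨y, hy, hb⟩ := h
  obtain ⟨c, hc⟩ := theta_theta hs
  refine ⟨fun u u' => c * y u u', fun u u' h => hy u u' (right_ne_zero_of_mul h), ?_⟩
  intro g g'
  rw [LinearMap.comp_apply, LinearMap.comp_apply, theta_theta_rep, hc, map_smul, map_smul,
    LinearMap.smul_apply, hb, smul_eq_mul]
  unfold e0
  rw [bilin_polyt, bilin_polyt, Finset.mul_sum]
  refine Finset.sum_congr rfl fun π _ => ?_
  rw [Finset.mul_sum]
  refine Finset.sum_congr rfl fun π' _ => ?_
  rw [kform_single, kform_single]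
  ring

theorem TSup.flip {m : ℕ} {i j : X → ℕ} (hs : IsStair m i j) {σ σ' : Perm ℕ} {ν : YoungDiagram}
    (h : TSup m i j σ σ' ν) : TSup m i j σ' σ ν.transpose := by
  obtain ⟨b, Q, hQ, ⟨rl, cl, hl, hF⟩, h1, h2⟩ := h
  obtain ⟨g, F, hF1, hF2⟩ := occ_flip Q hQ.stable rl cl hF
  refine ⟨b.comp (theta m i j), Q.map sgnMul, good_theta hs hQ, ⟨cl ∘ g, rl ∘ g,
    label_comp (label_swap hl) g, sgnMul F, Submodule.mem_map_of_mem hF1, ?_⟩, h2, sb_flip hs h1⟩
  have e : occ (cl ∘ g) (rl ∘ g) (sgnMul F)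
      = ∑ ρ ∈ stab (rl ∘ g), ∑ π ∈ stab (cl ∘ g), ((Perm.sign π : ℤ) : ℂ) * F (π * ρ) := by
    unfold occ
    rw [Finset.sum_comm]
    refine Finset.sum_congr rfl fun ρ _ => Finset.sum_congr rfl fun π _ => ?_
    rw [sgnMul_apply, sgn_mul]
    linear_combination (((Perm.sign π : ℤ) : ℂ) * F (π * ρ)) * sgn_sq ρ
  rw [e]
  exact hF2

/-- The cyclic shift by two of the numbers below `m`. -/
def cyc2 (m : ℕ) (hm : 2 ≤ m) : Perm ℕ where
  toFun a := if a < 2 then m - 2 + a else if a < m then a - 2 else a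
  invFun a := if a < m - 2 then a + 2 else if a < m then a - (m - 2) else a
  left_inv a := by
    dsimp only
    split_ifs <;> omega
  right_inv a := by
    dsimp only
    split_ifs <;> omega

theorem cyc2_apply (m : ℕ) (hm : 2 ≤ m) (a : ℕ) :
    cyc2 m hm a = if a < 2 then m - 2 + a else if a < m then a - 2 else a := rfl

theorem lt_of_fix {σ : Perm ℕ} {N : ℕ} (h : ∀ a, N ≤ a → σ a = a) {a : ℕ} (ha : a < N) :
    σ a < N := by
  by_contra hc
  have h1 := σ.injective (h (σ a) (by omega))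
  omega

/-- Peeling rows keeps the support small. -/
theorem sb_peel {m : ℕ} (hm : 2 ≤ m) {i j : X → ℕ} (hs : IsStair m i j) (p : X → Prop)
    [DecidablePred p] (hp : ∀ x, p x ↔ m ≤ i x + j x + 2)
    (y : ({x // p x} → ℕ) → ({x // p x} → ℕ) → ℂ) (b₂ : BF {x // ¬ p x}) {σ : Perm ℕ}
    (hσ : ∀ a, m - 2 ≤ a → σ a = a)
    (h : SB (m - 2) (resW (fun x => ¬ p x) i) (resW (fun x => ¬ p x) j) σ b₂) :
    SB m i j (σ * cyc2 m hm) (kform (peelKer p y b₂)) := by
  obtain ⟨y₂, hy, hb⟩ := h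
  have hr := hr_of_stair p hs hp
  refine ⟨peelKer p y (kform y₂), ?_, ?_⟩
  · intro u u' hne x
    unfold peelKer at hne
    have h1 : (∀ x, p x ↔ u x < 2) ∧ ∀ x, p x ↔ u' x < 2 := by
      by_contra hc
      exact hne (if_neg hc)
    rw [if_pos h1, kform_single, one_mul, one_mul] at hne
    rw [Perm.mul_apply, cyc2_apply]
    by_cases hx : p x
    · have h2 := (h1.1 x).1 hx
      have h3 := (h1.2 x).1 hx
      rw [if_pos h2, hσ _ (by omega)]
      omega
    · have h2 := mt (h1.1 x).2 hx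
      have h3 := mt (h1.2 x).2 hx
      have h4 := hy _ _ (right_ne_zero_of_mul hne) ⟨x, hx⟩
      dsimp only at h4
      rw [if_neg h2, if_pos (by omega)]
      omega
  · intro g g'
    by_cases h1 : ∀ π ∈ stab j, ¬ ∀ x, p ((g * π) x) ↔ p x
    · exact (peel_I1 p y b₂ j _ hr g h1 _).1.trans (peel_I1 p y _ j _ hr g h1 _).1.symm
    by_cases h2 : ∀ π ∈ stab j, ¬ ∀ x, p ((g' * π) x) ↔ p x
    · exact (peel_I1 p y b₂ j _ hr g' h2 _).2.trans (peel_I1 p y _ j _ hr g' h2 _).2.symm
    push Not at h1 h2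
    obtain ⟨π, hπ, U⟩ := h1
    obtain ⟨π', hπ', U'⟩ := h2
    have e : ∀ (k τ : Perm X), τ ∈ stab j → wordRep X k (e0 m i j) =
        ((Perm.sign τ : ℤ) : ℂ) • wordRep X (k * τ) (polyt j (r0 m i j)) := by
      intro k τ hτ
      rw [peel_I2 k τ j _ hτ, smul_smul, sgn_sq, one_smul]
      rfl
    rw [e g π hπ, e g' π' hπ']
    simp only [map_smul, LinearMap.smul_apply]
    rw [peel_I3 p y b₂ j j _ hr _ _ U U', peel_I3 p y _ j j _ hr _ _ U U', e0_restrict_right, hb]

/-- The twisted peeled form on words. -/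
theorem peel_theta {m : ℕ} {i j : X → ℕ} (hs : IsStair m i j) (p : X → Prop)
    [DecidablePred p] (hp : ∀ x, p x ↔ m ≤ i x + j x + 2)
    (y : ({x // p x} → ℕ) → ({x // p x} → ℕ) → ℂ) (b₂ : BF {x // ¬ p x}) (w u' : X → ℕ) :
    kform (peelKer p y b₂) (theta m i j (Finsupp.single w 1)) (Finsupp.single u' 1) =
      pf 2 p (fun z => kform y (theta m (resW p i) (resW p j) (Finsupp.single (resW p w) 1))
          (Finsupp.single z 1))
        (fun z => b₂ (theta (m - 2) (resW (fun x => ¬ p x) i) (resW (fun x => ¬ p x) j)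
          (Finsupp.single (resW (fun x => ¬ p x) w) 1)) (Finsupp.single z 1)) u' := by
  classical
  have hr := hr_of_stair p hs hp
  unfold pf
  rw [theta_single, theta_single, theta_single]
  simp only [map_sum, map_smul, LinearMap.sum_apply, LinearMap.smul_apply, kform_single, one_mul,
    smul_eq_mul]
  by_cases hu : ∀ x, p x ↔ u' x < 2
  swap
  · rw [if_neg hu]
    refine Finset.sum_eq_zero fun g _ => ?_
    unfold peelKer
    rw [if_neg fun h => hu h.2, mul_zero]
  rw [if_pos hu, Finset.sum_filter, Finset.sum_filter, Finset.sum_filter, sum_univ_block p,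
    Finset.sum_mul_sum]
  · refine Finset.sum_congr rfl fun a _ => Finset.sum_congr rfl fun b _ => ?_
    rw [subtypeCongr_inv]
    have e1 : i ∘ ⇑(Perm.subtypeCongr a⁻¹ b⁻¹) = w ↔ resW p i ∘ ⇑(a⁻¹ : Perm _) = resW p w ∧
        resW (fun x => ¬ p x) i ∘ ⇑(b⁻¹ : Perm _) = resW (fun x => ¬ p x) w := by
      rw [← N197.resW_left p i a⁻¹ b⁻¹, ← N197.resW_right p i a⁻¹ b⁻¹]
      constructor
      · intro h
        rw [h]
        exact ⟨rfl, rfl⟩
      · intro h
        funext x
        by_cases hx : p x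
        · exact congrFun h.1 ⟨x, hx⟩
        · exact congrFun h.2 ⟨x, hx⟩
    have e2 : ∀ x, p x ↔ (r0 m i j ∘ ⇑(Perm.subtypeCongr a⁻¹ b⁻¹)) x < 2 := by
      intro x
      rw [Function.comp_apply, ← hr, subtypeCongr_preserve p]
    have e3 : (fun x : {x // ¬ p x} => (r0 m i j ∘ ⇑(Perm.subtypeCongr a⁻¹ b⁻¹)) x.1 - 2) =
        r0 (m - 2) (resW (fun x => ¬ p x) i) (resW (fun x => ¬ p x) j) ∘ ⇑(b⁻¹ : Perm _) := by
      funext x
      rw [Function.comp_apply, Function.comp_apply, Perm.subtypeCongr.right_apply _ _ x.2]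
      simp only [r0, resW, Subtype.coe_eta]
      omega
    unfold peelKer
    rw [if_pos (And.intro e2 hu), N197.resW_left, e3, Perm.sign_subtypeCongr]
    by_cases h1 : resW p i ∘ ⇑(a⁻¹ : Perm _) = resW p w
    · by_cases h2 : resW (fun x => ¬ p x) i ∘ ⇑(b⁻¹ : Perm _) = resW (fun x => ¬ p x) w
      · rw [if_pos (e1.2 ⟨h1, h2⟩), if_pos h1, if_pos h2]
        push_cast
        have e4 : resW p (r0 m i j) = r0 m (resW p i) (resW p j) := rfl
        rw [e4]
        ring
      · rw [if_neg fun h => h2 (e1.1 h).2, if_neg h2, mul_zero]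
    · rw [if_neg fun h => h1 (e1.1 h).1, if_neg h1, zero_mul]
  · intro g hg
    rw [(peelKer_eq_zero p y b₂ _ u' hr g hg).1, mul_zero, ite_self]

theorem theta_support (m : ℕ) (i j w : X → ℕ) :
    (theta m i j (Finsupp.single w 1)).support ⊆
      univ.image fun g : Perm X => r0 m i j ∘ ⇑(g⁻¹ : Perm X) := by
  classical
  intro u hu
  rw [Finsupp.mem_support_iff, theta_single, Finsupp.finsetSum_apply] at hu
  obtain ⟨g, -, hg⟩ := Finset.exists_ne_zero_of_sum_ne_zero hu
  refine Finset.mem_image.2 ⟨g, Finset.mem_univ _, ?_⟩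
  by_contra hc
  apply hg
  rw [Finsupp.smul_apply, Finsupp.single_eq_of_ne (Ne.symm hc), smul_zero]

omit [DecidableEq X] in
theorem card_level {m : ℕ} {i j : X → ℕ} (hs : IsStair m i j) (g : Perm X) (t : ℕ) :
    (univ.filter fun x => r0 m i j (g x) = t).card = m - t := by
  have h : IsLab (fun a => m - a) (r0 m i j ∘ g) (i ∘ g) (j ∘ g) := by
    refine ⟨fun x => ?_, fun x y h1 h2 => ?_, fun a b hab => ?_⟩
    · have := r0_add hs (g x)
      simp only [Function.comp_apply]
      omega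
    · exact g.injective ((stair_rev hs).inj _ _ h1 h2)
    · obtain ⟨x, h1, h2⟩ := (stair_rev hs).surj a b (by omega)
      exact ⟨g⁻¹ x, by simpa using h1, by simpa using h2⟩
  exact h.card_row t

/-- Peeling columns keeps the support small. -/
theorem sb_peel_theta (hG : GKStmt) {m : ℕ} (hm : 2 ≤ m) {i j : X → ℕ} (hs : IsStair m i j)
    (p : X → Prop) [DecidablePred p] (hp : ∀ x, p x ↔ m ≤ i x + j x + 2)
    (y : ({x // p x} → ℕ) → ({x // p x} → ℕ) → ℂ) (b₂ : BF {x // ¬ p x}) {σ : Perm ℕ}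
    (hσ : ∀ a, m - 2 ≤ a → σ a = a)
    (h : SB (m - 2) (resW (fun x => ¬ p x) i) (resW (fun x => ¬ p x) j) σ
      (b₂.comp (theta (m - 2) (resW (fun x => ¬ p x) i) (resW (fun x => ¬ p x) j)))) :
    SB m i j σ ((kform (peelKer p y b₂)).comp (theta m i j)) := by
  classical
  obtain ⟨y₂, hy, hb⟩ := h
  have hr := hr_of_stair p hs hp
  set tA := theta m (resW p i) (resW p j) with htA
  set tB := theta (m - 2) (resW (fun x => ¬ p x) i) (resW (fun x => ¬ p x) j) with htB
  let K : (X → ℕ) → (X → ℕ) → ℂ := fun w =>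
    pf 2 p (fun z => kform y (tA (Finsupp.single (resW p w) 1)) (Finsupp.single z 1))
      (y₂ (resW (fun x => ¬ p x) w))
  refine ⟨K, ?_, ?_⟩
  · intro u u' hne x
    simp only [K, pf] at hne
    have h1 : ∀ x, p x ↔ u' x < 2 := by
      by_contra hc
      exact hne (if_neg hc)
    rw [if_pos h1] at hne
    by_cases hx : p x
    · have h2 : tA (Finsupp.single (resW p u) 1) ≠ 0 := by
        intro h0
        apply left_ne_zero_of_mul hne
        rw [h0, map_zero, LinearMap.zero_apply]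
      rw [htA, theta_single] at h2
      obtain ⟨a, ha, -⟩ := Finset.exists_ne_zero_of_sum_ne_zero h2
      have h3 := congrFun (Finset.mem_filter.1 ha).2 ⟨x, hx⟩
      simp only [Function.comp_apply, resW] at h3
      have h4 := hs.lt (a⁻¹ ⟨x, hx⟩).1
      have h5 := lt_of_fix (σ := σ) (N := m) (fun a ha => hσ a (by omega))
        (a := u x) (by omega)
      have h6 := (h1 x).1 hx
      omega
    · have h3 := mt (h1 x).2 hx
      have h4 := hy _ _ (right_ne_zero_of_mul hne) ⟨x, hx⟩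
      simp only [resW] at h4
      omega
  · intro g g'
    have k1 : ∀ (w : X → ℕ) (v : WM X), kform (peelKer p y b₂) (theta m i j (Finsupp.single w 1)) v =
        lin (pf 2 p (fun z => kform y (tA (Finsupp.single (resW p w) 1)) (Finsupp.single z 1))
          (fun z => b₂ (tB (Finsupp.single (resW (fun x => ¬ p x) w) 1)) (Finsupp.single z 1))) v := by
      intro w v
      rw [← lin_eq (kform (peelKer p y b₂) (theta m i j (Finsupp.single w 1)))]
      congr 2
      funext u'
      exact peel_theta hs p hp y b₂ w u'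
    have k2 : ∀ (w : X → ℕ) (v : WM X), kform K (Finsupp.single w 1) v = lin (K w) v := by
      intro w v
      rw [← lin_eq (kform K (Finsupp.single w 1))]
      congr 2
      funext u'
      rw [kform_single, one_mul, one_mul]
    let D : WM X →ₗ[ℂ] ℂ := (((kform (peelKer p y b₂)).comp (theta m i j)).flip
      (wordRep X g' (e0 m i j))) - (kform K).flip (wordRep X g' (e0 m i j))
    have hD : ∀ v, D v = kform (peelKer p y b₂) (theta m i j v) (wordRep X g' (e0 m i j)) -
        kform K v (wordRep X g' (e0 m i j)) := fun v => rfl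
    rw [← sub_eq_zero]
    change D (wordRep X g (e0 m i j)) = 0
    by_cases h2 : ∀ π ∈ stab j, ¬ ∀ x, p ((g' * π) x) ↔ p x
    · have h0 : D = 0 := by
        refine Finsupp.lhom_ext' fun w => LinearMap.ext_ring ?_
        simp only [LinearMap.comp_apply, Finsupp.lsingle_apply, LinearMap.zero_apply]
        rw [hD, k1, k2]
        unfold e0
        rw [pf_zero 2 p _ _ j _ hr g' h2, pf_zero 2 p _ _ j _ hr g' h2, sub_zero]
      rw [h0, LinearMap.zero_apply]
    push Not at h2
    obtain ⟨π, hπ, U⟩ := h2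
    obtain ⟨a', b', hab⟩ := exists_congr p _ U
    have e : wordRep X g' (e0 m i j) = ((Perm.sign π : ℤ) : ℂ) •
        wordRep X (Perm.subtypeCongr a' b') (polyt j (r0 m i j)) := by
      rw [← hab, peel_I2 g' π j _ hπ, smul_smul, sgn_sq, one_smul]
      rfl
    set vA := wordRep _ a' (polyt (resW p j) (resW p (r0 m i j))) with hvA
    set vB := wordRep _ b' (e0 (m - 2) (resW (fun x => ¬ p x) i) (resW (fun x => ¬ p x) j))
      with hvB
    let β : WM {x // ¬ p x} →ₗ[ℂ] ℂ := (b₂.comp tB).flip vB - (kform y₂).flip vB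
    have hβ : ∀ v, β v = b₂ (tB v) vB - kform y₂ v vB := fun v => rfl
    let Φ : ({x // p x} → ℕ) → WM X →ₗ[ℂ] ℂ := fun u => lin fun w =>
      tA (Finsupp.single (resW p w) 1) u * β (Finsupp.single (resW (fun x => ¬ p x) w) 1)
    set T := univ.image fun a : Perm {x // p x} =>
      r0 m (resW p i) (resW p j) ∘ ⇑(a⁻¹ : Perm _) with hT
    have hsum : D = ∑ u ∈ T, (((Perm.sign π : ℤ) : ℂ) * kform y (Finsupp.single u 1) vA) • Φ u := by
      refine Finsupp.lhom_ext' fun w => LinearMap.ext_ring ?_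
      simp only [LinearMap.comp_apply, Finsupp.lsingle_apply, LinearMap.sum_apply,
        LinearMap.smul_apply, Φ, lin_single, smul_eq_mul]
      rw [hD, k1, k2, e, map_smul, map_smul, pf_factor 2 p _ _ j _ hr, pf_factor 2 p _ _ j _ hr,
        e0_restrict_right, lin_eq, lin_eq, ← hvA, ← hvB, hβ]
      have e5 : lin (y₂ (resW (fun x => ¬ p x) w)) vB =
          kform y₂ (Finsupp.single (resW (fun x => ¬ p x) w) 1) vB := by
        rw [← lin_eq (kform y₂ (Finsupp.single (resW (fun x => ¬ p x) w) 1))]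
        congr 2
        funext u'
        rw [kform_single, one_mul, one_mul]
      have e6 := lin_support ((kform y).flip vA) (tA (Finsupp.single (resW p w) 1)) T
        (theta_support _ _ _ _)
      simp only [LinearMap.flip_apply] at e6
      rw [e5, e6, smul_eq_mul, smul_eq_mul, ← mul_sub, ← mul_sub, Finset.sum_mul, Finset.mul_sum]
      refine Finset.sum_congr rfl fun u _ => ?_
      ring
    rw [hsum, LinearMap.sum_apply]
    refine Finset.sum_eq_zero fun u hu => ?_
    obtain ⟨a, -, rfl⟩ := Finset.mem_image.1 hu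
    rw [LinearMap.smul_apply]
    refine smul_eq_zero_of_right _ ?_
    set k : Perm X := Perm.subtypeCongr a⁻¹ 1 with hk
    have hk1 : ∀ x (hx : p x), r0 m i j (k x) =
        (r0 m (resW p i) (resW p j) ∘ ⇑(a⁻¹ : Perm _)) ⟨x, hx⟩ := by
      intro x hx
      rw [hk, Perm.subtypeCongr.left_apply _ _ hx]
      rfl
    have hk2 : ∀ x, p x ↔ r0 m i j (k x) < 2 := by
      intro x
      rw [← hr, hk, subtypeCongr_preserve p]
    refine hG X m i j hs hm p (univ.filter fun x => r0 m i j (k x) = 0)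
      (univ.filter fun x => r0 m i j (k x) = 1) ?_ ?_ ?_ ?_ _ _ (hs.low p hp) _
      (fun z => tA (Finsupp.single z 1) (r0 m (resW p i) (resW p j) ∘ ⇑(a⁻¹ : Perm _))) β
      (fun w => lin_single _ w) ?_ ?_ g
    · rw [card_level hs, Nat.sub_zero]
    · rw [card_level hs]
      omega
    · rw [Finset.disjoint_filter]
      intro x _ h1 h2
      omega
    · intro x
      simp only [Finset.mem_filter, Finset.mem_univ, true_and]
      rw [hk2]
      omega
    · intro κ
      rw [hβ, sub_eq_zero]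
      exact hb κ b'
    · intro x z hxz hmem w
      simp only [Finset.mem_filter, Finset.mem_univ, true_and] at hmem
      have hx : p x := (hk2 x).2 (by omega)
      have hz : p z := (hk2 z).2 (by omega)
      have hne : (⟨x, hx⟩ : {x // p x}) ≠ ⟨z, hz⟩ := fun h => hxz (congrArg Subtype.val h)
      set s : Perm {x // p x} := Equiv.swap ⟨x, hx⟩ ⟨z, hz⟩ with hsw
      have e1 : resW p (w ∘ ⇑(Equiv.swap x z)) = resW p w ∘ ⇑(s⁻¹ : Perm _) := by
        funext t
        simp only [resW, Function.comp_apply, hsw, Equiv.swap_inv]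
        congr 1
        rw [Equiv.swap_apply_def, Equiv.swap_apply_def]
        simp only [Subtype.ext_iff]
        split_ifs <;> rfl
      have e2 : (r0 m (resW p i) (resW p j) ∘ ⇑(a⁻¹ : Perm _)) ∘ ⇑s =
          r0 m (resW p i) (resW p j) ∘ ⇑(a⁻¹ : Perm _) := by
        funext t
        rw [Function.comp_apply, hsw]
        refine Equiv.apply_swap_eq_self ?_ t
        rw [← hk1, ← hk1]
        omega
      rw [e1, ← wordRep_single, htA, theta_equiv, Finsupp.smul_apply, H328.wordRep_apply', e2, hsw,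
        Perm.sign_swap hne]
      simp

theorem TSup.peel (hG : GKStmt) {m : ℕ} (hm : 2 ≤ m) {i j : X → ℕ} (hs : IsStair m i j)
    {σ σ' : Perm ℕ} (hσ : ∀ a, m - 2 ≤ a → σ a = a) (hσ' : ∀ a, m - 2 ≤ a → σ' a = a)
    (ν ν2 : YoungDiagram) (hν : ν.card = m * (m + 1) / 2) (hle : ν2 ≤ ν)
    (hν2 : ν2.card = (m - 2) * (m - 1) / 2) (hcol : ∀ k, ν.colLen k ≤ ν2.colLen k + 4)
    (ih : ∀ (Y : Type) [Fintype Y] [DecidableEq Y] (i' j' : Y → ℕ), IsStair (m - 2) i' j' →
      TSup (m - 2) i' j' σ σ' ν2) : TSup m i j (σ * cyc2 m hm) σ' ν := by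
  classical
  let p : X → Prop := fun x => m ≤ i x + j x + 2
  have hp : ∀ x, p x ↔ m ≤ i x + j x + 2 := fun x => Iff.rfl
  obtain ⟨b₂, Q₂, hgood, ⟨rl₂, cl₂, hlab₂, F₂, hF₂, hocc₂⟩, h1, h2⟩ :=
    ih {x // ¬ p x} _ _ (hs.low p hp)
  set S : Finset (ℕ × ℕ) := ν.cells \ ν2.cells with hSdef
  have hScard : S.card = 2 * m - 1 := by
    rw [hSdef, Finset.card_sdiff_of_subset hle]
    change ν.card - ν2.card = _
    rw [hν, hν2]
    obtain ⟨k, rfl⟩ := Nat.exists_eq_add_of_le hm
    have h1 : (2 + k) * (2 + k + 1) = (2 + k - 2) * (2 + k - 1) + 2 * (2 * k + 3) := by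
      simp only [Nat.add_sub_cancel_left]
      have : 2 + k - 1 = k + 1 := by omega
      rw [this]
      ring
    rw [h1, Nat.add_mul_div_left _ _ (by norm_num)]
    omega
  have hSmem : ∀ c : ℕ × ℕ, c ∈ S ↔ c.1 < ν.colLen c.2 ∧ ν2.colLen c.2 ≤ c.1 := by
    intro c
    rw [hSdef, Finset.mem_sdiff, YoungDiagram.mem_cells, YoungDiagram.mem_cells,
      ← YoungDiagram.mem_iff_lt_colLen, ← not_lt, ← YoungDiagram.mem_iff_lt_colLen]
  have hS : ∀ c ∈ S, ∀ c' ∈ S, c.2 = c'.2 → c.1 % 4 = c'.1 % 4 → c = c' := by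
    intro c hc c' hc' h2 h4
    rw [hSmem] at hc hc'
    have h := hcol c.2
    rw [← h2] at hc'
    refine Prod.ext ?_ h2
    omega
  obtain ⟨rlA, clA, hlabA, y, hy, hyne⟩ := exists_kernel (m := m) (by omega) (hs.top p hp) S
    hScard hS
  obtain ⟨Q, hQ, hmemQ⟩ := peel_good hm hs p hp y b₂ Q₂ hgood
  obtain ⟨rl, cl, hl, e1, e2, e3, e4, hin, hout⟩ :=
    N197.exists_glue p (fun d hd => (Finset.mem_sdiff.1 hd).2) hlabA hlab₂
  rw [Finset.sdiff_union_of_subset hle] at hl
  refine ⟨_, Q, hQ, ⟨rl, cl, hl, _, hmemQ F₂ hF₂, ?_⟩, sb_peel hm hs p hp y b₂ hσ h1,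
    sb_peel_theta hG hm hs p hp y b₂ hσ' h2⟩
  refine occ_glue p ν ν2 hle rl cl hl ?_ _ _ ?_ ?_ ?_
  · intro x
    exact ⟨hout x, fun h hx => (Finset.mem_sdiff.mp (hin x hx)).2 h⟩
  · intro ρ hρ g
    rw [e1] at hρ
    simp only [Fn, map_mul, Module.End.mul_apply]
    exact kform_invariant y ρ (hy ρ hρ) _ _
  · rw [e2]
    exact hyne
  · rw [e3, e4]
    exact hocc₂

theorem TSup_all (hG : GKStmt) (m : ℕ) : ∀ ν : YoungDiagram, ν.card = m * (m + 1) / 2 →
    ∃ σ σ' : Perm ℕ, (∀ a, m ≤ a → σ a = a) ∧ (∀ a, m ≤ a → σ' a = a) ∧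
      ∀ (X : Type) [Fintype X] [DecidableEq X] (i j : X → ℕ), IsStair m i j →
        TSup m i j σ σ' ν := by
  induction m using Nat.strong_induction_on with
  | _ m ih =>
    intro ν hν
    rcases Nat.lt_or_ge m 2 with hm | hm
    · refine ⟨1, 1, fun _ _ => rfl, fun _ _ => rfl, fun X _ _ i j hs => ?_⟩
      obtain ⟨b, Q, hQ, h⟩ := T_base (by omega) hs ν hν
      exact ⟨b, Q, hQ, h, sb_small (by omega) hs _, sb_small (by omega) hs _⟩
    · have e : m - 2 + 1 = m - 1 := by omega
      have hfix : ∀ σ : Perm ℕ, (∀ a, m - 2 ≤ a → σ a = a) → ∀ a, m ≤ a →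
          (σ * cyc2 m hm) a = a := by
        intro σ hσ a ha
        rw [Perm.mul_apply, cyc2_apply, if_neg (by omega), if_neg (by omega), hσ a (by omega)]
      rcases Saxl.exists_sub m hm ν hν with ⟨ν2, h1, h2, h3⟩ | ⟨ν2, h1, h2, h3⟩
      · obtain ⟨σ, σ', hσ, hσ', h⟩ := ih (m - 2) (by omega) ν2 (by rw [e]; exact h2)
        exact ⟨σ * cyc2 m hm, σ', hfix σ hσ, fun a ha => hσ' a (by omega),
          fun X _ _ i j hs => TSup.peel hG hm hs hσ hσ' ν ν2 hν h1 h2 h3 h⟩
      · have hν' : ν.transpose.card = m * (m + 1) / 2 := by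
          rw [← hν]
          exact Saxl.card_transpose ν
        obtain ⟨σ, σ', hσ, hσ', h⟩ := ih (m - 2) (by omega) ν2 (by rw [e]; exact h2)
        refine ⟨σ', σ * cyc2 m hm, fun a ha => hσ' a (by omega), hfix σ hσ,
          fun X _ _ i j hs => ?_⟩
        have := (TSup.peel hG hm hs hσ hσ' ν.transpose ν2 hν' h1 h2 h3 h).flip hs
        rwa [YoungDiagram.transpose_transpose] at this

theorem dsStmt (hG : GKStmt) : DSStmt := by
  intro k mu hmu
  obtain ⟨σ, σ', hσ, -, h⟩ := TSup_all hG k mu hmu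
  refine ⟨σ, hσ, fun X _ _ i j hs => ?_⟩
  obtain ⟨b, Q, hQ, ⟨rl, cl, hl, hF⟩, ⟨y, hy, hb⟩, -⟩ := h X i j hs
  obtain ⟨g, hg⟩ := exists_gen_of_occ hQ rl cl hF
  refine ⟨rl, cl, hl, y, fun u u' h x => (hy u u' h x).2, g, ?_⟩
  obtain ⟨τ, hτ⟩ := Conj.exists_swap hs
  have e : Fn (kform y) (wordRep X g (e0 k i j)) (wordRep X g (e1 k i j)) =
      Fn b (wordRep X g (e0 k i j)) (wordRep X g (e1 k i j)) := by
    funext h
    unfold Fn
    rw [hτ, wordRep_mul, wordRep_mul, wordRep_mul, hb]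
  rw [e]
  exact hg

end

end Vale.Agent.N197T
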