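import Vale.Agent.N197T.SSpec

/-!
# The strip rule: one pair of words, and the exchange of rows and columns
-/

namespace Vale.Agent.N197T

open Equiv Finset Vale.Agent.P197 Vale.Agent.P197.H369

namespace Flip

variable {X : Type} [Fintype X] [DecidableEq X]

omit [Fintype X] [DecidableEq X] in
theorem rep_apply (g : Perm X) (v : WM X) (w : X → ℕ) : wordRep X g v w = v (w ∘ ⇑g) := by
  have hinj : Function.Injective (fun u : X → ℕ => u ∘ ⇑(g⁻¹ : Perm X)) := by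
    intro u u' h
    funext x
    have := congrFun h (g x)
    simpa using this
  have h1 : w = (fun u : X → ℕ => u ∘ ⇑(g⁻¹ : Perm X)) (w ∘ ⇑g) := by
    funext x
    simp
  conv_lhs => rw [h1]
  exact Finsupp.mapDomain_apply hinj v _

theorem polyt_apply (c r u : X → ℕ) : polyt c r u =
    ∑ π ∈ (stab c).filter fun π => r ∘ ⇑(π⁻¹ : Perm X) = u, ((Perm.sign π : ℤ) : ℂ) := by
  rw [polyt, Finsupp.finsetSum_apply, sum_filter]
  refine sum_congr rfl fun π _ => ?_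
  rw [Finsupp.smul_apply, Finsupp.single_apply, smul_eq_mul, mul_ite, mul_one, mul_zero]

theorem sgn_sq (g : Perm X) : ((Perm.sign g : ℤ) : ℂ) * ((Perm.sign g : ℤ) : ℂ) = 1 := by
  rcases Int.units_eq_one_or (Perm.sign g) with h | h <;> simp [h]

theorem polyt_flip (c r : X → ℕ) (g s : Perm X) :
    polyt (r ∘ g) (c ∘ g) (c ∘ s) = ((Perm.sign s : ℤ) : ℂ) * ((Perm.sign g : ℤ) : ℂ) *
      polyt c r ((r ∘ g) ∘ ⇑(s⁻¹ : Perm X)) := by
  rw [polyt_apply, polyt_apply, mul_sum]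
  refine sum_bij' (fun ρ _ => s * ρ * g⁻¹) (fun π _ => s⁻¹ * π * g) ?_ ?_ ?_ ?_ ?_
  · intro ρ hρ
    simp only [mem_filter, mem_stab] at hρ ⊢
    refine ⟨fun x => ?_, funext fun x => ?_⟩
    · simpa using (congrFun hρ.2 (ρ (g⁻¹ x))).symm
    · simpa using (hρ.1 (ρ⁻¹ (s⁻¹ x))).symm
  · intro π hπ
    simp only [mem_filter, mem_stab] at hπ ⊢
    refine ⟨fun x => ?_, funext fun x => ?_⟩
    · simpa using (congrFun hπ.2 (π (g x))).symm
    · simpa using (hπ.1 (π⁻¹ (s x))).symm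
  · intro ρ _
    group
  · intro π _
    group
  · intro ρ _
    rw [Perm.sign_mul, Perm.sign_mul, Perm.sign_inv]
    push_cast
    have h1 := sgn_sq s
    have h2 := sgn_sq g
    linear_combination (-((Perm.sign ρ : ℤ) : ℂ)) * h1 -
      ((Perm.sign s : ℤ) : ℂ) * ((Perm.sign s : ℤ) : ℂ) * ((Perm.sign ρ : ℤ) : ℂ) * h2

theorem cf_flip (c r : X → ℕ) (g t h : Perm X) :
    cf (r ∘ g) (c ∘ g) ((c ∘ g) ∘ ⇑(g⁻¹ * t⁻¹)) h =
      ((Perm.sign (t⁻¹ * h) : ℤ) : ℂ) * ((Perm.sign g : ℤ) : ℂ) * cf c r (r ∘ g) (h⁻¹ * t) := by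
  have h1 : ((c ∘ g) ∘ ⇑(g⁻¹ * t⁻¹)) ∘ ⇑h = c ∘ ⇑(t⁻¹ * h) := by
    funext x
    simp
  rw [cf, cf, rep_apply, rep_apply, h1, polyt_flip, mul_inv_rev, inv_inv]

omit [Fintype X] [DecidableEq X] in
theorem kform_eq (y : (X → ℕ) → (X → ℕ) → ℂ) (v w : WM X) (U U' : Finset (X → ℕ))
    (hv : v.support ⊆ U) (hw : w.support ⊆ U') :
    kform y v w = ∑ u ∈ U, ∑ u' ∈ U', y u u' * (v u * w u') := by
  rw [kform, Finsupp.linearCombination_apply, Finsupp.sum_of_support_subset _ hv _ (by simp),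
    LinearMap.sum_apply]
  refine sum_congr rfl fun u _ => ?_
  rw [LinearMap.smul_apply, Finsupp.linearCombination_apply,
    Finsupp.sum_of_support_subset _ hw _ (by simp), smul_sum]
  refine sum_congr rfl fun u' _ => ?_
  simp only [smul_eq_mul]
  ring

theorem supp_rep (c r : X → ℕ) (h : Perm X) :
    (wordRep X h (polyt c r)).support ⊆ univ.image fun g : Perm X => r ∘ ⇑g := by
  intro u hu
  rw [Finsupp.mem_support_iff, rep_apply, polyt_apply] at hu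
  obtain ⟨π, hπ, -⟩ := exists_ne_zero_of_sum_ne_zero hu
  refine mem_image.2 ⟨π⁻¹ * h⁻¹, mem_univ _, funext fun x => ?_⟩
  simpa using congrFun (mem_filter.1 hπ).2 (h⁻¹ x)

theorem occ_sum {ι : Type} (rl cl : X → ℕ) (s : Finset ι) (F : ι → Perm X → ℂ) :
    occ rl cl (fun h => ∑ i ∈ s, F i h) = ∑ i ∈ s, occ rl cl (F i) := by
  simp only [occ, mul_sum]
  rw [sum_comm (s := s)]
  exact sum_congr rfl fun ρ _ => sum_comm

theorem occ_mul (rl cl : X → ℕ) (a : ℂ) (F : Perm X → ℂ) :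
    occ rl cl (fun h => a * F h) = a * occ rl cl F := by
  simp only [occ, mul_sum]
  exact sum_congr rfl fun ρ _ => sum_congr rfl fun π _ => by ring

theorem sum_inv (f : X → ℕ) (F : Perm X → ℂ) : ∑ π ∈ stab f, F π⁻¹ = ∑ π ∈ stab f, F π :=
  sum_bij' (fun π _ => π⁻¹) (fun π _ => π⁻¹) (fun _ h => inv_mem_stab' h)
    (fun _ h => inv_mem_stab' h) (fun _ _ => inv_inv _) (fun _ _ => inv_inv _) fun _ _ => rfl

theorem exists_flip (rl cl : X → ℕ) (F : Perm X → ℂ) (h : occ rl cl F ≠ 0) :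
    ∃ k t : Perm X, occ (rl ∘ k) (cl ∘ k) (fun h => F (h⁻¹ * t)) ≠ 0 := by
  by_contra hc
  have hc' : ∀ k t : Perm X, ∑ ρ ∈ stab (rl ∘ k), ∑ π ∈ stab (cl ∘ k),
      ((Perm.sign π : ℤ) : ℂ) * F (π * ρ * t) = 0 := by
    intro k t
    have h1 : occ (rl ∘ k) (cl ∘ k) (fun h => F (h⁻¹ * t)) = 0 :=
      not_not.1 fun h1 => hc ⟨k, t, h1⟩
    rw [← h1, occ, ← sum_inv]
    refine sum_congr rfl fun ρ _ => ?_
    rw [← sum_inv]
    refine sum_congr rfl fun π _ => ?_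
    rw [Perm.sign_inv, mul_inv_rev]
  let Q : Submodule ℤ (Perm X → ℂ) :=
    { carrier := {G | ∀ k t : Perm X, ∑ ρ ∈ stab (rl ∘ k), ∑ π ∈ stab (cl ∘ k),
        ((Perm.sign π : ℤ) : ℂ) * G (π * ρ * t) = 0}
      add_mem' := fun {G G'} h1 h2 k t => by
        simp only [Pi.add_apply, mul_add, sum_add_distrib]
        rw [h1 k t, h2 k t, add_zero]
      zero_mem' := fun k t => by simp
      smul_mem' := fun a G h1 k t => by
        have h2 := congrArg (fun z => (a : ℂ) * z) (h1 k t)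
        simp only [mul_sum, mul_zero] at h2
        rw [← h2]
        refine sum_congr rfl fun ρ _ => sum_congr rfl fun π _ => ?_
        rw [Pi.smul_apply, zsmul_eq_mul]
        ring }
  obtain ⟨g, G, hG, h1⟩ := occ_flip Q (fun g G hG k t => by
    have h2 := hG k (t * g)
    simpa only [mul_assoc] using h2) rl cl ⟨F, hc', h⟩
  have h2 := hG g 1
  simp only [mul_one] at h2
  exact h1 h2

omit [Fintype X] [DecidableEq X] in
theorem lab_flip {P : ℕ → ℕ → Prop} {r c : X → ℕ} (h : Lab P r c) (g : Perm X) :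
    Lab (fun a b => P b a) (c ∘ g) (r ∘ g) :=
  ⟨fun x => h.mem (g x), fun x y h1 h2 => g.injective (h.inj _ _ h2 h1), fun a b hab => by
    obtain ⟨x, h1, h2⟩ := h.surj b a hab
    exact ⟨g⁻¹ x, by simpa using h2, by simpa using h1⟩⟩

omit [Fintype X] [DecidableEq X] in
theorem label_comp {S : Finset (ℕ × ℕ)} {r c : X → ℕ} (h : IsLabel S r c) (g : Perm X) :
    IsLabel S (r ∘ g) (c ∘ g) :=
  ⟨fun x => h.mem (g x), fun x y h1 h2 => g.injective (h.inj _ _ h1 h2), fun a ha => by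
    obtain ⟨x, h1, h2⟩ := h.surj a ha
    exact ⟨g⁻¹ x, by simpa using h1, by simpa using h2⟩⟩

end Flip

open Flip in
theorem keStmt : KEStmt := by
  intro X _ _ rl cl c r c' r' y h
  have h1 : Fn (kform y) (polyt c r) (polyt c' r') = fun h =>
      ∑ u ∈ univ.image fun g : Perm X => r ∘ ⇑g, ∑ u' ∈ univ.image fun g : Perm X => r' ∘ ⇑g,
        y u u' * (cf c r u h * cf c' r' u' h) :=
    funext fun h => kform_eq y _ _ _ _ (supp_rep c r h) (supp_rep c' r' h)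
  rw [h1, occ_sum] at h
  obtain ⟨u, hu, h2⟩ := exists_ne_zero_of_sum_ne_zero h
  rw [occ_sum] at h2
  obtain ⟨u', hu', h3⟩ := exists_ne_zero_of_sum_ne_zero h2
  rw [occ_mul] at h3
  obtain ⟨g, -, rfl⟩ := mem_image.1 hu
  obtain ⟨g', -, rfl⟩ := mem_image.1 hu'
  exact ⟨g, g', left_ne_zero_of_mul h3, right_ne_zero_of_mul h3⟩

open Flip in
theorem flStmt : FLStmt := by
  intro S P src al hC X _ _ hX
  obtain ⟨c, r, c', r', l1, l2, hs, rl, cl, hl, g, g', ha, ho⟩ := hC X hX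
  obtain ⟨k, t, h1⟩ := exists_flip rl cl _ ho
  refine ⟨r ∘ g, c ∘ g, r' ∘ g', c' ∘ g', lab_flip l1 g, lab_flip l2 g', ha, rl ∘ k, cl ∘ k,
    label_comp hl k, g⁻¹ * t⁻¹, g'⁻¹ * t⁻¹, fun x => by simpa using hs (t⁻¹ x), ?_⟩
  have h2 : (fun h => cf (r ∘ g) (c ∘ g) ((c ∘ g) ∘ ⇑(g⁻¹ * t⁻¹)) h *
      cf (r' ∘ g') (c' ∘ g') ((c' ∘ g') ∘ ⇑(g'⁻¹ * t⁻¹)) h) = fun h =>
      (((Perm.sign g : ℤ) : ℂ) * ((Perm.sign g' : ℤ) : ℂ)) *
        (cf c r (r ∘ g) (h⁻¹ * t) * cf c' r' (r' ∘ g') (h⁻¹ * t)) := by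
    funext h
    rw [cf_flip, cf_flip]
    linear_combination (((Perm.sign g : ℤ) : ℂ) * ((Perm.sign g' : ℤ) : ℂ)) *
      (cf c r (r ∘ g) (h⁻¹ * t) * cf c' r' (r' ∘ g') (h⁻¹ * t)) * sgn_sq (t⁻¹ * h)
  rw [h2, occ_mul]
  exact mul_ne_zero (mul_ne_zero (left_ne_zero_of_mul_eq_one (sgn_sq g))
    (left_ne_zero_of_mul_eq_one (sgn_sq g'))) h1

end Vale.Agent.N197T
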