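import Vale.Agent.N197T.SOne

/-!
# Contraction of a staircase polytabloid with two columns
-/

namespace Vale.Agent.N197T.Gk

open Equiv Finset Vale.Agent.P197 Vale.Agent.P197.H369 Vale.Agent.P197.Conj

noncomputable section

variable {X : Type} [Fintype X] [DecidableEq X]

omit [Fintype X] in
theorem comp_swap_eq (w : X → ℕ) {a b : X} (h : w a = w b) : w ∘ ⇑(Equiv.swap a b) = w :=
  funext fun t => Equiv.apply_swap_eq_self h t

omit [Fintype X] in
/-- The Garnir relation for a function on words. -/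
theorem garnir (E : (X → ℕ) → ℂ) (Z : Finset X) (x : X) (hx : x ∉ Z)
    (hA : ∀ y ∈ Z, ∀ z ∈ Z, y ≠ z → ∀ w, E (w ∘ ⇑(Equiv.swap y z)) = - E w)
    (hB : ∀ w, E w ≠ 0 → w x < Z.card ∧ ∀ y ∈ Z, w y < Z.card) (w : X → ℕ) :
    E w = ∑ z ∈ Z, E (w ∘ ⇑(Equiv.swap x z)) := by
  have rep : ∀ (u : X → ℕ), ∀ y ∈ Z, ∀ z ∈ Z, y ≠ z → u y = u z → E u = 0 := by
    intro u y hy z hz hyz h
    have h1 := hA y hy z hz hyz u
    rw [comp_swap_eq u h] at h1
    linear_combination h1 / 2
  have ne : ∀ z ∈ Z, z ≠ x := fun z hz h => hx (h ▸ hz)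
  by_cases h1 : ∃ y ∈ Z, w x = w y
  · obtain ⟨y, hy, hxy⟩ := h1
    rw [Finset.sum_eq_single y, comp_swap_eq w hxy]
    · intro z hz hzy
      refine rep _ z hz y hy hzy ?_
      rw [Function.comp_apply, Function.comp_apply, Equiv.swap_apply_right,
        Equiv.swap_apply_of_ne_of_ne (ne y hy) hzy.symm, hxy]
    · intro h
      exact absurd hy h
  by_cases h2 : ∃ y ∈ Z, ∃ z ∈ Z, y ≠ z ∧ w y = w z
  · obtain ⟨y, hy, z, hz, hyz, h⟩ := h2
    rw [rep w y hy z hz hyz h, Finset.sum_eq_add_of_mem y z hy hz hyz]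
    · have e : w ∘ ⇑(Equiv.swap x z) = (w ∘ ⇑(Equiv.swap x y)) ∘ ⇑(Equiv.swap y z) := by
        funext t
        have := ne y hy
        have := ne z hz
        simp only [Function.comp_apply, Equiv.swap_apply_def]
        split_ifs <;> simp_all
      rw [e, hA y hy z hz hyz, add_neg_cancel]
    · intro t ht hne
      refine rep _ y hy z hz hyz ?_
      rw [Function.comp_apply, Function.comp_apply,
        Equiv.swap_apply_of_ne_of_ne (ne y hy) hne.1.symm,
        Equiv.swap_apply_of_ne_of_ne (ne z hz) hne.2.symm, h]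
  push Not at h1 h2
  have big : ∃ t ∈ insert x Z, Z.card ≤ w t := by
    by_contra hc
    push Not at hc
    have h3 : (insert x Z).card ≤ (range Z.card).card := by
      refine Finset.card_le_card_of_injOn w (fun t ht => Finset.mem_coe.2 (mem_range.2
        (hc t (Finset.mem_coe.1 ht)))) ?_
      intro a ha b hb hab
      by_contra hne
      rcases Finset.mem_insert.1 (Finset.mem_coe.1 ha) with rfl | ha' <;>
        rcases Finset.mem_insert.1 (Finset.mem_coe.1 hb) with rfl | hb'
      · exact hne rfl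
      · exact h1 b hb' hab
      · exact h1 a ha' hab.symm
      · exact h2 a ha' b hb' hne hab
    rw [Finset.card_insert_of_notMem hx, Finset.card_range] at h3
    omega
  obtain ⟨t, ht, hbig⟩ := big
  have zero : ∀ u : X → ℕ, (∃ s ∈ insert x Z, Z.card ≤ u s) → E u = 0 := by
    rintro u ⟨s, hs, hle⟩
    by_contra hne
    obtain ⟨h3, h4⟩ := hB u hne
    rcases Finset.mem_insert.1 hs with rfl | hs'
    · omega
    · have := h4 s hs'
      omega
  rw [zero w ⟨t, ht, hbig⟩]
  refine (Finset.sum_eq_zero fun z hz => zero _ ⟨Equiv.swap x z t, ?_, ?_⟩).symm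
  · rw [Equiv.swap_apply_def]
    split_ifs
    · exact Finset.mem_insert_of_mem hz
    · exact Finset.mem_insert_self _ _
    · exact ht
  · rw [Function.comp_apply, Equiv.swap_apply_self]
    exact hbig

/-- The Garnir relation for a polytabloid. -/
theorem garnir_polyt (c r : X → ℕ) (a : ℕ) (x : X) (hx : c x ≠ a)
    (hr : ∀ y, c y = a ∨ c y = c x → r y < (univ.filter fun z => c z = a).card) :
    polyt c r = ∑ z ∈ univ.filter (fun z => c z = a), wordRep X (Equiv.swap x z) (polyt c r) := by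
  ext w
  rw [Finsupp.finsetSum_apply]
  simp only [H328.wordRep_apply']
  refine garnir (fun u => polyt c r u) _ x (by simpa using hx) ?_ ?_ w
  · intro y hy z hz hyz u
    have h1 : Equiv.swap y z ∈ stab c := mem_stab.2 fun t => Equiv.apply_swap_eq_self
      ((Finset.mem_filter.1 hy).2.trans (Finset.mem_filter.1 hz).2.symm) t
    have h2 := wordRep_mul_polyt 1 _ c r h1
    rw [one_mul, map_one, Perm.sign_swap hyz] at h2
    rw [← H328.wordRep_apply', h2]
    simp
  · intro u hu
    unfold polyt at hu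
    rw [Finsupp.finsetSum_apply] at hu
    obtain ⟨π, hπ, hne⟩ := Finset.exists_ne_zero_of_sum_ne_zero hu
    have h1 : r ∘ ⇑(π⁻¹ : Perm X) = u := by
      by_contra hc
      apply hne
      rw [Finsupp.smul_apply, Finsupp.single_eq_of_ne (Ne.symm hc), smul_zero]
    have h2 := mem_stab.1 (inv_mem_stab hπ)
    rw [← h1]
    exact ⟨hr _ (Or.inr (h2 x)), fun y hy => hr _ (Or.inl ((h2 y).trans
      (Finset.mem_filter.1 hy).2))⟩

/-- The induction on the number of points of `Z` which are not sent into `S`. -/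
theorem induct (Ψ : Perm X → ℂ) (G : Perm X → Prop) (Z S : Finset X) (hc : Z.card = S.card)
    (hA : ∀ a ∈ S, ∀ b ∈ S, a ≠ b → ∀ g, Ψ (Equiv.swap a b * g) = - Ψ g)
    (hG : ∀ g, G g → ∀ x, x ∉ Z → g x ∈ S → ∀ z ∈ Z, G (g * Equiv.swap x z))
    (hR : ∀ g, G g → ∀ x, x ∉ Z → g x ∈ S → Ψ g = ∑ z ∈ Z, Ψ (g * Equiv.swap x z))
    (h0 : ∀ g, G g → (∀ x, g x ∈ S ↔ x ∈ Z) → Ψ g = 0) :
    ∀ (n : ℕ) (g : Perm X), G g → (Z.filter fun z => g z ∉ S).card = n → Ψ g = 0 := by
  intro n
  induction n using Nat.strong_induction_on with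
  | _ n ih =>
    intro g hg hn
    by_cases hx : ∃ x, x ∉ Z ∧ g x ∈ S
    · obtain ⟨x, hxZ, hxS⟩ := hx
      have h1 := hR g hg x hxZ hxS
      have h2 : ∀ z ∈ Z, Ψ (g * Equiv.swap x z) = if g z ∈ S then - Ψ g else 0 := by
        intro z hz
        have hne : x ≠ z := fun h => hxZ (h ▸ hz)
        split_ifs with h
        · rw [Equiv.mul_swap_eq_swap_mul]
          exact hA _ hxS _ h (g.injective.ne hne) g
        · refine ih _ ?_ _ (hG g hg x hxZ hxS z hz) rfl
          rw [← hn]
          refine Finset.card_lt_card ⟨fun t ht => ?_, fun hsub => ?_⟩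
          · rw [Finset.mem_filter] at ht ⊢
            refine ⟨ht.1, ?_⟩
            by_cases htz : t = z
            · rw [htz]
              exact h
            · have h3 := ht.2
              rwa [Perm.mul_apply,
                Equiv.swap_apply_of_ne_of_ne (fun h' : t = x => hxZ (h' ▸ ht.1)) htz] at h3
          · have h3 := (Finset.mem_filter.1 (hsub (Finset.mem_filter.2 ⟨hz, h⟩))).2
            rw [Perm.mul_apply, Equiv.swap_apply_right] at h3
            exact h3 hxS
      rw [Finset.sum_congr rfl h2, ← Finset.sum_filter, Finset.sum_const, nsmul_eq_mul] at h1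
      have h3 : (((Z.filter fun z => g z ∈ S).card + 1 : ℕ) : ℂ) * Ψ g = 0 := by
        push_cast
        linear_combination h1
      exact (mul_eq_zero.1 h3).resolve_left (Nat.cast_ne_zero.2 (Nat.succ_ne_zero _))
    · push Not at hx
      refine h0 g hg fun x => ⟨fun h => by_contra fun h' => hx x h' h, fun h => ?_⟩
      have h1 : S ⊆ Z.image g := by
        intro s hs
        refine Finset.mem_image.2 ⟨g⁻¹ s, ?_, by simp⟩
        by_contra h'
        exact hx _ h' (by simpa using hs)
      have h2 := Finset.eq_of_subset_of_card_le h1 (by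
        rw [Finset.card_image_of_injective _ g.injective, hc])
      rw [h2]
      exact Finset.mem_image_of_mem _ h

omit [DecidableEq X] in
theorem card_col {m : ℕ} {i j : X → ℕ} (hs : IsStair m i j) (t : ℕ) :
    (univ.filter fun x => j x = t).card = m - t := by
  have h : IsLab (fun a => m - a) j i (r0 m i j) := by
    refine ⟨fun x => ?_, fun x y h1 h2 => (stair_rev hs).inj _ _ h2 h1, fun a b hab => ?_⟩
    · have := r0_add hs x
      omega
    · obtain ⟨x, h1, h2⟩ := (stair_rev hs).surj b a (by omega)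
      exact ⟨x, h2, h1⟩
  exact h.card_row t

theorem gk : GKStmt := by
  intro X _ _ m i j hs hm p _ S0 S1 h0 h1 hd hp i' j' hs' Φ φ β hΦ hβ halt
  let Ψ : Perm X → ℂ := fun g => Φ (wordRep X g (e0 m i j))
  have alt : ∀ a b : X, a ≠ b → (a ∈ S0 ∧ b ∈ S0) ∨ (a ∈ S1 ∧ b ∈ S1) → ∀ g,
      Ψ (Equiv.swap a b * g) = - Ψ g := by
    intro a b hab hmem g
    have ha : p a := (hp a).2 (by tauto)
    have hb : p b := (hp b).2 (by tauto)
    have e : Φ.comp (wordRep X (Equiv.swap a b)) = - Φ := by
      refine Finsupp.lhom_ext' fun w => LinearMap.ext_ring ?_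
      simp only [LinearMap.comp_apply, Finsupp.lsingle_apply, LinearMap.neg_apply]
      rw [wordRep_single, hΦ, hΦ, Equiv.swap_inv, halt a b hab hmem w]
      have e1 : resW (fun x => ¬ p x) (w ∘ ⇑(Equiv.swap a b)) = resW (fun x => ¬ p x) w := by
        funext t
        simp only [resW, Function.comp_apply]
        rw [Equiv.swap_apply_of_ne_of_ne (fun h : t.1 = a => t.2 (h ▸ ha))
          (fun h : t.1 = b => t.2 (h ▸ hb))]
      rw [e1, neg_mul]
    simp only [Ψ]
    rw [← wordRep_mul]
    exact LinearMap.congr_fun e _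
  have rel : ∀ (a : ℕ) (x : X), a < j x → ∀ g, Ψ g = ∑ z ∈ univ.filter (fun z => j z = a),
      Ψ (g * Equiv.swap x z) := by
    intro a x hx g
    simp only [Ψ, ← wordRep_mul]
    rw [← map_sum, ← map_sum]
    congr 2
    refine garnir_polyt j _ a x (by omega) fun y hy => ?_
    rw [card_col hs]
    have := r0_add hs y
    omega
  intro g
  refine induct Ψ (fun _ => True) (univ.filter fun z => j z = 0) S0 (by rw [card_col hs]; omega)
    (fun a ha b hb hab => alt a b hab (Or.inl ⟨ha, hb⟩)) (fun _ _ _ _ _ _ _ => trivial) ?_ ?_ _ g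
    trivial rfl
  · intro g _ x hx _
    refine rel 0 x ?_ g
    simp only [Finset.mem_filter, Finset.mem_univ, true_and] at hx
    omega
  intro g _ hg
  simp only [Finset.mem_filter, Finset.mem_univ, true_and] at hg
  have hne0 : ∀ g : Perm X, (∀ x, g x ∈ S0 ↔ j x = 0) → ∀ x, g x ∈ S1 → j x ≠ 0 :=
    fun g hg x hx h => Finset.disjoint_left.1 hd ((hg x).2 h) hx
  refine induct Ψ (fun g => ∀ x, g x ∈ S0 ↔ j x = 0) (univ.filter fun z => j z = 1) S1
    (by rw [card_col hs]; omega) (fun a ha b hb hab => alt a b hab (Or.inr ⟨ha, hb⟩)) ?_ ?_ ?_ _ g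
    hg rfl
  · intro g hg x _ hxS z hz t
    have h2 := hne0 g hg x hxS
    have h3 := (Finset.mem_filter.1 hz).2
    rw [Perm.mul_apply, hg, Equiv.swap_apply_def]
    split_ifs with h4 h5
    · rw [h4]
      omega
    · rw [h5]
      omega
    · rfl
  · intro g hg x hx hxS
    refine rel 1 x ?_ g
    simp only [Finset.mem_filter, Finset.mem_univ, true_and] at hx
    have := hne0 g hg x hxS
    omega
  intro g hg hg'
  simp only [Finset.mem_filter, Finset.mem_univ, true_and] at hg'
  have hpg : ∀ x, p x ↔ j (g⁻¹ x) < 2 := by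
    intro x
    have h2 := hg (g⁻¹ x)
    have h3 := hg' (g⁻¹ x)
    rw [app_inv] at h2 h3
    rw [hp, h2, h3]
    omega
  simp only [Ψ]
  unfold e0
  rw [wordRep_polyt]
  set c := j ∘ ⇑(g⁻¹ : Perm X) with hc
  set r := r0 m i j ∘ ⇑(g⁻¹ : Perm X) with hr
  have hst : IsStair (m - 2) (resW (fun x => ¬ p x) r) (fun x => c x.1 - 2) := by
    refine ⟨fun x => ?_, fun x y h2 h3 => ?_, fun a b hab => ?_⟩
    · have := mt (hpg x.1).2 x.2
      have := r0_add hs (g⁻¹ x.1)
      simp only [resW, hc, hr, Function.comp_apply]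
      omega
    · have := mt (hpg x.1).2 x.2
      have := mt (hpg y.1).2 y.2
      simp only [resW, hc, hr, Function.comp_apply] at h2 h3
      exact Subtype.ext (g⁻¹.injective ((stair_rev hs).inj _ _ h2 (by omega)))
    · obtain ⟨x, h2, h3⟩ := (stair_rev hs).surj a (b + 2) (by omega)
      refine ⟨⟨g x, ?_⟩, ?_, ?_⟩
      · rw [hpg, inv_app]
        omega
      · simp only [resW, hr, Function.comp_apply, inv_app]
        exact h2
      · simp only [hc, Function.comp_apply, inv_app]
        omega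
  obtain ⟨κ, hκ1, hκ2⟩ := exists_perm hst (stair_rev hs')
  have hB : β (polyt (resW (fun x => ¬ p x) c) (resW (fun x => ¬ p x) r)) = 0 := by
    rw [← hβ κ⁻¹]
    unfold e0
    rw [wordRep_polyt, inv_inv]
    have e1 : r0 (m - 2) i' j' ∘ ⇑κ = resW (fun x => ¬ p x) r := funext hκ1
    have e2 : stab (j' ∘ ⇑κ) = stab (resW (fun x => ¬ p x) c) := by
      refine N197.stab_congr fun x y => ?_
      have := mt (hpg x.1).2 x.2
      have := mt (hpg y.1).2 y.2
      simp only [Function.comp_apply, hκ2, resW, hc]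
      omega
    unfold polyt
    rw [e1, e2]
  unfold polyt at hB ⊢
  rw [map_sum] at hB ⊢
  rw [N197.sum_stab_split p c fun x y h => by
    rw [hpg, hpg]
    simp only [hc, Function.comp_apply] at h
    rw [h]]
  refine Finset.sum_eq_zero fun a _ => ?_
  have e : ∀ b : Perm {x // ¬ p x}, Φ (((Perm.sign (Perm.subtypeCongr a b) : ℤ) : ℂ) •
      Finsupp.single (r ∘ ⇑((Perm.subtypeCongr a b)⁻¹ : Perm X)) (1 : ℂ)) =
      (((Perm.sign a : ℤ) : ℂ) * φ (resW p r ∘ ⇑(a⁻¹ : Perm _))) *
        β (((Perm.sign b : ℤ) : ℂ) •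
          Finsupp.single (resW (fun x => ¬ p x) r ∘ ⇑(b⁻¹ : Perm _)) (1 : ℂ)) := by
    intro b
    rw [map_smul, map_smul, hΦ, subtypeCongr_inv, N197.resW_left, N197.resW_right,
      Perm.sign_subtypeCongr, smul_eq_mul, smul_eq_mul]
    push_cast
    ring
  rw [Finset.sum_congr rfl fun b _ => e b, ← Finset.mul_sum, hB, mul_zero]

end

end Vale.Agent.N197T.Gk
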