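import Vale.Agent.N197T.SOne

/-!
# A pair of rows is put on top
-/

namespace Vale.Agent.N197T

open Equiv Finset Vale.Agent.P197 Vale.Agent.P197.H369

noncomputable section

namespace Pair

variable {X : Type} [Fintype X] [DecidableEq X]

open Classical in
/-- The indicator function of one word. -/
def ind {Y : Type} (u : Y → ℕ) : (Y → ℕ) → ℂ := fun w => if w = u then 1 else 0

theorem cf_lin (c r u : X → ℕ) (h : Perm X) :
    cf c r u h = lin (ind u) (wordRep X h (polyt c r)) := by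
  have e : ind u = fun w : X → ℕ =>
      (Finsupp.lapply u : WM X →ₗ[ℂ] ℂ) (Finsupp.single w 1) := by
    funext w
    rw [Finsupp.lapply_apply]
    unfold ind
    by_cases hw : w = u
    · rw [if_pos hw, hw, Finsupp.single_eq_same]
    · rw [if_neg hw, Finsupp.single_eq_of_ne' hw]
  rw [e, lin_eq]
  rfl

omit [DecidableEq X] in
theorem ind_pf (s : ℕ) (p : X → Prop) [DecidablePred p] (u : X → ℕ) (hu : ∀ x, p x ↔ u x < s) :
    ind u = pf s p (ind (resW p u)) (ind fun x : {x // ¬ p x} => u x.1 - s) := by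
  funext w
  unfold pf ind
  by_cases hw : w = u
  · subst hw
    rw [if_pos rfl, if_pos hu, if_pos rfl, if_pos rfl, mul_one]
  · rw [if_neg hw]
    by_cases h1 : ∀ x, p x ↔ w x < s
    · rw [if_pos h1]
      by_cases h2 : resW p w = resW p u
      · rw [if_neg (c := (fun x : {x // ¬ p x} => w x.1 - s) = _), mul_zero]
        intro h3
        apply hw
        funext x
        by_cases hx : p x
        · exact congrFun h2 ⟨x, hx⟩
        · have h4 : w x - s = u x - s := congrFun h3 ⟨x, hx⟩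
          have h5 := (h1 x).not.1 hx
          have h6 := (hu x).not.1 hx
          omega
      · rw [if_neg h2, zero_mul]
    · rw [if_neg h1]

omit [Fintype X] [DecidableEq X] in
theorem word_lt (s : ℕ) (p : X → Prop) [DecidablePred p] (r : X → ℕ) (hr : ∀ x, p x ↔ r x < s)
    (a : Perm {x // p x}) (b : Perm {x // ¬ p x}) (x : X) :
    p x ↔ (r ∘ ⇑(Perm.subtypeCongr a b)) x < s := by
  rw [Function.comp_apply, ← hr, subtypeCongr_preserve p]

theorem cf_pres (s : ℕ) (p : X → Prop) [DecidablePred p] (c r : X → ℕ)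
    (hr : ∀ x, p x ↔ r x < s) (a : Perm {x // p x}) (b : Perm {x // ¬ p x}) (h : Perm X)
    (hne : cf c r (r ∘ ⇑(Perm.subtypeCongr a b)) h ≠ 0) :
    ∃ π ∈ stab c, ∀ x, p ((h * π) x) ↔ p x := by
  by_contra hc
  apply hne
  rw [cf_lin, ind_pf s p _ (word_lt s p r hr a b)]
  exact pf_zero s p _ _ c r hr h fun π hπ h1 => hc ⟨π, hπ, h1⟩

theorem cf_factor (s : ℕ) (p : X → Prop) [DecidablePred p] (c r : X → ℕ)
    (hr : ∀ x, p x ↔ r x < s) (a a' : Perm {x // p x}) (b b' : Perm {x // ¬ p x}) :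
    cf c r (r ∘ ⇑(Perm.subtypeCongr a b)) (Perm.subtypeCongr a' b') =
      cf (resW p c) (resW p r) (resW p r ∘ ⇑a) a' *
        cf (resW (fun x => ¬ p x) c) (fun x => r x.1 - s)
          ((fun x : {x // ¬ p x} => r x.1 - s) ∘ ⇑b) b' := by
  have e : (fun x : {x // ¬ p x} => (r ∘ ⇑(Perm.subtypeCongr a b)) x.1 - s) =
      (fun x : {x // ¬ p x} => r x.1 - s) ∘ ⇑b := by
    funext x
    rw [Function.comp_apply, Function.comp_apply, Perm.subtypeCongr.right_apply _ _ x.2]
  rw [cf_lin, ind_pf s p _ (word_lt s p r hr a b), pf_factor s p _ _ c r hr, cf_lin, cf_lin,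
    N197.resW_left, e]

/-- Two functions glued along `p`. -/
def glue (p : X → Prop) [DecidablePred p] (f : {x // p x} → ℕ) (g : {x // ¬ p x} → ℕ) : X → ℕ :=
  fun x => if h : p x then f ⟨x, h⟩ else g ⟨x, h⟩

omit [Fintype X] [DecidableEq X] in
theorem glue_pos {p : X → Prop} [DecidablePred p] (f : {x // p x} → ℕ) (g : {x // ¬ p x} → ℕ)
    {x : X} (h : p x) : glue p f g x = f ⟨x, h⟩ := dif_pos h

omit [Fintype X] [DecidableEq X] in
theorem glue_neg {p : X → Prop} [DecidablePred p] (f : {x // p x} → ℕ) (g : {x // ¬ p x} → ℕ)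
    {x : X} (h : ¬ p x) : glue p f g x = g ⟨x, h⟩ := dif_neg h

omit [Fintype X] [DecidableEq X] in
theorem res_glue (p : X → Prop) [DecidablePred p] (f : {x // p x} → ℕ) (g : {x // ¬ p x} → ℕ) :
    resW p (glue p f g) = f := funext fun x => glue_pos f g x.2

omit [Fintype X] [DecidableEq X] in
theorem res_glue' (p : X → Prop) [DecidablePred p] (f : {x // p x} → ℕ) (g : {x // ¬ p x} → ℕ) :
    resW (fun x => ¬ p x) (glue p f g) = g := funext fun x => glue_neg f g x.2

omit [Fintype X] [DecidableEq X] in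
theorem sub_glue (p : X → Prop) [DecidablePred p] (f : {x // p x} → ℕ) (g : {x // ¬ p x} → ℕ) :
    (fun x : {x // ¬ p x} => glue p f (fun y => g y + 2) x.1 - 2) = g := by
  funext x
  rw [glue_neg _ _ x.2, Nat.add_sub_cancel]

theorem row2_lt {B e a b : ℕ} (h : Row2 B e a b) : a < 2 := by
  rcases h with h | h <;> omega

omit [Fintype X] [DecidableEq X] in
theorem glue_lt {p : X → Prop} [DecidablePred p] {B e : ℕ} {rA cA : {x // p x} → ℕ}
    (hA : Lab (Row2 B e) rA cA) (rB : {x // ¬ p x} → ℕ) (x : X) :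
    p x ↔ glue p rA (fun y => rB y + 2) x < 2 := by
  by_cases hx : p x
  · rw [glue_pos _ _ hx]
    exact ⟨fun _ => row2_lt (hA.mem _), fun _ => hx⟩
  · rw [glue_neg _ _ hx]
    exact ⟨fun h => absurd h hx, fun h => by omega⟩

omit [Fintype X] [DecidableEq X] in
theorem lab_glue {p : X → Prop} [DecidablePred p] {B e : ℕ} {P : ℕ → ℕ → Prop}
    {rA cA : {x // p x} → ℕ} {rB cB : {x // ¬ p x} → ℕ} (hA : Lab (Row2 B e) rA cA)
    (hB : Lab P rB cB) :
    Lab (fun a b => Row2 B e a b ∨ (2 ≤ a ∧ P (a - 2) b)) (glue p rA fun y => rB y + 2)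
      (glue p cA cB) := by
  refine ⟨?_, ?_, ?_⟩
  · intro x
    by_cases hx : p x
    · rw [glue_pos _ _ hx, glue_pos _ _ hx]
      exact Or.inl (hA.mem _)
    · rw [glue_neg _ _ hx, glue_neg _ _ hx]
      exact Or.inr ⟨by omega, by rw [Nat.add_sub_cancel]; exact hB.mem _⟩
  · intro x y h1 h2
    have h3 := glue_lt hA rB x
    have h4 := glue_lt hA rB y
    by_cases hx : p x
    · have hy : p y := h4.2 (h1 ▸ h3.1 hx)
      rw [glue_pos _ _ hx, glue_pos _ _ hy] at h1 h2
      exact congrArg Subtype.val (hA.inj _ _ h1 h2)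
    · have hy : ¬ p y := fun hy => hx (h3.2 (h1 ▸ h4.1 hy))
      rw [glue_neg _ _ hx, glue_neg _ _ hy] at h1 h2
      exact congrArg Subtype.val (hB.inj _ _ (Nat.add_right_cancel h1) h2)
  · rintro a b (h | ⟨h1, h2⟩)
    · obtain ⟨x, h3, h4⟩ := hA.surj a b h
      exact ⟨x.1, by rw [glue_pos _ _ x.2, ← h3], by rw [glue_pos _ _ x.2, ← h4]⟩
    · obtain ⟨x, h3, h4⟩ := hB.surj _ _ h2
      refine ⟨x.1, ?_, by rw [glue_neg _ _ x.2, ← h4]⟩
      rw [glue_neg _ _ x.2]
      have : rB ⟨x.1, x.2⟩ = a - 2 := h3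
      omega

theorem occ_split (p : X → Prop) [DecidablePred p] (rl cl : X → ℕ) (bd : ℕ → ℕ)
    (hB : ∀ x, ¬ p x ↔ rl x < bd (cl x)) (W : Perm X → ℂ) (WA : Perm {x // p x} → ℂ)
    (WB : Perm {x // ¬ p x} → ℂ) (hW0 : ∀ g, W g ≠ 0 → ∀ x, p (g x) ↔ p x)
    (hWm : ∀ a b, W (Perm.subtypeCongr a b) = WA a * WB b) :
    occ rl cl W = occ (resW p rl) (resW p cl) WA *
      occ (resW (fun x => ¬ p x) rl) (resW (fun x => ¬ p x) cl) WB := by
  have key := occ_factor p rl cl bd hB W WA WB hW0 hWm 1 1 1 1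
  have hone : (Perm.subtypeCongr (1 : Perm {x // p x}) (1 : Perm {x // ¬ p x})) = 1 := by
    ext x
    by_cases hx : p x
    · rw [Perm.subtypeCongr.left_apply _ _ hx]
      rfl
    · rw [Perm.subtypeCongr.right_apply _ _ hx]
      rfl
  rw [hone] at key
  simp only [inv_one, one_mul, mul_one] at key
  exact key

omit [DecidableEq X] in
theorem exists_pred (n : ℕ) (hn : n ≤ Fintype.card X) :
    ∃ p : X → Prop, ∀ [DecidablePred p], Fintype.card {x // p x} = n := by
  obtain ⟨T, -, hT⟩ := Finset.exists_subset_card_eq (s := (univ : Finset X)) (n := n)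
    (by rwa [Finset.card_univ])
  refine ⟨fun x => x ∈ T, ?_⟩
  intro _
  exact (@Fintype.card_of_subtype X (fun x => x ∈ T) T (fun _ => Iff.rfl) (_)).trans hT

end Pair

open Pair in
theorem plStmt (hT : TPStmt) (hK : KEStmt) : PLStmt := by
  intro S1 S2 bd P src al B e v N I J Z he hv hN hI hJ hS1 hS2 hc hM hZ hsrc hC X _ _ hX
  have hd : ∀ d ∈ S1, d ∉ S2 := fun d h1 h2 => by
    have := hS1 d h1
    have := hS2 d h2
    omega
  rw [Finset.card_union_of_disjoint (Finset.disjoint_left.2 hd)] at hX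
  obtain ⟨p, hp⟩ := exists_pred (X := X) S1.card (by omega)
  have : DecidablePred p := Classical.decPred p
  have cA0 : Fintype.card {x // p x} = S1.card := hp
  have cB0 : Fintype.card {x // ¬ p x} = S2.card := by
    rw [Fintype.card_subtype_compl, cA0]
    omega
  obtain ⟨rA, cA, cA', hA, hA', hlo, hup, rlA, clA, hlA, y, hy, hne⟩ :=
    hT {x // p x} B e v N I J he hv hN hI hJ S1 Z hc hM hZ cA0
  obtain ⟨gA, gA', -, hneA⟩ := hK _ rlA clA cA rA cA' rA y (N197.occ_of_kernel _ _ _ _ y hy hne)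
  obtain ⟨cB, rB, cB', rB', hB, hB', hs, rlB, clB, hlB, gB, gB', hal, hneB⟩ :=
    hC {x // ¬ p x} cB0
  obtain ⟨rl, cl, hl, e1, e2, e3, e4, hin, hout⟩ := N197.exists_glue p hd hlA hlB
  have hr := glue_lt hA rB
  have hr' := glue_lt hA rB'
  refine ⟨glue _ cA cB, glue _ rA fun y => rB y + 2, glue _ cA' cB', glue _ rA fun y => rB' y + 2,
    lab_glue hA hB, lab_glue hA' hB', ?_, rl, cl, hl, Perm.subtypeCongr gA gB,
    Perm.subtypeCongr gA' gB', ?_, ?_⟩
  · intro x h0
    by_cases hx : p x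
    · rw [glue_pos _ _ hx, glue_pos _ _ hx]
      exact hup h0 _
    · rw [glue_neg _ _ hx, glue_neg _ _ hx]
      have := hsrc _ _ (hs ⟨x, hx⟩)
      omega
  · intro x
    by_cases hx : p x
    · exact Or.inl ⟨(word_lt 2 _ _ hr gA gB x).1 hx, (word_lt 2 _ _ hr' gA' gB' x).1 hx⟩
    · rw [Perm.subtypeCongr.right_apply _ _ hx, Perm.subtypeCongr.right_apply _ _ hx,
        glue_neg _ _ (gB ⟨x, hx⟩).2, glue_neg _ _ (gB' ⟨x, hx⟩).2]
      refine Or.inr ⟨by omega, by omega, ?_⟩
      rw [Nat.add_sub_cancel, Nat.add_sub_cancel]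
      exact hal ⟨x, hx⟩
  · rw [occ_split p rl cl bd ?_ _
      (fun h => cf cA rA (rA ∘ gA) h * cf cA' rA (rA ∘ gA') h)
      (fun h => cf cB rB (rB ∘ gB) h * cf cB' rB' (rB' ∘ gB') h) ?_ ?_, e1, e2, e3, e4]
    · exact mul_ne_zero hneA hneB
    · intro x
      constructor
      · intro hx
        exact hS2 _ (hout x hx)
      · intro h hx
        have := hS1 _ (hin x hx)
        simp only at this
        omega
    · intro g hg
      obtain ⟨π, hπ, h1⟩ := cf_pres 2 _ _ _ hr gA gB g (left_ne_zero_of_mul hg)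
      obtain ⟨ρ, hρ, h2⟩ := cf_pres 2 _ _ _ hr' gA' gB' g (right_ne_zero_of_mul hg)
      refine pres_of_stab (m := B + 1 - v) (i := J ∘ glue _ cA' cB') (j := I ∘ glue _ cA cB)
        p ?_ g π ρ ?_ ?_ h1 h2
      · intro x
        rw [Function.comp_apply, Function.comp_apply]
        by_cases hx : p x
        · rw [glue_pos _ _ hx, glue_pos _ _ hx]
          have := hlo ⟨x, hx⟩
          exact ⟨fun _ => by omega, fun _ => hx⟩
        · rw [glue_neg _ _ hx, glue_neg _ _ hx]
          have := hsrc _ _ (hs ⟨x, hx⟩)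
          exact ⟨fun h => absurd h hx, fun h => by omega⟩
      · exact mem_stab.2 fun x => congrArg I (mem_stab.1 hπ x)
      · exact mem_stab.2 fun x => congrArg J (mem_stab.1 hρ x)
    · intro a b
      rw [cf_factor 2 _ _ _ hr, cf_factor 2 _ _ _ hr', res_glue, res_glue, res_glue, res_glue,
        res_glue', res_glue', sub_glue, sub_glue]
      ring

end

end Vale.Agent.N197T
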