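import Vale.Agent.N197T.SSpec

/-!
# The strip rule: the top pair of rows
-/

namespace Vale.Agent.N197T

open Equiv Finset Vale.Agent.P197 Vale.Agent.P197.H369

namespace TopPair

/-- Row, first and second column of the point number `k`; the first `s` points form the short
zigzag. -/
def tr (s k : ℕ) : ℕ := if k < s then k % 2 else (k - s) % 2

/-- First column. -/
def tj (B s v k : ℕ) : ℕ :=
  if k < s then (if k / 2 < v then B - 1 else B + 1)
  else (if (k - s) / 2 < B - v then (k - s) / 2 else B)

/-- Second column. -/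
def ti (B s v k : ℕ) : ℕ :=
  if k < s then (if v - (k + 1) / 2 < v then B - 1 else B + 1)
  else (if B - v - (k - s + 1) / 2 < B - v then B - v - (k - s + 1) / 2 else B)

theorem row2_symm {B e N : ℕ} {I : Perm ℕ} (hN : N ≤ B) (hI : ∀ a, N ≤ a → I a = a) (a b : ℕ) :
    Row2 B e a (I b) ↔ Row2 B e a b := by
  rcases Nat.lt_or_ge b N with h | h
  · have h1 : I b < N := by
      by_contra hc
      have h2 := I.injective (hI (I b) (by omega))
      omega
    unfold Row2
    omega
  · rw [hI b h]

theorem lab_symm {A : Type} {B e N : ℕ} {I : Perm ℕ} (hN : N ≤ B) (hI : ∀ a, N ≤ a → I a = a)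
    {r c : A → ℕ} (h : Lab (Row2 B e) r c) : Lab (Row2 B e) r fun x => I.symm (c x) := by
  refine ⟨fun x => ?_, fun x y h1 h2 => h.inj x y h1 (I.symm.injective h2), fun a b hab => ?_⟩
  · rw [← row2_symm hN hI, Equiv.apply_symm_apply]
    exact h.mem x
  · obtain ⟨x, h1, h2⟩ := h.surj a (I b) ((row2_symm hN hI a b).2 hab)
    exact ⟨x, h1, by rw [h2, Equiv.symm_apply_apply]⟩

theorem lab_j {A : Type} {B e v s : ℕ} (t : A ≃ Fin (2 * B + 1 + e))
    (h : (e = 0 ∧ v = 0 ∧ s = 0) ∨ (e = 1 ∧ v = 0 ∧ s = 1) ∨ (e = 1 ∧ v = 1 ∧ s = 3 ∧ 1 ≤ B)) :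
    Lab (Row2 B e) (fun x => tr s (t x)) fun x => tj B s v (t x) := by
  refine ⟨fun x => ?_, fun x y h1 h2 => t.injective (Fin.ext ?_), fun a b hab => ?_⟩
  · have := (t x).2
    unfold Row2 tr tj
    split_ifs <;> omega
  · have := (t x).2
    have := (t y).2
    unfold tr at h1
    unfold tj at h2
    split_ifs at h1 h2 <;> omega
  · unfold Row2 at hab
    refine ⟨t.symm ⟨if b < B - v then s + 2 * b + a else if b = B then 2 * B + e else
      if b < B then a else s - 1, by split_ifs <;> omega⟩, ?_, ?_⟩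
    · simp only [Equiv.apply_symm_apply, tr]
      split_ifs <;> omega
    · simp only [Equiv.apply_symm_apply, tj]
      split_ifs <;> omega

theorem lab_i {A : Type} {B e v s : ℕ} (t : A ≃ Fin (2 * B + 1 + e))
    (h : (e = 0 ∧ v = 0 ∧ s = 0) ∨ (e = 1 ∧ v = 0 ∧ s = 1) ∨ (e = 1 ∧ v = 1 ∧ s = 3 ∧ 1 ≤ B)) :
    Lab (Row2 B e) (fun x => tr s (t x)) fun x => ti B s v (t x) := by
  refine ⟨fun x => ?_, fun x y h1 h2 => t.injective (Fin.ext ?_), fun a b hab => ?_⟩
  · have := (t x).2
    unfold Row2 tr ti
    split_ifs <;> omega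
  · have := (t x).2
    have := (t y).2
    unfold tr at h1
    unfold ti at h2
    split_ifs at h1 h2 <;> omega
  · unfold Row2 at hab
    refine ⟨t.symm ⟨if b < B - v then s + 2 * (B - v - b) - a else if b = B then s else
      if b < B then 2 - a else 0, by split_ifs <;> omega⟩, ?_, ?_⟩
    · simp only [Equiv.apply_symm_apply, tr]
      split_ifs <;> omega
    · simp only [Equiv.apply_symm_apply, ti]
      split_ifs <;> omega

/-- A segment of `2 m - 1` consecutive numbers is a zigzag. -/
theorem seg {Y : Type} [Fintype Y] [DecidableEq Y] {m : ℕ} (hm : 1 ≤ m) (k : Y → ℕ)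
    (hk : Function.Injective k) (h1 : ∀ y, k y + 1 < 2 * m) (h2 : ∀ a, a + 1 < 2 * m → ∃ y, k y = a)
    {c c' r : Y → ℕ} (hc : ∀ x y, c x = c y ↔ k x / 2 = k y / 2)
    (hc' : ∀ x y, c' x = c' y ↔ (k x + 1) / 2 = (k y + 1) / 2) (hr : ∀ y, r y = k y % 2)
    (S : Finset (ℕ × ℕ)) (hcard : S.card = 2 * m - 1) (hS : Mod4 S) : SkewOcc c c' r S := by
  have hz : IsZig m (fun y => m - 1 - (k y + 1) / 2) fun y => k y / 2 := by
    refine ⟨fun y => ?_, fun y => ?_, fun x y e1 e2 => hk ?_, fun a b hab hab' => ?_⟩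
    · have := h1 y
      omega
    · have := h1 y
      omega
    · have := h1 x
      have := h1 y
      omega
    · obtain ⟨y, hy⟩ := h2 (2 * b + (m - 1 - a - b)) (by omega)
      exact ⟨y, by omega, by omega⟩
  refine N197.skewOcc_congr hc (fun x y => ?_) (skewOcc_four hm hz (funext fun y => ?_) S hcard hS)
  · have := h1 x
    have := h1 y
    rw [hc']
    omega
  · have := h1 y
    rw [hr]
    simp only [r0]
    omega

end TopPair

open TopPair in
theorem tpStmt : TPStmt := by
  intro A _ _ B e v N I J he hv hN hI hJ S Z hS h4 hZ hA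
  obtain ⟨s, hs⟩ : ∃ s, s = e * (2 * v + 1) := ⟨_, rfl⟩
  have h : (e = 0 ∧ v = 0 ∧ s = 0) ∨ (e = 1 ∧ v = 0 ∧ s = 1) ∨
      (e = 1 ∧ v = 1 ∧ s = 3 ∧ 1 ≤ B) := by
    obtain rfl | rfl : e = 0 ∨ e = 1 := by omega
    · omega
    · omega
  rw [← hs] at hZ
  let t : A ≃ Fin (2 * B + 1 + e) := Fintype.equivFinOfCardEq (hA.trans hS)
  refine ⟨fun x => tr s (t x), fun x => I.symm (tj B s v (t x)), fun x => J.symm (ti B s v (t x)),
    lab_symm (by omega) hI (lab_j t h), lab_symm (by omega) hJ (lab_i t h), fun x => ?_,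
    fun h0 x => ?_, ?_⟩
  · have := (t x).2
    simp only [Equiv.apply_symm_apply, tj, ti]
    split_ifs <;> omega
  · have := (t x).2
    simp only [Equiv.apply_symm_apply, tj, ti]
    split_ifs <;> omega
  refine N197.skewOcc_congr (d := fun x => tj B s v (t x)) (d' := fun x => ti B s v (t x))
    (fun x y => I.symm.injective.eq_iff) (fun x y => J.symm.injective.eq_iff) ?_
  have hcard := Finset.card_filter_add_card_filter_not (s := S) fun d => d.2 ∈ Z
  have hm : ∀ q : ℕ × ℕ → Prop, ∀ _ : DecidablePred q, Mod4 (S.filter q) :=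
    fun q _ d hd d' hd' => h4 d (Finset.mem_filter.1 hd).1 d' (Finset.mem_filter.1 hd').1
  rw [← Finset.filter_union_filter_not_eq (fun d => d.2 ∈ Z) S]
  refine N197.skewOcc_prod (fun x => (t x : ℕ) < s) _ _ _ (fun x y hxy => ?_) (fun x y hxy => ?_)
    (fun d hd d' hd' e => ?_) ?_ ?_
  · unfold tj at hxy
    split_ifs at hxy <;> omega
  · unfold ti at hxy
    split_ifs at hxy <;> omega
  · have h1 := (Finset.mem_filter.1 hd).2
    rw [e] at h1
    exact (Finset.mem_filter.1 hd').2 h1
  · rcases Nat.eq_zero_or_pos s with h0 | h0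
    · have hE : IsEmpty {x // (t x : ℕ) < s} := ⟨fun x => by have := x.2; omega⟩
      refine skewOcc_one _ _ _ (fun x => hE.elim x) (fun x => hE.elim x) _ ?_ fun d hd => ?_
      · rw [hZ, Fintype.card_eq_zero, h0]
      · rw [h0, Finset.card_eq_zero] at hZ
        rw [hZ] at hd
        exact absurd hd (Finset.notMem_empty _)
    · refine seg (m := v + 1) (by omega) (fun x => t x.1)
        (fun x y e => Subtype.ext (t.injective (Fin.ext e))) (fun y => ?_) (fun a ha => ?_)
        (fun x y => ?_) (fun x y => ?_) (fun y => ?_) _ (by omega) (hm _ _)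
      · have := y.2
        omega
      · exact ⟨⟨t.symm ⟨a, by omega⟩, by simp only [Equiv.apply_symm_apply]; omega⟩,
          by simp only [Equiv.apply_symm_apply]⟩
      · have := x.2
        have := y.2
        simp only [resW, tj]
        split_ifs <;> omega
      · have := x.2
        have := y.2
        simp only [resW, ti]
        split_ifs <;> omega
      · exact if_pos y.2
  · refine seg (m := B - v + 1) (by omega) (fun x => t x.1 - s)
      (fun x y e => Subtype.ext (t.injective (Fin.ext ?_))) (fun y => ?_) (fun a ha => ?_)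
      (fun x y => ?_) (fun x y => ?_) (fun y => ?_) _ (by omega) (hm _ _)
    · have := x.2
      have := y.2
      simp only at e
      omega
    · have := (t y.1).2
      omega
    · exact ⟨⟨t.symm ⟨a + s, by omega⟩, by simp only [Equiv.apply_symm_apply]; omega⟩,
        by simp only [Equiv.apply_symm_apply]; omega⟩
    · have := x.2
      have := y.2
      have := (t x.1).2
      have := (t y.1).2
      simp only [resW, tj]
      split_ifs <;> omega
    · have := x.2
      have := y.2
      have := (t x.1).2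
      have := (t y.1).2
      simp only [resW, ti]
      split_ifs <;> omega
    · exact if_neg y.2

end Vale.Agent.N197T
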