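import Vale.Agent.N197T.Asm
import Vale.Agent.N197T.Abs
import Vale.Agent.N197T.Move
import Vale.Agent.N197T.Enum
import Vale.Agent.N197T.Cover
import Vale.Agent.N197T.Small
import Vale.Agent.N197T.SGk
import Vale.Agent.N197T.SDs
import Vale.Agent.N197T.SFlip
import Vale.Agent.N197T.STop
import Vale.Agent.N197T.SPair
import Vale.Agent.N197T.SChain
import Vale.Agent.N197.Alt

/-!
# The tensor square conjecture
-/

namespace Vale.Agent.N197T

open Equiv Vale.Agent.P197

/-- For `n ≥ 3`, `n ≠ 4, 9`, some Specht module has a universal tensor square. -/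
theorem tensor_square (n : ℕ) (hn : 3 ≤ n) (h4 : n ≠ 4) (h9 : n ≠ 9) :
    ∃ lam : YoungDiagram, lam.card = n ∧
      ∀ nu : YoungDiagram, nu.card = n → 0 < kron n lam lam nu :=
  main_of kronStmt symStmt (stateStmt ofOccStmt) (moveStmt symStmt sumStmt (baseStmt symStmt))
    (s1 (dsStmt Gk.gk) keStmt flStmt (plStmt tpStmt keStmt) ofOccStmt)
    (s2 (dsStmt Gk.gk) keStmt flStmt (plStmt tpStmt keStmt) ofOccStmt)
    (coverStmt enumStmt twoStmt fourStmt) (smallStmt symStmt) n hn h4 h9

/-- The same without reference to Specht modules. -/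
theorem tensor_square_rep (n : ℕ) (hn : 3 ≤ n) (h4 : n ≠ 4) (h9 : n ≠ 9) :
    ∃ (V : Type) (_ : AddCommGroup V) (_ : Module ℂ V)
      (ρ : Representation ℂ (Perm (Fin n)) V), ρ.IsIrreducible ∧
      ∀ (W : Type) [AddCommGroup W] [Module ℂ W] (σ : Representation ℂ (Perm (Fin n)) W),
        σ.IsIrreducible → ∃ f : σ.IntertwiningMap (ρ.tprod ρ), Function.Injective f := by
  obtain ⟨lam, h1, h2⟩ := tensor_square n hn h4 h9
  refine ⟨spechtSub n lam, inferInstance, inferInstance, specht n lam,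
    H328.specht_irreducible lam h1, fun W _ _ σ hσ => ?_⟩
  obtain ⟨nu, hnu, ⟨φ⟩⟩ := H328.classification σ hσ
  obtain ⟨T, hT⟩ := N197.exists_injective_of_kron hnu (h2 nu hnu)
  exact ⟨T.comp φ.toIntertwiningMap, hT.comp φ.toLinearEquiv.injective⟩

end Vale.Agent.N197T
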