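import Vale.Agent.N197T.SFlip

/-!
# The strip rule: contraction with two columns (Garnir relations)
-/

namespace Vale.Agent.N197T

open Equiv Finset Vale.Agent.P197 Vale.Agent.P197.H369

namespace Gar

variable {X : Type} [Fintype X] [DecidableEq X]

omit [Fintype X] in
theorem comp_swap_eq {w : X → ℕ} {y z : X} (h : w y = w z) : w ∘ ⇑(swap y z) = w := by
  funext t
  rw [Function.comp_apply, swap_apply_def]
  split_ifs with h1 h2
  · rw [h1, h]
  · rw [h2, h]
  · rfl

omit [Fintype X] in
/-- The Garnir relation for a function on words. -/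
theorem garnir (E : (X → ℕ) → ℂ) (Z : Finset X) (x : X) (hx : x ∉ Z)
    (hs : ∀ y ∈ Z, ∀ z ∈ Z, y ≠ z → ∀ w : X → ℕ, E (w ∘ ⇑(swap y z)) = - E w)
    (hb : ∀ w : X → ℕ, E w ≠ 0 → ∀ y ∈ insert x Z, w y < Z.card) (w : X → ℕ) :
    E w = ∑ z ∈ Z, E (w ∘ ⇑(swap x z)) := by
  have h0 : ∀ (u : X → ℕ), ∀ y ∈ Z, ∀ z ∈ Z, y ≠ z → u y = u z → E u = 0 := by
    intro u y hy z hz hyz h
    have h1 := hs y hy z hz hyz u
    rw [comp_swap_eq h] at h1
    linear_combination (1 / 2 : ℂ) * h1
  have hne : ∀ y ∈ Z, y ≠ x := fun y hy h => hx (h ▸ hy)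
  by_cases h1 : ∃ y ∈ Z, w x = w y
  · obtain ⟨y, hy, hxy⟩ := h1
    rw [sum_eq_single_of_mem y hy, comp_swap_eq hxy]
    intro z hz hzy
    refine h0 _ y hy z hz hzy.symm ?_
    rw [Function.comp_apply, Function.comp_apply, swap_apply_right,
      swap_apply_of_ne_of_ne (hne y hy) hzy.symm, hxy]
  by_cases h2 : ∃ y ∈ Z, ∃ y' ∈ Z, y ≠ y' ∧ w y = w y'
  · obtain ⟨y, hy, y', hy', hyy, hw⟩ := h2
    rw [h0 w y hy y' hy' hyy hw, sum_eq_add_of_mem y y' hy hy' hyy]
    · have e : w ∘ ⇑(swap x y') = (w ∘ ⇑(swap x y)) ∘ ⇑(swap y y') := by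
        have e1 : swap x y * swap y y' = swap y y' * swap x y' := by
          rw [mul_swap_eq_swap_mul (swap y y') x y', swap_apply_right,
            swap_apply_of_ne_of_ne (hne y hy).symm (hne y' hy').symm]
        rw [Function.comp_assoc, ← Perm.coe_mul, e1, Perm.coe_mul, ← Function.comp_assoc,
          comp_swap_eq hw]
      rw [e, hs y hy y' hy' hyy, add_neg_cancel]
    · intro z hz hzy
      refine h0 _ y hy y' hy' hyy ?_
      rw [Function.comp_apply, Function.comp_apply,
        swap_apply_of_ne_of_ne (hne y hy) hzy.1.symm,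
        swap_apply_of_ne_of_ne (hne y' hy') hzy.2.symm, hw]
  have hinj : Set.InjOn w ↑(insert x Z) := by
    intro a ha b hb' hab
    rw [mem_coe, mem_insert] at ha hb'
    by_contra hc
    rcases ha with rfl | ha <;> rcases hb' with rfl | hb'
    · exact hc rfl
    · exact h1 ⟨b, hb', hab⟩
    · exact h1 ⟨a, ha, hab.symm⟩
    · exact h2 ⟨a, ha, b, hb', hc, hab⟩
  have h3 : ∀ z ∈ insert x Z, E (w ∘ ⇑(swap x z)) = 0 := by
    intro z hz
    by_contra hc
    have hm : ∀ a ∈ insert x Z, swap x z a ∈ insert x Z := by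
      intro a ha
      rw [swap_apply_def]
      split_ifs
      · exact hz
      · exact mem_insert_self _ _
      · exact ha
    have h4 : (insert x Z).card ≤ (range Z.card).card := by
      refine card_le_card_of_injOn (w ∘ ⇑(swap x z)) (fun a ha => ?_) ?_
      · exact mem_coe.2 (mem_range.2 (hb _ hc a ha))
      · intro a ha b hb' hab
        exact (swap x z).injective (hinj (hm a ha) (hm b hb') hab)
    rw [card_insert_of_notMem hx, card_range] at h4
    omega
  have h5 := h3 x (mem_insert_self _ _)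
  rw [swap_self, Equiv.coe_refl, Function.comp_id] at h5
  rw [h5, sum_eq_zero fun z hz => h3 z (mem_insert_of_mem hz)]

omit [Fintype X] in
/-- Moving a column onto a set on which the function alternates. -/
theorem reduce (Ψ : Perm X → ℂ) (C : Perm X → Prop) (Z S : Finset X) (hcard : Z.card = S.card)
    (hS : ∀ a ∈ S, ∀ b ∈ S, a ≠ b → ∀ g, Ψ (swap a b * g) = - Ψ g)
    (hG : ∀ g, C g → ∀ x, x ∉ Z → g x ∈ S →
      Ψ g = ∑ z ∈ Z, Ψ (g * swap x z) ∧ ∀ z ∈ Z, C (g * swap x z))
    (hbase : ∀ g, C g → (∀ z ∈ Z, g z ∈ S) → Ψ g = 0) (g : Perm X) (hg : C g) : Ψ g = 0 := by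
  have key : ∀ n, ∀ g, C g → (Z.filter fun z => g z ∉ S).card = n → Ψ g = 0 := by
    intro n
    induction n with
    | zero =>
      intro g hg h
      refine hbase g hg fun z hz => ?_
      by_contra hc
      rw [card_eq_zero, filter_eq_empty_iff] at h
      exact h hz hc
    | succ n ih =>
      intro g hg h
      obtain ⟨z0, hz0⟩ := (card_pos (s := Z.filter fun z => g z ∉ S)).1 (by omega)
      rw [mem_filter] at hz0
      have hex : ∃ x, x ∉ Z ∧ g x ∈ S := by
        by_contra hc
        have h1 : S.card ≤ (Z.erase z0).card := by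
          refine card_le_card_of_injOn (⇑(g⁻¹ : Perm X)) (fun a ha => ?_)
            (g⁻¹ : Perm X).injective.injOn
          have h2 : g (g⁻¹ a) ∈ S := by simpa using ha
          refine mem_coe.2 (mem_erase.2 ⟨fun h3 => hz0.2 (h3 ▸ h2), ?_⟩)
          by_contra h3
          exact hc ⟨_, h3, h2⟩
        have h2 := card_erase_lt_of_mem hz0.1
        omega
      obtain ⟨x, hx, hgx⟩ := hex
      obtain ⟨h1, h2⟩ := hG g hg x hx hgx
      have hne : ∀ y ∈ Z, y ≠ x := fun y hy h => hx (h ▸ hy)
      have h3 : ∀ z ∈ Z, Ψ (g * swap x z) = if g z ∈ S then - Ψ g else 0 := by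
        intro z hz
        split_ifs with h4
        · rw [mul_swap_eq_swap_mul]
          exact hS _ hgx _ h4 (fun h5 => hne z hz (g.injective h5).symm) g
        · refine ih _ (h2 z hz) ?_
          have e : (Z.filter fun y => (g * swap x z) y ∉ S) =
              (Z.filter fun y => g y ∉ S).erase z := by
            ext y
            rw [mem_erase, mem_filter, mem_filter, Perm.mul_apply]
            by_cases hy : y = z
            · rw [hy, swap_apply_right]
              exact ⟨fun h5 => absurd hgx h5.2, fun h5 => absurd rfl h5.1⟩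
            · constructor
              · rintro ⟨h5, h6⟩
                rw [swap_apply_of_ne_of_ne (hne y h5) hy] at h6
                exact ⟨hy, h5, h6⟩
              · rintro ⟨-, h5, h6⟩
                rw [swap_apply_of_ne_of_ne (hne y h5) hy]
                exact ⟨h5, h6⟩
          rw [e, card_erase_of_mem (mem_filter.2 ⟨hz, h4⟩), h, Nat.add_sub_cancel]
      rw [sum_congr rfl h3, ← sum_filter, sum_const, nsmul_eq_mul] at h1
      have h5 : (((Z.filter fun z => g z ∈ S).card : ℂ) + 1) * Ψ g = 0 := by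
        linear_combination h1
      exact (mul_eq_zero.1 h5).resolve_left (Nat.cast_add_one_ne_zero _)
  exact key _ g hg rfl

omit [DecidableEq X] in
theorem card_col {m : ℕ} {i j : X → ℕ} (hs : IsStair m i j) (t : ℕ) :
    (univ.filter fun y => j y = t).card = m - t := by
  rw [← card_range (m - t)]
  refine card_bij (fun y _ => i y) ?_ ?_ ?_
  · intro y hy
    have h1 := hs.lt y
    have h2 := (mem_filter.1 hy).2
    rw [mem_range]
    omega
  · intro y hy z hz h
    exact hs.inj y z h ((mem_filter.1 hy).2.trans (mem_filter.1 hz).2.symm)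
  · intro a ha
    rw [mem_range] at ha
    obtain ⟨y, h1, h2⟩ := hs.surj a t (by omega)
    exact ⟨y, mem_filter.2 ⟨mem_univ _, h2⟩, h1⟩

/-- The Garnir relation for the staircase polytabloid. -/
theorem garnir_e0 {m : ℕ} {i j : X → ℕ} (hs : IsStair m i j) (t : ℕ) (x : X) (hx : t < j x) :
    e0 m i j = ∑ z ∈ univ.filter fun y => j y = t, wordRep X (swap x z) (e0 m i j) := by
  ext w
  rw [Finsupp.finsetSum_apply, sum_congr rfl fun z _ => Flip.rep_apply (swap x z) (e0 m i j) w]
  refine garnir (fun u => e0 m i j u) _ x (fun h => ?_) ?_ ?_ w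
  · have := (mem_filter.1 h).2
    omega
  · intro y hy z hz hyz u
    have h1 : swap y z ∈ stab j := by
      rw [mem_stab]
      exact congrFun (comp_swap_eq ((mem_filter.1 hy).2.trans (mem_filter.1 hz).2.symm))
    have h2 := wordRep_mul_polyt 1 (swap y z) j (r0 m i j) h1
    rw [one_mul, map_one, Perm.sign_swap hyz] at h2
    show e0 m i j (u ∘ ⇑(swap y z)) = - e0 m i j u
    rw [← Flip.rep_apply, e0, h2]
    simp
  · intro u hu y hy
    have hu' : polyt j (r0 m i j) u ≠ 0 := hu
    rw [Flip.polyt_apply] at hu'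
    obtain ⟨π, hπ, -⟩ := exists_ne_zero_of_sum_ne_zero hu'
    rw [mem_filter] at hπ
    have h1 := mem_stab.1 (Conj.inv_mem_stab hπ.1) y
    have h2 := congrFun hπ.2 y
    have h3 := Conj.r0_add hs (π⁻¹ y)
    have h4 : t ≤ j y := by
      rcases mem_insert.1 hy with h | h
      · rw [h]
        exact hx.le
      · exact (mem_filter.1 h).2.ge
    rw [Function.comp_apply] at h2
    rw [card_col hs]
    omega

/-- The case in which the first two columns are exactly the part `p`. -/
theorem base {m : ℕ} {i j : X → ℕ} (hs : IsStair m i j) (p : X → Prop) [DecidablePred p]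
    (hp : ∀ x, p x ↔ j x < 2) {i' j' : {x // ¬ p x} → ℕ} (hs' : IsStair (m - 2) i' j')
    (Φ : WM X →ₗ[ℂ] ℂ) (φ : ({x // p x} → ℕ) → ℂ) (β : WM {x // ¬ p x} →ₗ[ℂ] ℂ)
    (hΦ : ∀ w : X → ℕ, Φ (Finsupp.single w 1) =
      φ (resW p w) * β (Finsupp.single (resW (fun x => ¬ p x) w) 1))
    (hβ : ∀ κ : Perm {x // ¬ p x}, β (wordRep _ κ (e0 (m - 2) i' j')) = 0) :
    Φ (e0 m i j) = 0 := by
  have h2 : ∀ x : {x // ¬ p x}, 2 ≤ j x.1 := fun x => not_lt.1 fun h => x.2 ((hp _).2 h)
  have hst : IsStair (m - 2) (resW (fun x => ¬ p x) i) (fun x => j x.1 - 2) := by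
    refine ⟨fun x => ?_, fun x y e1 e2 => ?_, fun a b hab => ?_⟩
    · have := h2 x
      have := hs.lt x.1
      show i x.1 + (j x.1 - 2) < m - 2
      omega
    · have := h2 x
      have := h2 y
      exact Subtype.ext (hs.inj _ _ e1 (by omega))
    · obtain ⟨x, e1, e2⟩ := hs.surj a (b + 2) (by omega)
      refine ⟨⟨x, fun h => ?_⟩, e1, ?_⟩
      · have := (hp x).1 h
        omega
      · show j x - 2 = b
        omega
  obtain ⟨σ, e1, e2⟩ := Conj.exists_perm hst hs'
  have hB : β (polyt (resW (fun x => ¬ p x) j) (resW (fun x => ¬ p x) (r0 m i j))) = 0 := by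
    have h3 := hβ σ⁻¹
    have e3 : r0 (m - 2) i' j' ∘ ⇑σ = resW (fun x => ¬ p x) (r0 m i j) := by
      funext x
      have := h2 x
      have h4 : i' (σ x) = i x.1 := e1 x
      have h5 := e2 x
      show m - 2 - 1 - i' (σ x) - j' (σ x) = m - 1 - i x.1 - j x.1
      omega
    have e4 : stab (j' ∘ ⇑σ) = stab (resW (fun x => ¬ p x) j) := by
      refine N197.stab_congr fun x y => ?_
      have := h2 x
      have := h2 y
      have := e2 x
      have := e2 y
      show j' (σ x) = j' (σ y) ↔ j x.1 = j y.1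
      omega
    rw [e0, wordRep_polyt, inv_inv, e3, polyt, e4] at h3
    exact h3
  rw [polyt, map_sum] at hB
  rw [e0, polyt, map_sum, N197.sum_stab_split p j fun x y h => by rw [hp, hp, h]]
  refine sum_eq_zero fun a _ => ?_
  rw [← mul_zero (((Perm.sign a : ℤ) : ℂ) * φ (resW p (r0 m i j) ∘ ⇑(a⁻¹ : Perm _))), ← hB,
    mul_sum]
  refine sum_congr rfl fun b _ => ?_
  rw [map_smul, map_smul, hΦ, subtypeCongr_inv, N197.resW_left, N197.resW_right,
    Perm.sign_subtypeCongr, smul_eq_mul, smul_eq_mul]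
  push_cast
  ring

end Gar

theorem gkStmt : GKStmt := by
  intro X _ _ m i j hs hm p _ S0 S1 c0 c1 hd hp i' j' hs' Φ φ β hΦ hβ hφ g
  have hL : ∀ a b : X, a ≠ b → (a ∈ S0 ∧ b ∈ S0) ∨ (a ∈ S1 ∧ b ∈ S1) → ∀ g : Perm X,
      Φ (wordRep X (swap a b * g) (e0 m i j)) = - Φ (wordRep X g (e0 m i j)) := by
    intro a b hab hmem g
    have ha : p a := (hp a).2 (hmem.imp And.left And.left)
    have hb : p b := (hp b).2 (hmem.imp And.right And.right)
    rw [map_mul, Module.End.mul_apply]
    generalize wordRep X g (e0 m i j) = v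
    induction v using Finsupp.induction_linear with
    | zero => simp
    | add v v' h h' => rw [map_add, map_add, map_add, h, h', neg_add]
    | single u c =>
      have e : Finsupp.single u c = c • Finsupp.single u (1 : ℂ) := by simp
      have e1 : resW (fun x => ¬ p x) (u ∘ ⇑(swap a b)) = resW (fun x => ¬ p x) u := by
        funext x
        show u (swap a b x.1) = u x.1
        have h1 : x.1 ≠ a := fun h => x.2 (by rw [h]; exact ha)
        have h2 : x.1 ≠ b := fun h => x.2 (by rw [h]; exact hb)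
        rw [swap_apply_of_ne_of_ne h1 h2]
      rw [e, map_smul, map_smul, map_smul, wordRep_single, swap_inv, hΦ, hΦ, hφ a b hab hmem, e1,
        neg_mul, smul_neg]
  have hR : ∀ (t : ℕ) (x : X), t < j x → ∀ g : Perm X, Φ (wordRep X g (e0 m i j)) =
      ∑ z ∈ univ.filter fun y => j y = t, Φ (wordRep X (g * swap x z) (e0 m i j)) := by
    intro t x hx g
    conv_lhs => rw [Gar.garnir_e0 hs t x hx, map_sum, map_sum]
    refine sum_congr rfl fun z _ => ?_
    rw [map_mul, Module.End.mul_apply]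
  have hon : ∀ (t : ℕ) (S : Finset X) (g : Perm X), S.card = m - t →
      (∀ z ∈ univ.filter fun y => j y = t, g z ∈ S) → ∀ x, g x ∈ S ↔ j x = t := by
    intro t S g hc h x
    refine ⟨fun hx => ?_, fun hx => h x (mem_filter.2 ⟨mem_univ _, hx⟩)⟩
    have e : (univ.filter fun y => j y = t).image g = S := by
      refine eq_of_subset_of_card_le (fun a ha => ?_) ?_
      · obtain ⟨y, hy, rfl⟩ := mem_image.1 ha
        exact h y hy
      · rw [card_image_of_injective _ g.injective, Gar.card_col hs, hc]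
    rw [← e] at hx
    obtain ⟨y, hy, e1⟩ := mem_image.1 hx
    rw [← g.injective e1]
    exact (mem_filter.1 hy).2
  refine Gar.reduce (fun g => Φ (wordRep X g (e0 m i j))) (fun _ => True)
    (univ.filter fun y => j y = 0) S0 (by rw [Gar.card_col hs, c0, Nat.sub_zero])
    (fun a ha b hb hab => hL a b hab (Or.inl ⟨ha, hb⟩)) ?_ ?_ g trivial
  · intro g _ x hx _
    refine ⟨hR 0 x (Nat.pos_of_ne_zero fun h => hx (mem_filter.2 ⟨mem_univ _, h⟩)) g,
      fun _ _ => trivial⟩
  intro g _ hg
  refine Gar.reduce (fun g => Φ (wordRep X g (e0 m i j))) (fun g => ∀ x, g x ∈ S0 ↔ j x = 0)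
    (univ.filter fun y => j y = 1) S1 (by rw [Gar.card_col hs]; omega)
    (fun a ha b hb hab => hL a b hab (Or.inr ⟨ha, hb⟩)) ?_ ?_ g
    (hon 0 S0 g (by omega) hg)
  · intro g hg x hx hgx
    have h0 : j x ≠ 0 := fun h => disjoint_left.1 hd ((hg x).2 h) hgx
    have h1 : j x ≠ 1 := fun h => hx (mem_filter.2 ⟨mem_univ _, h⟩)
    refine ⟨hR 1 x (by omega) g, fun z hz y => ?_⟩
    have h2 := (mem_filter.1 hz).2
    rw [Perm.mul_apply, hg, swap_apply_def]
    split_ifs with h3 h4
    · rw [h3]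
      omega
    · rw [h4]
      omega
    · rfl
  intro g hg0 hg
  have hg1 := hon 1 S1 g (by omega) hg
  have hst : IsStair m (i ∘ ⇑(g⁻¹ : Perm X)) (j ∘ ⇑(g⁻¹ : Perm X)) := by
    refine ⟨fun x => hs.lt _, fun x y e1 e2 => (g⁻¹ : Perm X).injective (hs.inj _ _ e1 e2),
      fun a b hab => ?_⟩
    obtain ⟨x, e1, e2⟩ := hs.surj a b hab
    exact ⟨g x, by simpa using e1, by simpa using e2⟩
  have h := Gar.base hst p (fun x => ?_) hs' Φ φ β hΦ hβ
  · show Φ (wordRep X g (polyt j (r0 m i j))) = 0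
    rw [wordRep_polyt]
    exact h
  · have e0 := hg0 (g⁻¹ x)
    have e1 := hg1 (g⁻¹ x)
    rw [app_inv] at e0 e1
    rw [hp, e0, e1, Function.comp_apply]
    omega

end Vale.Agent.N197T
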