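import Vale.Agent.N197T.SSpec

/-!
# Functionals of product form on translates of polytabloids
-/

namespace Vale.Agent.N197T

open Equiv Finset Vale.Agent.P197 Vale.Agent.P197.H369

noncomputable section

variable {X : Type} [Fintype X] [DecidableEq X]

/-- The linear extension of a function on words. -/
def lin {Y : Type} (ψ : (Y → ℕ) → ℂ) : WM Y →ₗ[ℂ] ℂ := Finsupp.linearCombination ℂ ψ

theorem lin_single {Y : Type} (ψ : (Y → ℕ) → ℂ) (u : Y → ℕ) : lin ψ (Finsupp.single u 1) = ψ u := by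
  simp [lin]

theorem lin_eq {Y : Type} (L : WM Y →ₗ[ℂ] ℂ) : lin (fun u => L (Finsupp.single u 1)) = L := by
  refine Finsupp.lhom_ext' fun u => LinearMap.ext_ring ?_
  simp only [LinearMap.comp_apply, Finsupp.lsingle_apply, lin_single]

theorem lin_polyt (ψ : (X → ℕ) → ℂ) (c r : X → ℕ) (h : Perm X) :
    lin ψ (wordRep X h (polyt c r)) =
      ∑ π ∈ stab c, ((Perm.sign π : ℤ) : ℂ) * ψ (r ∘ ⇑((h * π)⁻¹ : Perm X)) := by
  rw [wordRep_polyt_expand, map_sum]
  refine Finset.sum_congr rfl fun π _ => ?_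
  rw [map_smul, lin_single, smul_eq_mul]

/-- A product functional. -/
def pf (s : ℕ) (p : X → Prop) [DecidablePred p] (α : ({x // p x} → ℕ) → ℂ)
    (γ : ({x // ¬ p x} → ℕ) → ℂ) : (X → ℕ) → ℂ :=
  fun u => if ∀ x, p x ↔ u x < s then α (resW p u) * γ (fun x => u x.1 - s) else 0

theorem pf_zero (s : ℕ) (p : X → Prop) [DecidablePred p] (α : ({x // p x} → ℕ) → ℂ)
    (γ : ({x // ¬ p x} → ℕ) → ℂ) (c r : X → ℕ) (hr : ∀ x, p x ↔ r x < s) (h : Perm X)
    (hh : ∀ π ∈ stab c, ¬ ∀ x, p ((h * π) x) ↔ p x) :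
    lin (pf s p α γ) (wordRep X h (polyt c r)) = 0 := by
  rw [lin_polyt]
  refine Finset.sum_eq_zero fun π hπ => ?_
  unfold pf
  rw [if_neg fun h1 => hh π hπ (H369.pres_of_word hr h1), mul_zero]

theorem pf_factor (s : ℕ) (p : X → Prop) [DecidablePred p] (α : ({x // p x} → ℕ) → ℂ)
    (γ : ({x // ¬ p x} → ℕ) → ℂ) (c r : X → ℕ) (hr : ∀ x, p x ↔ r x < s)
    (a : Perm {x // p x}) (b : Perm {x // ¬ p x}) :
    lin (pf s p α γ) (wordRep X (Perm.subtypeCongr a b) (polyt c r)) =
      lin α (wordRep _ a (polyt (resW p c) (resW p r))) *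
        lin γ (wordRep _ b (polyt (resW (fun x => ¬ p x) c) (fun x => r x.1 - s))) := by
  rw [lin_polyt, lin_polyt, lin_polyt, sum_stab_block p c, Finset.sum_mul_sum]
  · refine Finset.sum_congr rfl fun a' _ => Finset.sum_congr rfl fun b' _ => ?_
    rw [← subtypeCongr_mul, subtypeCongr_inv]
    unfold pf
    rw [if_pos, N197.resW_left, Perm.sign_subtypeCongr]
    · have e : (fun x : {x // ¬ p x} => (r ∘ ⇑(Perm.subtypeCongr (a * a')⁻¹ (b * b')⁻¹)) x.1 - s) =
          (fun x : {x // ¬ p x} => r x.1 - s) ∘ ⇑((b * b')⁻¹ : Perm {x // ¬ p x}) := by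
        funext x
        rw [Function.comp_apply, Function.comp_apply, Perm.subtypeCongr.right_apply _ _ x.2]
      rw [e]
      push_cast
      ring
    · intro x
      rw [Function.comp_apply, ← hr, subtypeCongr_preserve p]
  · intro g hg
    unfold pf
    rw [if_neg, mul_zero]
    intro h1
    apply hg
    have h2 := (Pres.inv (subtypeCongr_preserve p a b)).mul (H369.pres_of_word hr h1)
    rwa [inv_mul_cancel_left] at h2

omit [Fintype X] [DecidableEq X] in
theorem exists_congr (p : X → Prop) [DecidablePred p] (h : Perm X) (H : ∀ x, p (h x) ↔ p x) :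
    ∃ (a : Perm {x // p x}) (b : Perm {x // ¬ p x}), h = Perm.subtypeCongr a b := by
  refine ⟨h.subtypePerm H, h.subtypePerm fun x => not_congr (H x), ?_⟩
  ext x
  by_cases hx : p x
  · rw [Perm.subtypeCongr.left_apply _ _ hx]
    rfl
  · rw [Perm.subtypeCongr.right_apply _ _ hx]
    rfl

theorem sum_univ_block {M : Type} [AddCommMonoid M] (p : X → Prop) [DecidablePred p]
    (F : Perm X → M) (hF : ∀ g, ¬ Pres p g → F g = 0) :
    ∑ g, F g = ∑ a : Perm {x // p x}, ∑ b : Perm {x // ¬ p x}, F (Perm.subtypeCongr a b) := by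
  have h1 := sum_stab_block p (fun _ => 0) F hF
  have e1 : stab (fun _ : X => 0) = univ := Finset.eq_univ_of_forall fun g => mem_stab.2 fun _ => rfl
  have e2 : stab (resW p fun _ : X => 0) = univ :=
    Finset.eq_univ_of_forall fun g => mem_stab.2 fun _ => rfl
  have e3 : stab (resW (fun x => ¬ p x) fun _ : X => 0) = univ :=
    Finset.eq_univ_of_forall fun g => mem_stab.2 fun _ => rfl
  rwa [e1, e2, e3] at h1

theorem lin_support {Y : Type} (L : WM Y →ₗ[ℂ] ℂ) (t : WM Y) (T : Finset (Y → ℕ))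
    (hT : t.support ⊆ T) : L t = ∑ u ∈ T, t u * L (Finsupp.single u 1) := by
  conv_lhs => rw [← Finsupp.sum_single t]
  rw [Finsupp.sum_of_support_subset _ hT _ (fun u _ => Finsupp.single_zero u), map_sum]
  refine Finset.sum_congr rfl fun u _ => ?_
  rw [← smul_eq_mul, ← map_smul, Finsupp.smul_single, smul_eq_mul, mul_one]

end

end Vale.Agent.N197T
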