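import Vale.Agent.N197T.Spec
import Vale.Agent.N197.Block

/-!
# The strip rule: definitions and statements of its parts
-/

namespace Vale.Agent.N197T

open Equiv Finset Vale.Agent.P197 Vale.Agent.P197.H369

noncomputable section

/-- `(r, c)` is a bijection from `X` onto the cells satisfying `P`. -/
structure Lab {X : Type} (P : ℕ → ℕ → Prop) (r c : X → ℕ) : Prop where
  mem : ∀ x, P (r x) (c x)
  inj : ∀ x y, r x = r y → c x = c y → x = y
  surj : ∀ a b, P a b → ∃ x, r x = a ∧ c x = b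

/-- The cells of two rows of lengths `B + 1 + e` and `B`. -/
def Row2 (B e a b : ℕ) : Prop := (a = 0 ∧ b < B + 1 + e) ∨ (a = 1 ∧ b < B)

/-- Cells in the same column have different rows modulo four. -/
def Mod4 (S : Finset (ℕ × ℕ)) : Prop :=
  ∀ d ∈ S, ∀ d' ∈ S, d.2 = d'.2 → d.1 % 4 = d'.1 % 4 → d = d'

/-- The coefficient of the word `u` in the translate of a polytabloid. -/
def cf {X : Type} [Fintype X] [DecidableEq X] (c r u : X → ℕ) (h : Perm X) : ℂ :=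
  wordRep X h (polyt c r) u

/-- Occurrence detected by one pair of words whose letters satisfy `al` at every point. -/
def DO {X : Type} [Fintype X] [DecidableEq X] (S : Finset (ℕ × ℕ)) (c r c' r' : X → ℕ)
    (al : ℕ → ℕ → Prop) : Prop :=
  ∃ rl cl : X → ℕ, IsLabel S rl cl ∧ ∃ g g' : Perm X, (∀ x, al (r (g x)) (r' (g' x))) ∧
    occ rl cl (fun h => cf c r (r ∘ g) h * cf c' r' (r' ∘ g') h) ≠ 0

/-- Two tableaux of shape `P` whose columns satisfy `src` at every point, with an occurrence of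
`S` detected by words satisfying `al`. -/
def Conf (S : Finset (ℕ × ℕ)) (P src al : ℕ → ℕ → Prop) : Prop :=
  ∀ (X : Type) [Fintype X] [DecidableEq X], Fintype.card X = S.card →
    ∃ c r c' r' : X → ℕ, Lab P r c ∧ Lab P r' c' ∧ (∀ x, src (c x) (c' x)) ∧ DO S c r c' r' al

/-- (GK) contraction with two columns -/
def GKStmt : Prop := ∀ (X : Type) [Fintype X] [DecidableEq X] (m : ℕ) (i j : X → ℕ),
  IsStair m i j → 2 ≤ m → ∀ (p : X → Prop) [DecidablePred p] (S0 S1 : Finset X),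
    S0.card = m → S1.card + 1 = m → Disjoint S0 S1 → (∀ x, p x ↔ x ∈ S0 ∨ x ∈ S1) →
    ∀ i' j' : {x // ¬ p x} → ℕ, IsStair (m - 2) i' j' →
    ∀ (Φ : WM X →ₗ[ℂ] ℂ) (φ : ({x // p x} → ℕ) → ℂ) (β : WM {x // ¬ p x} →ₗ[ℂ] ℂ),
      (∀ w : X → ℕ, Φ (Finsupp.single w 1) =
        φ (resW p w) * β (Finsupp.single (resW (fun x => ¬ p x) w) 1)) →
      (∀ κ : Perm {x // ¬ p x}, β (wordRep _ κ (e0 (m - 2) i' j')) = 0) →
      (∀ x y : X, x ≠ y → (x ∈ S0 ∧ y ∈ S0) ∨ (x ∈ S1 ∧ y ∈ S1) → ∀ w : X → ℕ,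
        φ (resW p (w ∘ ⇑(Equiv.swap x y))) = - φ (resW p w)) →
      ∀ g : Perm X, Φ (wordRep X g (e0 m i j)) = 0

/-- (DS) the staircase with a kernel of small support -/
def DSStmt : Prop := ∀ (k : ℕ) (mu : YoungDiagram), mu.card = k * (k + 1) / 2 →
  ∃ σ : Perm ℕ, (∀ a, k ≤ a → σ a = a) ∧
    ∀ (X : Type) [Fintype X] [DecidableEq X] (i j : X → ℕ), IsStair k i j →
      ∃ rl cl : X → ℕ, IsLabel mu.cells rl cl ∧ ∃ y : (X → ℕ) → (X → ℕ) → ℂ,
        (∀ u u', y u u' ≠ 0 → ∀ x, σ (u x) + u' x ≤ k) ∧ ∃ g : Perm X,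
          occ rl cl (Fn (kform y) (wordRep X g (e0 k i j)) (wordRep X g (e1 k i j))) ≠ 0

/-- (TP) the top pair of rows -/
def TPStmt : Prop := ∀ (A : Type) [Fintype A] [DecidableEq A] (B e v N : ℕ) (I J : Perm ℕ),
  e ≤ 1 → v ≤ e → N + v ≤ B → (∀ a, N ≤ a → I a = a) → (∀ a, N ≤ a → J a = a) →
  ∀ (S : Finset (ℕ × ℕ)) (Z : Finset ℕ), S.card = 2 * B + 1 + e → Mod4 S →
    (S.filter fun d => d.2 ∈ Z).card = e * (2 * v + 1) → Fintype.card A = S.card →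
    ∃ r c c' : A → ℕ, Lab (Row2 B e) r c ∧ Lab (Row2 B e) r c' ∧
      (∀ x, B ≤ I (c x) + J (c' x) + 1 + v) ∧ (e = 0 → ∀ x, I (c x) + J (c' x) ≤ B) ∧
      SkewOcc c c' r S

/-- (KE) from a kernel to one pair of words -/
def KEStmt : Prop := ∀ (X : Type) [Fintype X] [DecidableEq X] (rl cl c r c' r' : X → ℕ)
  (y : (X → ℕ) → (X → ℕ) → ℂ), occ rl cl (Fn (kform y) (polyt c r) (polyt c' r')) ≠ 0 →
    ∃ g g' : Perm X, y (r ∘ g) (r' ∘ g') ≠ 0 ∧
      occ rl cl (fun h => cf c r (r ∘ g) h * cf c' r' (r' ∘ g') h) ≠ 0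

/-- (FL) exchange of rows and columns -/
def FLStmt : Prop := ∀ (S : Finset (ℕ × ℕ)) (P src al : ℕ → ℕ → Prop),
  Conf S P src al → Conf S (fun a b => P b a) al src

/-- (PL) a pair of rows is put on top -/
def PLStmt : Prop := ∀ (S1 S2 : Finset (ℕ × ℕ)) (bd : ℕ → ℕ) (P src al : ℕ → ℕ → Prop)
  (B e v N : ℕ) (I J : Perm ℕ) (Z : Finset ℕ), e ≤ 1 → v ≤ e → N + v ≤ B →
    (∀ a, N ≤ a → I a = a) → (∀ a, N ≤ a → J a = a) →
    (∀ d ∈ S1, bd d.2 ≤ d.1) → (∀ d ∈ S2, d.1 < bd d.2) → S1.card = 2 * B + 1 + e → Mod4 S1 →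
    (S1.filter fun d => d.2 ∈ Z).card = e * (2 * v + 1) →
    (∀ a a', src a a' → I a + J a' + 2 + v ≤ B) → Conf S2 P src al →
    Conf (S1 ∪ S2) (fun a b => Row2 B e a b ∨ (2 ≤ a ∧ P (a - 2) b))
      (fun a a' => e = 0 → I a + J a' ≤ B)
      (fun a a' => (a < 2 ∧ a' < 2) ∨ (2 ≤ a ∧ 2 ≤ a' ∧ al (a - 2) (a' - 2)))

end

end Vale.Agent.N197T
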