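import Vale.Agent.N197.Kron

/-!
# The tensor square conjecture: definitions and block statements
-/

namespace Vale.Agent.N197T

open Equiv Finset Vale.Agent.P197 Vale.Agent.P197.H369

/-- Three tableaux of shapes `nu`, `lam`, `mu` on one set of points whose polynomial does not
vanish. -/
def Pos (lam mu nu : YoungDiagram) : Prop :=
  ∃ (X : Type) (_ : Fintype X) (_ : DecidableEq X) (r1 c1 r2 c2 r3 c3 : X → ℕ),
    IsLabel nu.cells r1 c1 ∧ IsLabel lam.cells r2 c2 ∧ IsLabel mu.cells r3 c3 ∧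
      N197.hw c1 r1 c2 r2 c3 r3 ≠ 0

/-- The excess of row `a` (and of column `a`) over the staircase. -/
def ex (q d e a : ℕ) : ℕ :=
  if a = 0 then q + d + e else if a = 1 then q + d else if a < 4 then q else 0

/-- `lam` is the staircase of size `K` with rows and columns `0, 1, 2, 3` prolonged by
`q + d + e, q + d, q, q` cells. -/
def IsState (lam : YoungDiagram) (K q d e : ℕ) : Prop :=
  ∀ a c, (a, c) ∈ lam ↔ (a + c < K + ex q d e a ∨ a + c < K + ex q d e c)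

/-- The size of a state. -/
def sz (K q d e : ℕ) : ℕ := K * (K + 1) / 2 + 8 * q + 4 * d + 2 * e

/-- The admissible parameters. -/
def Adm (K q d e : ℕ) : Prop :=
  4 ≤ K ∧ e ≤ 1 ∧ (e = 1 → 1 ≤ d) ∧ (q = 0 ∨ (3 ≤ q ∧ 8 ≤ K))

/-- The state has a universal tensor square. -/
def Univ (K q d e : ℕ) : Prop :=
  ∀ lam nu : YoungDiagram, IsState lam K q d e → nu.card = sz K q d e → Pos lam lam nu

/-- `x c ≤ 4` cells are taken from column `c < N`, in total `s`. -/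
def Strip (N : ℕ) (x : ℕ → ℕ) (s : ℕ) : Prop :=
  (∀ c, x c ≤ 4) ∧ ∑ c ∈ range N, x c = s

/-- Some column gives exactly one cell. -/
def Odd1 (N : ℕ) (x : ℕ → ℕ) : Prop := ∃ c, c < N ∧ x c = 1

/-- Some columns give together exactly three cells. -/
def Odd3 (N : ℕ) (x : ℕ → ℕ) : Prop := ∃ Z : Finset ℕ, Z ⊆ range N ∧ ∑ c ∈ Z, x c = 3

/-- Two strips, for the states with `q = 0`. -/
def Two (nu : YoungDiagram) (K d e : ℕ) : Prop :=
  ∃ x1 x2 : ℕ → ℕ, (∀ c, x1 c + x2 c ≤ nu.colLen c) ∧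
    Strip (nu.rowLen 0) x1 (2 * (K + d) - 1 + e) ∧ Strip (nu.rowLen 0) x2 (2 * (K + d) - 5 + e) ∧
    (e = 1 → (Odd1 (nu.rowLen 0) x1 ∨ (2 ≤ d ∧ Odd3 (nu.rowLen 0) x1)) ∧ Odd1 (nu.rowLen 0) x2)

/-- Four strips, for the states with `q ≥ 3`. -/
def Four (nu : YoungDiagram) (K q d e : ℕ) : Prop :=
  ∃ x1 x2 x3 x4 : ℕ → ℕ, (∀ c, x1 c + x2 c + x3 c + x4 c ≤ nu.colLen c) ∧
    Strip (nu.rowLen 0) x1 (2 * (K + q + d) - 1 + e) ∧ Strip (nu.rowLen 0) x2 (2 * (K + q) - 5) ∧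
    Strip (nu.rowLen 0) x3 (2 * (K + q + d) - 9 + e) ∧ Strip (nu.rowLen 0) x4 (2 * (K + q) - 13) ∧
    (e = 1 → Odd3 (nu.rowLen 0) x1 ∧ Odd1 (nu.rowLen 0) x3)

/-- The ways to write four rows of length three in both factors: multiplicities of the columns
of heights `1, 2, 3, 4` of the third diagram. -/
def L33 : List (ℕ × ℕ × ℕ × ℕ) :=
  [(12, 0, 0, 0), (8, 2, 0, 0), (8, 0, 0, 1), (6, 0, 2, 0), (4, 4, 0, 0), (4, 2, 0, 1),
    (2, 2, 2, 0), (4, 0, 0, 2), (2, 0, 2, 1), (0, 0, 4, 0),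
    (0, 6, 0, 0), (0, 4, 0, 1), (0, 2, 0, 2), (0, 0, 0, 3)]

/-- Two members of `L33` fit into the given numbers of columns. -/
def jump (m1 m2 m3 m4 : ℕ) : Bool :=
  L33.any fun x => L33.any fun y =>
    decide (x.1 + y.1 ≤ m1) && decide (x.2.1 + y.2.1 ≤ m2) && decide (x.2.2.1 + y.2.2.1 ≤ m3) &&
      decide (x.2.2.2 + y.2.2.2 ≤ m4)

/-- Two squares of `(2, 2)`. -/
def two2 (m2 m4 : ℕ) : Bool :=
  decide (2 ≤ m4) || (decide (2 ≤ m2) && decide (1 ≤ m4)) || decide (4 ≤ m2)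

/-- Two squares of `(3, 3)`. -/
def two3 (m1 m2 m3 m4 : ℕ) : Bool :=
  decide (4 ≤ m3) || (decide (2 ≤ m1) && decide (2 ≤ m3) && (decide (1 ≤ m4) || decide (2 ≤ m2)))

/-- The moves to a smaller state with the same `q`; `m1, ..., m4` are the numbers of columns of
heights `1, ..., 4`. -/
def topMove (d e m1 m2 m3 m4 : ℕ) : Bool :=
  if e = 0 then
    (decide (1 ≤ d) && decide (4 ≤ m1)) || (decide (2 ≤ d) && two2 m2 m4) ||
      (decide (3 ≤ d) && two3 m1 m2 m3 m4)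
  else
    decide (2 ≤ m1) || decide (2 ≤ m3) || (decide (1 ≤ m1) && decide (1 ≤ m2) && decide (1 ≤ m3)) ||
      (decide (3 ≤ d) && two2 m2 m4)

/-- All moves. -/
def movable (q d e m1 m2 m3 m4 : ℕ) : Bool :=
  topMove d e m1 m2 m3 m4 || (decide (3 ≤ q) && decide (d < 3) && jump m1 m2 m3 m4)

/-- The number of columns of height `i + 1`. -/
def mv (nu : YoungDiagram) (i : ℕ) : ℕ := nu.rowLen i - nu.rowLen (i + 1)

/-- The smaller states reached by the moves are universal. -/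
def Below (K q d e : ℕ) : Prop :=
  (∀ d' e', d' ≤ d → d ≤ d' + 3 → e' ≤ e → d' + e' < d + e → (e' = 1 → 1 ≤ d') → Univ K q d' e') ∧
    (3 ≤ q → d < 3 → Univ K (q - 3) d e)

/-- The row test: a move applies, or the strips exist. -/
def RowOK (nu : YoungDiagram) (K q d e : ℕ) : Prop :=
  movable q d e (mv nu 0) (mv nu 1) (mv nu 2) (mv nu 3) = true ∨
    (q = 0 ∧ Two nu K d e) ∨ (3 ≤ q ∧ Four nu K q d e)

/-- Every diagram of the right size passes the row test, up to transposition. -/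
def Covered (K q d e : ℕ) : Prop :=
  ∀ nu : YoungDiagram, nu.card = sz K q d e → RowOK nu K q d e ∨ RowOK nu.transpose K q d e

/-- The same with strips only. -/
def CoveredS (K q d e : ℕ) : Prop :=
  ∀ nu : YoungDiagram, nu.card = sz K q d e →
    ((q = 0 ∧ Two nu K d e) ∨ (3 ≤ q ∧ Four nu K q d e)) ∨
      ((q = 0 ∧ Two nu.transpose K d e) ∨ (3 ≤ q ∧ Four nu.transpose K q d e))

/-- Positivity for the diagrams with the given lists of row lengths. -/
def PosL (a b c : List ℕ) : Prop := ∀ A B C : YoungDiagram, (∀ i, A.rowLen i = a.getD i 0) →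
  (∀ i, B.rowLen i = b.getD i 0) → (∀ i, C.rowLen i = c.getD i 0) → Pos A B C

/-! ### Block statements -/

/-- (B) the small blocks used by the moves -/
def BaseStmt : Prop :=
  PosL [1] [1] [1] ∧ PosL [1, 1] [1, 1] [2] ∧ PosL [2, 1] [2, 1] [2, 1] ∧
    PosL [2, 1] [2, 1] [1, 1, 1] ∧ PosL [2, 2] [2, 2] [2, 2] ∧ PosL [2, 2] [2, 2] [1, 1, 1, 1] ∧
    PosL [3, 3] [3, 3] [2, 2, 2] ∧ PosL [3, 3, 3, 3] [3, 3, 3, 3] [6, 6] ∧
    PosL [3, 3, 3, 3] [3, 3, 3, 3] [5, 5, 1, 1] ∧ PosL [3, 3, 3, 3] [3, 3, 3, 3] [4, 4, 2, 2] ∧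
    PosL [3, 3, 3, 3] [3, 3, 3, 3] [3, 3, 3, 3]

/-- (A1) -/
def KronStmt : Prop := ∀ lam mu nu : YoungDiagram, Pos lam mu nu → 0 < kron nu.card lam mu nu

/-- (A2) from arbitrary vectors of the Specht modules -/
def OfOccStmt : Prop := ∀ (X : Type) [Fintype X] [DecidableEq X] (lam mu nu : YoungDiagram)
  (rl cl r c r' c' : X → ℕ) (b : BF X), IsLabel nu.cells rl cl → IsLabel lam.cells r c →
    IsLabel mu.cells r' c' → occ rl cl (Fn b (polyt c r) (polyt c' r')) ≠ 0 → Pos lam mu nu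

/-- (A3) symmetries -/
def SymStmt : Prop := ∀ lam mu nu : YoungDiagram, Pos lam mu nu →
  Pos mu lam nu ∧ Pos nu mu lam ∧ Pos lam.transpose mu.transpose nu

/-- (A4) the semigroup property -/
def SumStmt : Prop := ∀ a b c a' b' c' A B C : YoungDiagram, Pos a b c → Pos a' b' c' →
  (∀ i, A.rowLen i = a.rowLen i + a'.rowLen i) → (∀ i, B.rowLen i = b.rowLen i + b'.rowLen i) →
  (∀ i, C.rowLen i = c.rowLen i + c'.rowLen i) → Pos A B C

/-- (A5) states exist, are self-conjugate and have the right size; the staircase -/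
def StateStmt : Prop := (∀ K q d e, Adm K q d e → ∃ lam, IsState lam K q d e) ∧
  (∀ lam K q d e, IsState lam K q d e → lam.transpose = lam) ∧
  (∀ lam K q d e, Adm K q d e → IsState lam K q d e → lam.card = sz K q d e) ∧
  ∀ K, Univ K 0 0 0

/-- (W) the moves -/
def MoveStmt : Prop := ∀ (K q d e : ℕ) (lam nu : YoungDiagram), Adm K q d e →
  (3 ≤ q → d < 3 → q = 3 ∨ 6 ≤ q) → Below K q d e →
  IsState lam K q d e → nu.card = sz K q d e →
  movable q d e (mv nu 0) (mv nu 1) (mv nu 2) (mv nu 3) = true → Pos lam lam nu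

/-- (S1) -/
def S1Stmt : Prop := ∀ (K d e : ℕ) (lam nu : YoungDiagram), Adm K 0 d e → 1 ≤ d →
  IsState lam K 0 d e → nu.card = sz K 0 d e → Two nu K d e → Pos lam lam nu

/-- (S2) -/
def S2Stmt : Prop := ∀ (K q d e : ℕ) (lam nu : YoungDiagram), Adm K q d e → 3 ≤ q →
  IsState lam K q d e → nu.card = sz K q d e → Four nu K q d e → Pos lam lam nu

/-- (C1) two strips from the sums of the first four and eight rows -/
def TwoStmt : Prop := ∀ (nu : YoungDiagram) (K d e s : ℕ), 4 ≤ K → e ≤ 1 →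
  (s = 3 ∨ (s = 1 ∧ 2 ≤ d)) →
  2 * (K + d) - 1 + e + s * e ≤ firstRows nu 4 →
  (2 * (K + d) - 1 + e + s * e) + (2 * (K + d) - 5 + 4 * e) ≤ firstRows nu 8 → Two nu K d e

/-- (C2) four strips; `c1, ..., c4` are the sizes with slack -/
def FourStmt : Prop := ∀ (nu : YoungDiagram) (K q d e c1 c2 c3 c4 : ℕ), 8 ≤ K → e ≤ 1 →
  c1 = 2 * (K + q + d) - 1 + 2 * e → c2 = 2 * (K + q) - 5 →
  c3 = 2 * (K + q + d) - 9 + 4 * e → c4 = 2 * (K + q) - 13 →
  c1 ≤ firstRows nu 4 → c1 + max c2 c3 ≤ firstRows nu 8 → c1 + c2 + c3 ≤ firstRows nu 12 →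
  c1 + c2 + c3 + c4 ≤ firstRows nu 16 → Four nu K q d e

/-- (E) direct enumeration -/
def EnumStmt : Prop := ∀ K d e, 4 ≤ K → K ≤ 10 → 1 ≤ d → e ≤ 1 → (K ≤ 6 ∨ e = 1) →
  4 * d + 2 * e ≤ (if K % 2 = 0 then 3 * K + 8 else K + 3) → Covered K 0 d e

/-- (D) every admissible excess is reached by a universal state, given the rules -/
def CoverStmt : Prop :=
  (∀ K q d e, Adm K q d e → 1 ≤ q + d → (3 ≤ q → d < 3 → q = 3 ∨ 6 ≤ q) → Below K q d e →
    Covered K q d e → Univ K q d e) →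
  (∀ K q d e, Adm K q d e → 1 ≤ q + d → CoveredS K q d e → Univ K q d e) →
  (∀ K, Univ K 0 0 0) →
  ∀ n, 14 ≤ n → n ≠ 17 → ∃ K q d e, Adm K q d e ∧ n = sz K q d e ∧ Univ K q d e

/-- (F) the small cases -/
def SmallStmt : Prop := ∀ n ∈ [3, 5, 6, 7, 8, 10, 11, 12, 13, 17], ∃ lam : YoungDiagram,
  lam.card = n ∧ ∀ nu : YoungDiagram, nu.card = n → Pos lam lam nu

end Vale.Agent.N197T
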